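import Vale.Agent.P080.Bernstein

/-!
Anisotropic windows for classical infinity-harmonic functions (P080): the quadratic form that is
`1` along the slope `e` and `1/δ` across it, and the first and second order conditions at a
maximum of a weighted function on such a window.
-/

namespace Vale.Agent.P080

open Metric Set Filter Topology
open scoped RealInnerProductSpace

variable {E : Type*} [NormedAddCommGroup E] [InnerProductSpace ℝ E] [FiniteDimensional ℝ E]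

/-- The linear map `x ↦ ⟪e,x⟫ e + δ⁻¹ (x - ⟪e,x⟫ e)`. -/
noncomputable def aMap (e : E) (δ : ℝ) (x : E) : E := δ⁻¹ • x + ((1 - δ⁻¹) * ⟪e, x⟫) • e

/-- The quadratic form of the anisotropic windows. -/
noncomputable def aForm (e : E) (δ : ℝ) (x y : E) : ℝ := ⟪aMap e δ x, y⟫

section Form

omit [FiniteDimensional ℝ E]

theorem aForm_eq (e : E) (δ : ℝ) (x y : E) :
    aForm e δ x y = δ⁻¹ * ⟪x, y⟫ + (1 - δ⁻¹) * ⟪e, x⟫ * ⟪e, y⟫ := by
  rw [aForm, aMap, inner_add_left, real_inner_smul_left, real_inner_smul_left]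

theorem aForm_comm (e : E) (δ : ℝ) (x y : E) : aForm e δ x y = aForm e δ y x := by
  rw [aForm_eq, aForm_eq, real_inner_comm x y]; ring

theorem inner_le_sq {e : E} (he : ‖e‖ = 1) (x : E) : ⟪e, x⟫ ^ 2 ≤ ⟪x, x⟫ := by
  have h := abs_real_inner_le_norm e x
  rw [he, one_mul] at h
  rw [real_inner_self_eq_norm_sq, ← sq_abs]
  exact pow_le_pow_left₀ (abs_nonneg _) h 2

theorem le_aForm {e : E} (he : ‖e‖ = 1) {δ : ℝ} (hδ : 0 < δ) (hδ1 : δ ≤ 1) (x : E) :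
    ⟪x, x⟫ ≤ aForm e δ x x := by
  have h1 : 1 ≤ δ⁻¹ := (one_le_inv₀ hδ).2 hδ1
  rw [aForm_eq]
  nlinarith [inner_le_sq he x]

theorem aForm_le {e : E} (he : ‖e‖ = 1) {δ : ℝ} (hδ : 0 < δ) (hδ1 : δ ≤ 1) (x : E) :
    aForm e δ x x ≤ ⟪x, x⟫ / δ := by
  have h1 : 1 ≤ δ⁻¹ := (one_le_inv₀ hδ).2 hδ1
  rw [aForm_eq, div_eq_inv_mul]
  nlinarith [inner_le_sq he x, sq_nonneg ⟪e, x⟫]

theorem aMap_sq_le {e : E} (he : ‖e‖ = 1) {δ : ℝ} (hδ : 0 < δ) (hδ1 : δ ≤ 1) (x : E) :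
    δ * ⟪aMap e δ x, aMap e δ x⟫ ≤ aForm e δ x x := by
  rw [aForm_eq, aMap]
  simp only [inner_add_left, inner_add_right, real_inner_smul_left, real_inner_smul_right,
    real_inner_comm e x, real_inner_self_eq_norm_sq e, he]
  field_simp
  nlinarith [mul_le_mul_of_nonneg_left hδ1 (mul_nonneg hδ.le (sq_nonneg ⟪e, x⟫))]

theorem aForm_sq_le {e : E} (he : ‖e‖ = 1) {δ : ℝ} (hδ : 0 < δ) (hδ1 : δ ≤ 1) (x y : E) :
    aForm e δ x y ^ 2 ≤ aForm e δ x x * aForm e δ y y := by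
  have hpos : ∀ w, 0 ≤ aForm e δ w w := fun w =>
    real_inner_self_nonneg.trans (le_aForm he hδ hδ1 w)
  have key : ∀ t : ℝ, 0 ≤ aForm e δ x x + 2 * t * aForm e δ x y + t ^ 2 * aForm e δ y y := by
    intro t
    refine le_of_le_of_eq (hpos (x + t • y)) ?_
    simp only [aForm_eq, inner_add_left, inner_add_right, real_inner_smul_left,
      real_inner_smul_right, real_inner_comm x y]
    ring
  have h := discrim_le_zero (a := aForm e δ y y) (b := 2 * aForm e δ x y) (c := aForm e δ x x)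
    (fun t => by linarith [key t])
  rw [discrim] at h
  linarith

theorem aForm_vel_le {e : E} (he : ‖e‖ = 1) {δ : ℝ} (hδ : 0 < δ) {V : E} (hV : ‖V‖ ≤ 2) :
    aForm e δ V V ≤ 4 + ⟪V - e, V - e⟫ / δ := by
  rw [aForm_eq, inner_sub_left, inner_sub_right, inner_sub_right, real_inner_comm e V,
    real_inner_self_eq_norm_sq e, he]
  have h1 : ⟪e, V⟫ ^ 2 ≤ 4 := (inner_le_sq he V).trans (by
    rw [real_inner_self_eq_norm_sq]; nlinarith [norm_nonneg V])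
  rw [← sub_nonneg]
  field_simp
  nlinarith [sq_nonneg (⟪e, V⟫ - 1)]

end Form

variable {u : E → ℝ} {s : Set E}

/-- First and second order conditions at an interior maximum of
`(r - aForm y y)² exp (k U + μ U²) F`, `U = (u - ⟪e,·⟫)/δ`. -/
theorem window_max (hs : IsOpen s) (hu : ContDiffOn ℝ 3 u s)
    (heq : ∀ z ∈ s, fderiv ℝ (fderiv ℝ u) z (gradient u z) (gradient u z) = 0)
    {e z : E} {δ r k μ : ℝ} (hzs : z ∈ s) {F : E → ℝ} {F1 : E → E → ℝ} {f2 : ℝ}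
    (hF : ∀ ξ, ∀ t : ℝ, z + t • ξ ∈ s →
      HasDerivAt (fun t : ℝ => F (z + t • ξ)) (F1 (z + t • ξ) ξ) t)
    (hF1 : ∀ ξ, DifferentiableAt ℝ (fun y => F1 y ξ) z)
    (hF2 : HasDerivAt (fun t : ℝ => F1 (z + t • gradient u z) (gradient u z)) f2 0)
    (hnpos : 0 < r - aForm e δ z z)
    (hmax : IsLocalMax (fun y => (r - aForm e δ y y) ^ 2 *
      Real.exp (k * ((u y - ⟪e, y⟫) / δ) + μ * ((u y - ⟪e, y⟫) / δ) ^ 2) * F y) z) :
    let n := r - aForm e δ z z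
    let V := gradient u z
    let c := k + 2 * μ * ((u z - ⟪e, z⟫) / δ)
    let p := aForm e δ z V
    let σ := (⟪V, V⟫ - ⟪e, V⟫) / δ
    (∀ ξ, (-4 * aForm e δ z ξ + n * c / δ * ⟪V - e, ξ⟫) * F z + n * F1 z ξ = 0) ∧
      (8 * p ^ 2 - 4 * n * aForm e δ V V - 8 * n * p * c * σ +
          n ^ 2 * (2 * μ * σ ^ 2 + c ^ 2 * σ ^ 2)) * F z +
        (-8 * n * p + 2 * n ^ 2 * c * σ) * F1 z V + n ^ 2 * f2 ≤ 0 := by
  intro n V c p σ
  set G := gradient u with hGdef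
  let W : E → ℝ := fun y => (r - aForm e δ y y) ^ 2 *
    Real.exp (k * ((u y - ⟪e, y⟫) / δ) + μ * ((u y - ⟪e, y⟫) / δ) ^ 2) * F y
  obtain ⟨hzero, hacc⟩ := grad_along hs hu heq hzs
  rw [← hGdef] at hzero hacc
  have hB : ∀ y ξ : E, ∀ t : ℝ, HasDerivAt (fun t : ℝ => aForm e δ (y + t • ξ) ξ)
      (aForm e δ ξ ξ) t := by
    intro y ξ t
    have hl : HasDerivAt (fun t : ℝ => y + t • ξ) ξ t := by
      simpa using ((hasDerivAt_id t).smul_const ξ).const_add y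
    have h1 := ((hl.inner ℝ (hasDerivAt_const t ξ)).const_mul δ⁻¹).add
      ((((hasDerivAt_const t e).inner ℝ hl).const_mul (1 - δ⁻¹)).mul_const ⟪e, ξ⟫)
    have h2 : (fun t : ℝ => aForm e δ (y + t • ξ) ξ) = fun t : ℝ =>
        δ⁻¹ * ⟪y + t • ξ, ξ⟫ + (1 - δ⁻¹) * ⟪e, y + t • ξ⟫ * ⟪e, ξ⟫ :=
      funext fun t => aForm_eq _ _ _ _
    rw [h2, aForm_eq]
    exact h1.congr_deriv (by simp)
  have hderiv : ∀ ξ : E, ∀ t : ℝ, z + t • ξ ∈ s →
      HasDerivAt (fun t : ℝ => r - aForm e δ (z + t • ξ) (z + t • ξ))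
        (-2 * aForm e δ (z + t • ξ) ξ) t ∧
      HasDerivAt (fun t : ℝ => k * ((u (z + t • ξ) - ⟪e, z + t • ξ⟫) / δ) +
          μ * ((u (z + t • ξ) - ⟪e, z + t • ξ⟫) / δ) ^ 2)
        ((k + 2 * μ * ((u (z + t • ξ) - ⟪e, z + t • ξ⟫) / δ)) *
          ((⟪G (z + t • ξ), ξ⟫ - ⟪e, ξ⟫) / δ)) t ∧
      HasDerivAt (fun t : ℝ => F (z + t • ξ)) (F1 (z + t • ξ) ξ) t := by
    intro ξ t ht
    obtain ⟨hl, hlu, hlG⟩ := line_derivs hs hu z ξ ht
    have hU := (hlu.sub ((hasDerivAt_const t e).inner ℝ hl)).div_const δ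
    refine ⟨?_, ((hU.const_mul k).add ((hU.pow 2).const_mul μ)).congr_deriv ?_, hF ξ t ht⟩
    · have h2 : (fun t : ℝ => r - aForm e δ (z + t • ξ) (z + t • ξ)) = fun t : ℝ =>
          r - (δ⁻¹ * ⟪z + t • ξ, z + t • ξ⟫ + (1 - δ⁻¹) * ⟪e, z + t • ξ⟫ * ⟪e, z + t • ξ⟫) :=
        funext fun t => by rw [aForm_eq]
      rw [h2, aForm_eq]
      refine ((((hl.inner ℝ hl).const_mul δ⁻¹).add
        ((((hasDerivAt_const t e).inner ℝ hl).const_mul (1 - δ⁻¹)).mul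
          ((hasDerivAt_const t e).inner ℝ hl))).const_sub r).congr_deriv ?_
      simp only [inner_zero_left, add_zero, real_inner_comm (z + t • ξ) ξ]
      ring
    · simp [hGdef, Pi.sub_apply]; ring
  have hz0 : ∀ ξ : E, z + (0 : ℝ) • ξ ∈ s := fun ξ => by simpa using hzs
  have hev : ∀ ξ : E, ∀ᶠ t : ℝ in 𝓝 0, z + t • ξ ∈ s := fun ξ => by
    have : Continuous fun t : ℝ => z + t • ξ := by fun_prop
    exact (this.tendsto' 0 z (by simp)).eventually (hs.mem_nhds hzs)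
  have hline : ∀ ξ : E, IsLocalMax (fun t : ℝ => W (z + t • ξ)) 0 := fun ξ => by
    refine IsLocalMax.comp_continuous (f := W) (g := fun t : ℝ => z + t • ξ) ?_ (by fun_prop)
    show IsLocalMax W (z + (0 : ℝ) • ξ)
    rw [zero_smul, add_zero]
    exact hmax
  have hG0 : ∀ ξ, HasDerivAt (fun t : ℝ => G (z + t • ξ)) (fderiv ℝ G z ξ) 0 := fun ξ => by
    simpa using (line_derivs hs hu z ξ (hz0 ξ)).2.2
  have hK2 : ∀ ξ, HasDerivAt (fun t : ℝ => (k + 2 * μ * ((u (z + t • ξ) - ⟪e, z + t • ξ⟫) / δ)) *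
      ((⟪G (z + t • ξ), ξ⟫ - ⟪e, ξ⟫) / δ))
      (2 * μ * ((⟪G z, ξ⟫ - ⟪e, ξ⟫) / δ) ^ 2 + c * (⟪fderiv ℝ G z ξ, ξ⟫ / δ)) 0 := fun ξ => by
    obtain ⟨hl, hlu, -⟩ := line_derivs hs hu z ξ (hz0 ξ)
    refine ((((hlu.sub ((hasDerivAt_const (0 : ℝ) e).inner ℝ hl)).div_const δ).const_mul
      (2 * μ)).const_add k |>.mul
        ((((hG0 ξ).inner ℝ (hasDerivAt_const (0 : ℝ) ξ)).sub_const ⟪e, ξ⟫).div_const δ)).congr_deriv ?_
    simp [c, hGdef, Pi.sub_apply]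
    ring
  have hA2 : ∀ ξ, HasDerivAt (fun t : ℝ => -2 * aForm e δ (z + t • ξ) ξ)
      (-2 * aForm e δ ξ ξ) 0 := fun ξ => (hB z ξ 0).const_mul (-2)
  have hn0 : ∀ ξ : E, 0 < r - aForm e δ (z + (0 : ℝ) • ξ) (z + (0 : ℝ) • ξ) := fun ξ => by
    rw [zero_smul, add_zero]; exact hnpos
  refine ⟨fun ξ => ?_, ?_⟩
  · have hline0 : HasDerivAt (fun t : ℝ => z + t • ξ) ξ 0 := by
      simpa using ((hasDerivAt_id (0 : ℝ)).smul_const ξ).const_add z
    have hF1' := (hF1 ξ).hasFDerivAt.comp_hasDerivAt_of_eq (0 : ℝ) hline0 (by simp)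
    have h := (product_test ((hev ξ).mono fun t ht => hderiv ξ t ht) (hA2 ξ) (hK2 ξ) hF1'
      (hn0 ξ) (hline ξ)).1
    simp only [zero_smul, add_zero] at h
    rw [inner_sub_left]
    simp only [n, c, V]
    linear_combination h
  · have h := (product_test ((hev (G z)).mono fun t ht => hderiv (G z) t ht) (hA2 _) (hK2 _) hF2
      (hn0 _) (hline _)).2
    simp only [zero_smul, add_zero, hzero, zero_div, mul_zero] at h
    refine le_of_eq_of_le ?_ h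
    simp only [n, c, V, p, σ]
    ring

end Vale.Agent.P080
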