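import Vale.Agent.P080.GradientCalc

/-!
Bernstein estimates for classical infinity-harmonic functions that are close to an affine function
(P080): the squared gradient is at least `1 - C δ`, and the gradient is within `C √δ` of the slope.
-/

namespace Vale.Agent.P080

open Metric Set Filter Topology
open scoped RealInnerProductSpace

variable {E : Type*} [NormedAddCommGroup E] [InnerProductSpace ℝ E] [FiniteDimensional ℝ E]
variable {u : E → ℝ} {s : Set E}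

theorem exp_bounds_one {a : ℝ} (h : |a| ≤ 1) : 1 / 3 ≤ Real.exp a ∧ Real.exp a ≤ 3 := by
  rw [abs_le] at h
  have h3 : Real.exp 1 ≤ 3 := by linarith [Real.exp_one_lt_d9]
  refine ⟨?_, (Real.exp_le_exp.2 h.2).trans h3⟩
  calc (1 : ℝ) / 3 ≤ (Real.exp 1)⁻¹ := by rw [one_div]; exact inv_anti₀ (Real.exp_pos 1) h3
    _ = Real.exp (-1) := (Real.exp_neg 1).symm
    _ ≤ Real.exp a := Real.exp_le_exp.2 h.1

omit [FiniteDimensional ℝ E] in
/-- The weight `r² - ‖y‖²` is positive exactly inside, so a positive maximum is interior. -/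
theorem interior_of_pos {r : ℝ} {x : E} (hx : ‖x‖ ≤ r) (h : r ^ 2 - ⟪x, x⟫ ≠ 0) :
    closedBall (0 : E) r ∈ 𝓝 x := by
  refine closedBall_mem_nhds_of_mem (mem_ball_zero_iff.2 ?_)
  refine lt_of_le_of_ne hx fun heq => h ?_
  rw [real_inner_self_eq_norm_sq, heq, sub_self]

/-- First and second order conditions at a maximum of `A² exp(K) Q` on a line. -/
theorem product_test {A K Q A1 K1 Q1 : ℝ → ℝ} {a2 k2 q2 : ℝ}
    (hd : ∀ᶠ t in 𝓝 0, HasDerivAt A (A1 t) t ∧ HasDerivAt K (K1 t) t ∧ HasDerivAt Q (Q1 t) t)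
    (hA : HasDerivAt A1 a2 0) (hK : HasDerivAt K1 k2 0) (hQ : HasDerivAt Q1 q2 0)
    (hpos : 0 < A 0) (hmax : IsLocalMax (fun t => A t ^ 2 * Real.exp (K t) * Q t) 0) :
    (2 * A1 0 + A 0 * K1 0) * Q 0 + A 0 * Q1 0 = 0 ∧
    (2 * A1 0 ^ 2 + 2 * A 0 * a2 + 4 * A 0 * A1 0 * K1 0 + A 0 ^ 2 * (k2 + K1 0 ^ 2)) * Q 0 +
      (4 * A 0 * A1 0 + 2 * A 0 ^ 2 * K1 0) * Q1 0 + A 0 ^ 2 * q2 ≤ 0 := by
  let F : ℝ → ℝ := fun t => 2 * A t * A1 t * Real.exp (K t) * Q t +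
    A t ^ 2 * (Real.exp (K t) * K1 t) * Q t + A t ^ 2 * Real.exp (K t) * Q1 t
  have hF : ∀ᶠ t in 𝓝 0, HasDerivAt (fun t => A t ^ 2 * Real.exp (K t) * Q t) (F t) t := by
    filter_upwards [hd] with t ⟨ha, hk, hq⟩
    refine (((ha.pow 2).mul hk.exp).mul hq).congr_deriv ?_
    simp only [F, Pi.pow_apply, Pi.mul_apply]
    push_cast
    ring
  have hE := Real.exp_pos (K 0)
  refine ⟨?_, ?_⟩
  · have h : F 0 = 0 := hmax.hasDerivAt_eq_zero hF.self_of_nhds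
    have hne : A 0 * Real.exp (K 0) ≠ 0 := (mul_pos hpos hE).ne'
    refine (mul_eq_zero.1 (?_ : A 0 * Real.exp (K 0) * _ = 0)).resolve_left hne
    linear_combination h
  · obtain ⟨ha, hk, hq⟩ := hd.self_of_nhds
    have h2 := ((((ha.const_mul 2).mul hA).mul hk.exp).mul hq).add
      (((ha.pow 2).mul (hk.exp.mul hK)).mul hq) |>.add (((ha.pow 2).mul hk.exp).mul hQ)
    have hle := second_deriv_test hF h2 hmax
    simp only [Pi.pow_apply, Pi.mul_apply] at hle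
    push_cast at hle
    refine nonpos_of_mul_nonpos_right (?_ : Real.exp (K 0) * _ ≤ 0) hE
    refine le_of_eq_of_le ?_ hle
    ring

/-- The algebra at the maximum in `mag_bound`. -/
theorem mag_scalar {n Q δ N M : ℝ} (hn : 0 < n) (hn4 : n ≤ 1 / 4) (hQ : 0 < Q) (hδ : 0 < δ)
    (hδ4 : δ ≤ 1 / 4) (hN : 0 ≤ N) (hmain : n ^ 2 * δ * Q * N ^ 2 ≤ 12) (h6 : 6 < n * Q)
    (hge : Q ≤ N * M) (hgl : M / δ - 2 / n ≤ N) : n ^ 2 * Q ≤ 3 := by
  rcases le_or_gt (4 / n) (M / δ) with hc | hc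
  · exfalso
    have h1 : M ≤ 2 * δ * N := by
      have h2 : 2 / n = 4 / n / 2 := by ring
      have h3 : M / δ ≤ 2 * N := by linarith
      rw [div_le_iff₀ hδ] at h3
      linarith
    have h4 : Q ≤ 2 * δ * N ^ 2 := by
      nlinarith [mul_le_mul_of_nonneg_left h1 hN]
    have h5 : (n * Q) ^ 2 ≤ 24 := by
      nlinarith [mul_le_mul_of_nonneg_left h4 (by positivity : (0 : ℝ) ≤ n ^ 2 * Q)]
    nlinarith
  · rw [div_lt_div_iff₀ hδ hn] at hc
    have h1 : n * Q ≤ 4 * δ * N := by nlinarith [mul_le_mul_of_nonneg_left hc.le hN]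
    have h2 : (n * Q) ^ 2 ≤ (4 * δ * N) ^ 2 := pow_le_pow_left₀ (by positivity) h1 2
    have h3 : n ^ 4 * Q ^ 3 ≤ 48 := by
      nlinarith [mul_le_mul_of_nonneg_left h2 (by positivity : (0 : ℝ) ≤ n ^ 2 * Q)]
    by_contra hcon
    push Not at hcon
    have h4 : (27 : ℝ) < (n ^ 2 * Q) ^ 3 := by
      have := pow_lt_pow_left₀ hcon (by norm_num) (three_ne_zero)
      linarith
    nlinarith [mul_le_mul_of_nonneg_left h3 (sq_nonneg n)]

/-- First and second order information at an interior maximum of the magnitude weight. -/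
theorem mag_at_max (hs : IsOpen s) (hu : ContDiffOn ℝ 3 u s)
    (heq : ∀ z ∈ s, fderiv ℝ (fderiv ℝ u) z (gradient u z) (gradient u z) = 0)
    {e z : E} {δ : ℝ} (hδ : 0 < δ) (hzs : z ∈ s) (hzn : ‖z‖ ≤ 1 / 2) (hV2 : ‖gradient u z‖ ≤ 2)
    (hnpos : 0 < 1 / 4 - ⟪z, z⟫) (hQpos : 0 < (1 - ⟪gradient u z, gradient u z⟫) / (2 * δ))
    (hmax : IsLocalMax (fun y => (1 / 4 - ⟪y, y⟫) ^ 2 * Real.exp ((u y - ⟪e, y⟫) / δ) *
      ((1 - ⟪gradient u y, gradient u y⟫) / (2 * δ))) z) :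
    let n := 1 / 4 - ⟪z, z⟫
    let V := gradient u z
    let g := (-4 / n) • z + (1 / δ) • (V - e)
    n ^ 2 * δ * ((1 - ⟪V, V⟫) / (2 * δ)) * ‖g‖ ^ 2 ≤ 12 ∧ ⟪g, V⟫ = 0 ∧ n ≤ 1 / 4 ∧
      |⟪z, V⟫| ≤ 1 ∧ n * ((⟪V, V⟫ - ⟪e, V⟫) / δ) = 4 * ⟪z, V⟫ := by
  intro n' V' g'
  set G := gradient u with hGdef
  let W : E → ℝ := fun y => (1 / 4 - ⟪y, y⟫) ^ 2 * Real.exp ((u y - ⟪e, y⟫) / δ) *
    ((1 - ⟪G y, G y⟫) / (2 * δ))
  obtain ⟨hzero, hacc⟩ := grad_along hs hu heq hzs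
  rw [← hGdef] at hzero hacc
  set V := G z with hV
  set H := fderiv ℝ G z with hH
  set a := H V with ha
  set n := 1 / 4 - ⟪z, z⟫ with hn
  set Q := (1 - ⟪V, V⟫) / (2 * δ) with hQdef
  have hderiv : ∀ ξ : E, ∀ t : ℝ, z + t • ξ ∈ s →
      HasDerivAt (fun t : ℝ => 1 / 4 - ⟪z + t • ξ, z + t • ξ⟫) (-2 * ⟪z + t • ξ, ξ⟫) t ∧
      HasDerivAt (fun t : ℝ => (u (z + t • ξ) - ⟪e, z + t • ξ⟫) / δ)
        ((⟪G (z + t • ξ), ξ⟫ - ⟪e, ξ⟫) / δ) t ∧
      HasDerivAt (fun t : ℝ => (1 - ⟪G (z + t • ξ), G (z + t • ξ)⟫) / (2 * δ))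
        (-⟪G (z + t • ξ), fderiv ℝ G (z + t • ξ) ξ⟫ / δ) t := by
    intro ξ t ht
    obtain ⟨hl, hlu, hlG⟩ := line_derivs hs hu z ξ ht
    refine ⟨((hl.inner ℝ hl).const_sub (1 / 4 : ℝ)).congr_deriv ?_,
      ((hlu.sub ((hasDerivAt_const t e).inner ℝ hl)).div_const δ).congr_deriv ?_,
      (((hlG.inner ℝ hlG).const_sub (1 : ℝ)).div_const (2 * δ)).congr_deriv ?_⟩
    · rw [real_inner_comm (z + t • ξ) ξ]; ring
    · simp [hGdef]
    · rw [real_inner_comm (gradient u (z + t • ξ)) (fderiv ℝ (gradient u) (z + t • ξ) ξ), hGdef]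
      ring
  have hz0 : ∀ ξ : E, z + (0 : ℝ) • ξ ∈ s := fun ξ => by simpa using hzs
  have hev : ∀ ξ : E, ∀ᶠ t : ℝ in 𝓝 0, z + t • ξ ∈ s := fun ξ => by
    have : Continuous fun t : ℝ => z + t • ξ := by fun_prop
    exact (this.tendsto' 0 z (by simp)).eventually (hs.mem_nhds hzs)
  have hline : ∀ ξ : E, IsLocalMax (fun t : ℝ => W (z + t • ξ)) 0 := fun ξ => by
    refine IsLocalMax.comp_continuous (f := W) (g := fun t : ℝ => z + t • ξ) ?_ (by fun_prop)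
    show IsLocalMax W (z + (0 : ℝ) • ξ)
    rw [zero_smul, add_zero]
    exact hmax
  have hG0 : ∀ ξ, HasDerivAt (fun t : ℝ => G (z + t • ξ)) (H ξ) 0 := fun ξ => by
    simpa using (line_derivs hs hu z ξ (hz0 ξ)).2.2
  have hfirst : ∀ ξ, (2 * (-2 * ⟪z, ξ⟫) + n * ((⟪V, ξ⟫ - ⟪e, ξ⟫) / δ)) * Q + n * (-⟪a, ξ⟫ / δ) = 0 := by
    intro ξ
    obtain ⟨hl, hlu, hlG⟩ := line_derivs hs hu z ξ (hz0 ξ)
    have hH2 : DifferentiableAt ℝ (fun y => fderiv ℝ G y ξ) z :=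
      (((contDiffAt_gradient hs hu hzs).fderiv_right (m := 1) (by norm_num)).differentiableAt
        (by norm_num)).clm_apply (differentiableAt_const ξ)
    have hline0 : HasDerivAt (fun t : ℝ => z + t • ξ) ξ 0 := hl
    have hacc' := hH2.hasFDerivAt.comp_hasDerivAt_of_eq (0 : ℝ) hline0 (by simp)
    have h := (product_test ((hev ξ).mono fun t ht => hderiv ξ t ht)
      ((hl.inner ℝ (hasDerivAt_const (0 : ℝ) ξ)).const_mul (-2))
      (((hG0 ξ).inner ℝ (hasDerivAt_const (0 : ℝ) ξ)).sub_const ⟪e, ξ⟫ |>.div_const δ)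
      (((hG0 ξ).inner ℝ hacc').neg.div_const δ) (by simp only [zero_smul, add_zero, ← hn]; exact hnpos) (hline ξ)).1
    have hs' : ⟪V, H ξ⟫ = ⟪a, ξ⟫ := by
      rw [real_inner_comm, hH, hGdef, hess_symm hs hu hzs]
    simp only [zero_smul, add_zero] at h
    rw [← hn, ← hV, ← hQdef, ← hH, hs'] at h
    exact h
  set g := (-4 / n) • z + (1 / δ) • (V - e) with hg
  have hag : a = (δ * Q) • g := by
    refine ext_inner_right ℝ fun ξ => ?_
    rw [hg, real_inner_smul_left, inner_add_left, real_inner_smul_left, real_inner_smul_left,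
      inner_sub_left]
    have h := hfirst ξ
    field_simp at h ⊢
    linear_combination (-1 : ℝ) * h
  have hgV : ⟪g, V⟫ = 0 := by
    have : ⟪a, V⟫ = 0 := hzero
    rw [hag, real_inner_smul_left] at this
    exact (mul_eq_zero.1 this).resolve_left (by positivity)
  set p := ⟪z, V⟫ with hp
  set σ := (⟪V, V⟫ - ⟪e, V⟫) / δ with hσ
  have hσp : n * σ = 4 * p := by
    rw [hg, inner_add_left, real_inner_smul_left, real_inner_smul_left, inner_sub_left, ← hp] at hgV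
    rw [hσ]; field_simp at hgV ⊢; linarith
  have hsecond : n ^ 2 * (⟪a, a⟫ / δ) ≤ Q * (8 * p ^ 2 + 4 * n * ⟪V, V⟫) := by
    obtain ⟨hl, hlu, hlG⟩ := line_derivs hs hu z V (hz0 V)
    have h := (product_test ((hev V).mono fun t ht => hderiv V t ht)
      ((hl.inner ℝ (hasDerivAt_const (0 : ℝ) V)).const_mul (-2))
      (((hG0 V).inner ℝ (hasDerivAt_const (0 : ℝ) V)).sub_const ⟪e, V⟫ |>.div_const δ)
      (((hG0 V).inner ℝ hacc).neg.div_const δ) (by simp only [zero_smul, add_zero, ← hn]; exact hnpos) (hline V)).2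
    simp only [zero_smul, add_zero, inner_zero_right, zero_add] at h
    rw [← hn, ← hV, ← hQdef, ← hH, ← hp, ← hσ, ← ha, hzero, real_inner_comm a V, hzero,
      real_inner_smul_right] at h
    have hVa : ⟪V, H a⟫ = ⟪a, a⟫ := by
      rw [real_inner_comm, hH, hGdef, hess_symm hs hu hzs]
    rw [hVa] at h
    have e1 : n * p * σ = 4 * p ^ 2 := by linear_combination p * hσp
    have e2 : n ^ 2 * σ ^ 2 = 16 * p ^ 2 := by linear_combination (n * σ + 4 * p) * hσp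
    linear_combination h + 8 * Q * e1 - Q * e2
  have hvv : ⟪V, V⟫ ≤ 4 := by rw [real_inner_self_eq_norm_sq]; nlinarith [norm_nonneg V]
  have hpb : |p| ≤ 1 := by
    refine (abs_real_inner_le_norm z V).trans ?_
    nlinarith [norm_nonneg V, norm_nonneg z]
  have hn4 : n ≤ 1 / 4 := by rw [hn]; linarith [real_inner_self_nonneg (x := z)]
  have hmain : n ^ 2 * δ * Q * ‖g‖ ^ 2 ≤ 12 := by
    rw [hag, real_inner_self_eq_norm_sq, norm_smul, Real.norm_eq_abs,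
      abs_of_pos (by positivity)] at hsecond
    have h8 : 8 * p ^ 2 + 4 * n * ⟪V, V⟫ ≤ 12 := by
      have hp2 : p ^ 2 ≤ 1 := by nlinarith [abs_le.1 hpb]
      nlinarith
    have e : n ^ 2 * ((δ * Q * ‖g‖) ^ 2 / δ) = Q * (n ^ 2 * δ * Q * ‖g‖ ^ 2) := by field_simp
    rw [e] at hsecond
    exact le_trans (le_of_mul_le_mul_left hsecond hQpos) h8
  exact ⟨hmain, hgV, hn4, hpb, hσp⟩

/-- Magnitude: an infinity-harmonic function close to `⟪e, ·⟫` has squared gradient at least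
`1 - C δ`. -/
theorem mag_bound (hs : IsOpen s) (hu : ContDiffOn ℝ 3 u s)
    (heq : ∀ z ∈ s, fderiv ℝ (fderiv ℝ u) z (gradient u z) (gradient u z) = 0)
    (hball : closedBall (0 : E) (1 / 2) ⊆ s) {e : E} (he : ‖e‖ = 1) {δ : ℝ} (hδ : 0 < δ)
    (hδ4 : δ ≤ 1 / 4) (hflat : ∀ y ∈ closedBall (0 : E) (1 / 2), |u y - ⟪e, y⟫| ≤ δ)
    (hG2 : ∀ y ∈ closedBall (0 : E) (1 / 2), ‖gradient u y‖ ≤ 2) {x : E} (hx : ‖x‖ ≤ 1 / 4) :
    1 - ⟪gradient u x, gradient u x⟫ ≤ 1536 * δ := by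
  set G := gradient u with hGdef
  let W : E → ℝ := fun y => (1 / 4 - ⟪y, y⟫) ^ 2 * Real.exp ((u y - ⟪e, y⟫) / δ) *
    ((1 - ⟪G y, G y⟫) / (2 * δ))
  have hU : ∀ y ∈ closedBall (0 : E) (1 / 2), |(u y - ⟪e, y⟫) / δ| ≤ 1 := fun y hy => by
    rw [abs_div, abs_of_pos hδ, div_le_one hδ]; exact hflat y hy
  have hxB : x ∈ closedBall (0 : E) (1 / 2) := mem_closedBall_zero_iff.2 (by linarith)
  suffices hW : ∀ y ∈ closedBall (0 : E) (1 / 2), W y ≤ 9 by
    have h := hW x hxB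
    simp only [W] at h
    obtain ⟨hE, -⟩ := exp_bounds_one (hU x hxB)
    have hn : 3 / 16 ≤ 1 / 4 - ⟪x, x⟫ := by
      rw [real_inner_self_eq_norm_sq]; nlinarith [norm_nonneg x]
    rcases le_or_gt ((1 - ⟪G x, G x⟫) / (2 * δ)) 0 with hQ | hQ
    · rw [div_nonpos_iff] at hQ
      rcases hQ with ⟨-, h2⟩ | ⟨h1, -⟩ <;> linarith
    · have h1 : (3 / 16 : ℝ) ^ 2 * (1 / 3) ≤
          (1 / 4 - ⟪x, x⟫) ^ 2 * Real.exp ((u x - ⟪e, x⟫) / δ) :=
        mul_le_mul (pow_le_pow_left₀ (by norm_num) hn 2) hE (by norm_num) (sq_nonneg _)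
      have h2 := mul_le_mul_of_nonneg_right h1 hQ.le
      have h3 : (1 - ⟪G x, G x⟫) / (2 * δ) ≤ 768 := by linarith
      rw [div_le_iff₀ (by positivity)] at h3
      linarith
  have hGc : ContinuousOn G (closedBall (0 : E) (1 / 2)) := fun y hy =>
    (hasFDerivAt_gradient hs hu (hball hy)).continuousAt.continuousWithinAt
  have huc : ContinuousOn u (closedBall (0 : E) (1 / 2)) := hu.continuousOn.mono hball
  have hWc : ContinuousOn W (closedBall (0 : E) (1 / 2)) := by fun_prop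
  obtain ⟨z, hzB, hzmax⟩ := (isCompact_closedBall (0 : E) (1 / 2)).exists_isMaxOn
    (nonempty_closedBall.2 (by norm_num)) hWc
  suffices hWz : W z ≤ 9 from fun y hy => (hzmax hy).trans hWz
  rcases le_or_gt (W z) 0 with h0 | h0
  · linarith
  have hzn : ‖z‖ ≤ 1 / 2 := mem_closedBall_zero_iff.1 hzB
  have hn0 : 1 / 4 - ⟪z, z⟫ ≠ 0 := fun h => by
    simp only [W] at h0
    rw [h] at h0
    simp at h0
  have hnh : closedBall (0 : E) (1 / 2) ∈ 𝓝 z := interior_of_pos hzn (by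
    rw [show ((1 : ℝ) / 2) ^ 2 = 1 / 4 by norm_num]; exact hn0)
  have hmax : IsLocalMax W z := hzmax.isLocalMax hnh
  have hzs : z ∈ s := hball hzB
  set V := G z with hV
  set n := 1 / 4 - ⟪z, z⟫ with hn
  set Q := (1 - ⟪V, V⟫) / (2 * δ) with hQdef
  set Ex := Real.exp ((u z - ⟪e, z⟫) / δ) with hEx
  have hEx0 : 0 < Ex := Real.exp_pos _
  have hnpos : 0 < n := by
    rcases lt_or_gt_of_ne hn0 with h | h
    · rw [hn, real_inner_self_eq_norm_sq] at h ⊢; nlinarith [norm_nonneg z]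
    · exact h
  have hQpos : 0 < Q := by
    have : 0 < n ^ 2 * Ex * Q := h0
    exact (pos_iff_pos_of_mul_pos this).1 (by positivity)
  obtain ⟨hmain, hgV, hn4, hpb, hσp⟩ :=
    mag_at_max hs hu heq hδ hzs hzn (hG2 z hzB) hnpos hQpos hmax
  set g := (-4 / n) • z + (1 / δ) • (V - e) with hg
  set p := ⟪z, V⟫ with hp
  set σ := (⟪V, V⟫ - ⟪e, V⟫) / δ with hσ
  suffices hnQ : n ^ 2 * Q ≤ 3 by
    show n ^ 2 * Ex * Q ≤ 9
    have := (exp_bounds_one (hU z hzB)).2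
    nlinarith [mul_le_mul hnQ this hEx0.le (by norm_num)]
  rcases le_or_gt (n * Q) 6 with h6 | h6
  · nlinarith
  have hge : Q ≤ ‖g‖ * ‖V - e‖ := by
    refine le_trans ?_ (real_inner_le_norm g (V - e))
    rw [inner_sub_right, hgV, hg, inner_add_left, real_inner_smul_left, real_inner_smul_left,
      inner_sub_left, real_inner_comm e V]
    have hze : |⟪z, e⟫| ≤ 1 / 2 := (abs_real_inner_le_norm z e).trans (by rw [he]; linarith)
    have hee : ⟪e, e⟫ = 1 := by rw [real_inner_self_eq_norm_sq, he]; norm_num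
    have e1 : ⟪e, V⟫ = 1 - 2 * δ * Q - δ * σ := by rw [hQdef, hσ]; field_simp; ring
    rw [e1, hee]
    refine le_of_mul_le_mul_left ?_ hnpos
    field_simp
    have := mul_le_mul_of_nonneg_left h6.le hδ.le
    nlinarith [mul_le_mul_of_nonneg_left (abs_le.1 hze).1 hδ.le,
      mul_le_mul_of_nonneg_left (abs_le.1 hze).2 hδ.le,
      mul_le_mul_of_nonneg_left (abs_le.1 hpb).1 hδ.le,
      mul_le_mul_of_nonneg_left (abs_le.1 hpb).2 hδ.le, congrArg (fun r => δ * r) hσp]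
  have hgl : ‖V - e‖ / δ - 2 / n ≤ ‖g‖ := by
    have h := norm_sub_norm_le ((1 / δ) • (V - e)) ((4 / n) • z)
    rw [norm_smul, norm_smul, Real.norm_eq_abs, Real.norm_eq_abs, abs_of_pos (by positivity),
      abs_of_pos (by positivity)] at h
    have h2 : 4 / n * ‖z‖ ≤ 2 / n := by
      rw [div_mul_eq_mul_div]; exact div_le_div_of_nonneg_right (by linarith) hnpos.le
    rw [show (1 / δ) • (V - e) - (4 / n) • z = g by rw [hg, neg_div, neg_smul]; abel] at h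
    rw [one_div_mul_eq_div] at h
    linarith
  exact mag_scalar hnpos hn4 hQpos hδ hδ4 (norm_nonneg g) hmain h6 hge hgl

end Vale.Agent.P080
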