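import Vale.Agent.P080.Bernstein

/-!
Second Bernstein estimate (P080): once the squared gradient is `1 + O(δ)`, the gradient of a
classical infinity-harmonic function that is `δ`-close to `⟪e, ·⟫` is within `C √δ` of `e`.
-/

namespace Vale.Agent.P080

open Metric Set Filter Topology
open scoped RealInnerProductSpace

/-- The algebra at the maximum in `dir_bound`. -/
theorem dir_scalar {n δ f p c σ vv AA az fd q : ℝ} (hn : 0 < n) (hn16 : n ≤ 1 / 16) (hδ : 0 < δ)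
    (hf : 0 < f) (hf9 : f ≤ 9) (hp : |p| ≤ 1 / 2) (hc : |c| ≤ 1 / 8) (hvv : vv ≤ 4)
    (hq : |q| ≤ 1536) (hfq : f = δ * (2 * σ + q)) (hAA : 0 ≤ AA) (haz : az ^ 2 ≤ AA / 16)
    (hfd : n * fd = f * (4 * p - n * c * σ))
    (h : (8 * p ^ 2 - 4 * n * vv - 8 * n * p * c * σ + n ^ 2 * (σ ^ 2 / 8 + c ^ 2 * σ ^ 2)) * f +
      (-8 * n * p + 2 * n ^ 2 * c * σ) * fd +
      n ^ 2 * (2 * AA + 2 * f * (-4 * az / n + c / δ * (fd / 2))) ≤ 0) :
    n * f ≤ 182 * δ := by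
  set t := n * σ with ht
  have hnq : |n * q| ≤ 96 := by
    rw [abs_mul, abs_of_pos hn]
    calc n * |q| ≤ 1 / 16 * 1536 := mul_le_mul hn16 hq (abs_nonneg _) (by norm_num)
      _ = 96 := by norm_num
  have hX : (-8 * n * p + 2 * n ^ 2 * c * σ) * fd = f * (-2 * (4 * p - c * t) ^ 2) := by
    linear_combination (-8 * p + 2 * n * c * σ) * hfd
  have hY : n ^ 2 * (2 * f * (c / δ * (fd / 2))) =
      f * (c * (2 * t + n * q) * (4 * p - c * t)) := by
    have : n ^ 2 * (2 * f * (c / δ * (fd / 2))) = n * f * c / δ * (n * fd) := by ring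
    rw [this, hfd, hfq, ht]
    field_simp
  have hZ : -(f * (f / 2)) ≤ n ^ 2 * (2 * AA) + n ^ 2 * (2 * f * (-4 * az / n)) := by
    have e : n ^ 2 * (2 * f * (-4 * az / n)) = -8 * f * (n * az) := by field_simp; ring
    rw [e]
    have h1 : (n * az) ^ 2 ≤ n ^ 2 * AA / 16 := by
      rw [mul_pow]; nlinarith [mul_le_mul_of_nonneg_left haz (sq_nonneg n)]
    nlinarith [sq_nonneg (f - 8 * (n * az))]
  have hkey : f * (8 * p ^ 2 - 4 * n * vv - 8 * p * c * t + t ^ 2 / 8 + c ^ 2 * t ^ 2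
      - 2 * (4 * p - c * t) ^ 2 + c * (2 * t + n * q) * (4 * p - c * t) - f / 2) ≤ 0 := by
    rw [hX] at h
    nlinarith [hY, hZ]
  have hI := nonpos_of_mul_nonpos_right hkey hf
  have hc2 : c ^ 2 ≤ 1 / 64 := by
    have := sq_le_sq' (abs_le.1 hc).1 (abs_le.1 hc).2
    linarith
  have hp2 : p ^ 2 ≤ 1 / 4 := by
    have := sq_le_sq' (abs_le.1 hp).1 (abs_le.1 hp).2
    linarith
  have hpc : |p * c| ≤ 1 / 16 := by
    rw [abs_mul]
    exact (mul_le_mul hp hc (abs_nonneg c) (by norm_num)).trans (by norm_num)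
  have b1 : |16 * p * c * t| ≤ |t| := by
    rw [show 16 * p * c * t = 16 * (p * c) * t by ring, abs_mul, abs_mul,
      abs_of_pos (by norm_num : (0 : ℝ) < 16)]
    have := mul_le_mul_of_nonneg_right hpc (abs_nonneg t)
    linarith
  have b2 : |4 * (p * c) * (n * q)| ≤ 24 := by
    rw [abs_mul, abs_mul, abs_of_pos (by norm_num : (0 : ℝ) < 4)]
    have := mul_le_mul hpc hnq (abs_nonneg _) (by norm_num)
    linarith
  have b3 : |c ^ 2 * t * (n * q)| ≤ 3 / 2 * |t| := by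
    rw [abs_mul, abs_mul, abs_of_nonneg (sq_nonneg c)]
    have := mul_le_mul (mul_le_mul_of_nonneg_right hc2 (abs_nonneg t)) hnq (abs_nonneg _)
      (by positivity)
    linarith
  have hnv : n * vv ≤ 1 / 4 := by
    have := mul_le_mul_of_nonneg_left hvv hn.le
    linarith
  have hquad : (5 / 64) * t ^ 2 ≤ 5 / 2 * |t| + 36 := by
    have := mul_le_mul_of_nonneg_right hc2 (sq_nonneg t)
    linarith [abs_le.1 b1, abs_le.1 b2, abs_le.1 b3]
  have ht43 : |t| ≤ 43 := by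
    by_contra hcon
    push Not at hcon
    have h1 := mul_le_mul_of_nonneg_right hcon.le (abs_nonneg t)
    rw [← sq_abs t, pow_two] at hquad
    linarith
  have : n * f = δ * (2 * t + n * q) := by rw [hfq, ht]; ring
  rw [this]
  rw [mul_comm (182 : ℝ)]
  exact mul_le_mul_of_nonneg_left (by linarith [abs_le.1 ht43, abs_le.1 hnq]) hδ.le

variable {E : Type*} [NormedAddCommGroup E] [InnerProductSpace ℝ E] [FiniteDimensional ℝ E]
variable {u : E → ℝ} {s : Set E}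

/-- Second order information at an interior maximum of the direction weight. -/
theorem dir_at_max (hs : IsOpen s) (hu : ContDiffOn ℝ 3 u s)
    (heq : ∀ z ∈ s, fderiv ℝ (fderiv ℝ u) z (gradient u z) (gradient u z) = 0)
    {e z : E} {δ : ℝ} (hδ : 0 < δ) (hzs : z ∈ s) (he : ‖e‖ = 1) (hzn : ‖z‖ ≤ 1 / 4)
    (hV2 : ‖gradient u z‖ ≤ 2) (hU : |(u z - ⟪e, z⟫) / δ| ≤ 1)
    (hq : |(1 - ⟪gradient u z, gradient u z⟫) / δ| ≤ 1536)
    (hnpos : 0 < 1 / 16 - ⟪z, z⟫) (hfpos : 0 < ⟪gradient u z - e, gradient u z - e⟫)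
    (hmax : IsLocalMax (fun y => (1 / 16 - ⟪y, y⟫) ^ 2 *
      Real.exp (((u y - ⟪e, y⟫) / δ) ^ 2 / 16) * ⟪gradient u y - e, gradient u y - e⟫) z) :
    (1 / 16 - ⟪z, z⟫) * ⟪gradient u z - e, gradient u z - e⟫ ≤ 182 * δ := by
  set G := gradient u with hGdef
  let W : E → ℝ := fun y => (1 / 16 - ⟪y, y⟫) ^ 2 *
      Real.exp (((u y - ⟪e, y⟫) / δ) ^ 2 / 16) * ⟪G y - e, G y - e⟫
  obtain ⟨hzero, hacc⟩ := grad_along hs hu heq hzs
  rw [← hGdef] at hzero hacc
  set V := G z with hV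
  set H := fderiv ℝ G z with hH
  set a := H V with ha
  set n := 1 / 16 - ⟪z, z⟫ with hn
  set f := ⟪V - e, V - e⟫ with hfdef
  set c := (u z - ⟪e, z⟫) / δ / 8 with hcdef
  have hderiv : ∀ ξ : E, ∀ t : ℝ, z + t • ξ ∈ s →
      HasDerivAt (fun t : ℝ => 1 / 16 - ⟪z + t • ξ, z + t • ξ⟫) (-2 * ⟪z + t • ξ, ξ⟫) t ∧
      HasDerivAt (fun t : ℝ => ((u (z + t • ξ) - ⟪e, z + t • ξ⟫) / δ) ^ 2 / 16)
        ((u (z + t • ξ) - ⟪e, z + t • ξ⟫) / δ * ((⟪G (z + t • ξ), ξ⟫ - ⟪e, ξ⟫) / δ) / 8) t ∧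
      HasDerivAt (fun t : ℝ => ⟪G (z + t • ξ) - e, G (z + t • ξ) - e⟫)
        (2 * ⟪G (z + t • ξ) - e, fderiv ℝ G (z + t • ξ) ξ⟫) t := by
    intro ξ t ht
    obtain ⟨hl, hlu, hlG⟩ := line_derivs hs hu z ξ ht
    refine ⟨((hl.inner ℝ hl).const_sub (1 / 16 : ℝ)).congr_deriv ?_,
      ((((hlu.sub ((hasDerivAt_const t e).inner ℝ hl)).div_const δ).pow 2).div_const
        16).congr_deriv ?_,
      ((hlG.sub_const e).inner ℝ (hlG.sub_const e)).congr_deriv ?_⟩
    · rw [real_inner_comm (z + t • ξ) ξ]; ring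
    · simp [hGdef, Pi.sub_apply]; ring
    · rw [real_inner_comm (gradient u (z + t • ξ) - e) (fderiv ℝ (gradient u) (z + t • ξ) ξ),
        hGdef]
      ring
  have hz0 : ∀ ξ : E, z + (0 : ℝ) • ξ ∈ s := fun ξ => by simpa using hzs
  have hev : ∀ ξ : E, ∀ᶠ t : ℝ in 𝓝 0, z + t • ξ ∈ s := fun ξ => by
    have : Continuous fun t : ℝ => z + t • ξ := by fun_prop
    exact (this.tendsto' 0 z (by simp)).eventually (hs.mem_nhds hzs)
  have hline : ∀ ξ : E, IsLocalMax (fun t : ℝ => W (z + t • ξ)) 0 := fun ξ => by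
    refine IsLocalMax.comp_continuous (f := W) (g := fun t : ℝ => z + t • ξ) ?_ (by fun_prop)
    show IsLocalMax W (z + (0 : ℝ) • ξ)
    rw [zero_smul, add_zero]
    exact hmax
  have hG0 : ∀ ξ, HasDerivAt (fun t : ℝ => G (z + t • ξ)) (H ξ) 0 := fun ξ => by
    simpa using (line_derivs hs hu z ξ (hz0 ξ)).2.2
  have hfirst : ∀ ξ, (2 * (-2 * ⟪z, ξ⟫) + n * (c * ((⟪V, ξ⟫ - ⟪e, ξ⟫) / δ))) * f +
      n * (2 * ⟪H (V - e), ξ⟫) = 0 := by
    intro ξ
    obtain ⟨hl, hlu, hlG⟩ := line_derivs hs hu z ξ (hz0 ξ)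
    have hH2 : DifferentiableAt ℝ (fun y => fderiv ℝ G y ξ) z :=
      (((contDiffAt_gradient hs hu hzs).fderiv_right (m := 1) (by norm_num)).differentiableAt
        (by norm_num)).clm_apply (differentiableAt_const ξ)
    have hline0 : HasDerivAt (fun t : ℝ => z + t • ξ) ξ 0 := hl
    have hacc' := hH2.hasFDerivAt.comp_hasDerivAt_of_eq (0 : ℝ) hline0 (by simp)
    have h := (product_test ((hev ξ).mono fun t ht => hderiv ξ t ht)
      ((hl.inner ℝ (hasDerivAt_const (0 : ℝ) ξ)).const_mul (-2))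
      ((((hlu.sub ((hasDerivAt_const (0 : ℝ) e).inner ℝ hl)).div_const δ).mul
        ((((hG0 ξ).inner ℝ (hasDerivAt_const (0 : ℝ) ξ)).sub_const ⟪e, ξ⟫).div_const δ)).div_const 8)
      ((((hG0 ξ).sub_const e).inner ℝ hacc').const_mul 2)
      (by simp only [zero_smul, add_zero, ← hn]; exact hnpos) (hline ξ)).1
    have hs' : ⟪V - e, H ξ⟫ = ⟪H (V - e), ξ⟫ := by
      rw [real_inner_comm, hH, hGdef, hess_symm hs hu hzs]
    simp only [zero_smul, add_zero] at h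
    rw [← hn, ← hV, ← hH, hs', ← hfdef] at h
    rw [hcdef]
    linear_combination h
  set g := (-4 / n) • z + (c / δ) • (V - e) with hg
  have hHg : H (V - e) = (-f / 2) • g := by
    refine ext_inner_right ℝ fun ξ => ?_
    rw [hg, real_inner_smul_left, inner_add_left, real_inner_smul_left, real_inner_smul_left,
      inner_sub_left]
    have h := hfirst ξ
    field_simp at h ⊢
    linear_combination h
  set p := ⟪z, V⟫ with hp
  set σ := (⟪V, V⟫ - ⟪e, V⟫) / δ with hσ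
  set fd := 2 * ⟪V - e, a⟫ with hfd
  have hfdv : n * fd = f * (4 * p - n * c * σ) := by
    have h := hfirst V
    have e1 : ⟪H (V - e), V⟫ = ⟪V - e, a⟫ := by
      rw [ha, hH, hGdef]
      exact (hess_symm hs hu hzs _ _).trans (real_inner_comm _ _)
    rw [← hp, ← hσ, e1] at h
    rw [hfd]
    linear_combination h
  have hHa : ⟪V - e, H a⟫ = -f / 2 * ⟪g, a⟫ := by
    rw [← real_inner_smul_left, ← hHg, real_inner_comm, hH, hGdef]
    exact hess_symm hs hu hzs _ _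
  have hga : ⟪g, a⟫ = -4 * ⟪z, a⟫ / n + c / δ * (fd / 2) := by
    rw [hg, inner_add_left, real_inner_smul_left, real_inner_smul_left, hfd]
    ring
  obtain ⟨hl, hlu, hlG⟩ := line_derivs hs hu z V (hz0 V)
  have h := (product_test ((hev V).mono fun t ht => hderiv V t ht)
      ((hl.inner ℝ (hasDerivAt_const (0 : ℝ) V)).const_mul (-2))
      ((((hlu.sub ((hasDerivAt_const (0 : ℝ) e).inner ℝ hl)).div_const δ).mul
        ((((hG0 V).inner ℝ (hasDerivAt_const (0 : ℝ) V)).sub_const ⟪e, V⟫).div_const δ)).div_const 8)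
      ((((hG0 V).sub_const e).inner ℝ hacc).const_mul 2)
      (by simp only [zero_smul, add_zero, ← hn]; exact hnpos) (hline V)).2
  simp only [zero_smul, add_zero, inner_zero_right, inner_zero_left, zero_add, Pi.sub_apply] at h
  rw [← hGdef, ← hn, ← hV, ← hH, ← hp, ← hfdef, ← ha, ← hσ, hzero,
    real_inner_smul_right, hHa, hga] at h
  refine dir_scalar (p := p) (c := c) (σ := σ) (vv := ⟪V, V⟫) (AA := ⟪a, a⟫) (az := ⟪z, a⟫)
    (fd := fd) (q := (1 - ⟪V, V⟫) / δ) hnpos (by rw [hn]; linarith [real_inner_self_nonneg (x := z)])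
    hδ hfpos ?_ ?_ ?_ ?_ hq ?_ real_inner_self_nonneg ?_ hfdv ?_
  · rw [hfdef, real_inner_self_eq_norm_sq]
    have := pow_le_pow_left₀ (norm_nonneg (V - e)) ((norm_sub_le V e).trans
      (show ‖V‖ + ‖e‖ ≤ 3 by rw [he]; linarith)) 2
    linarith
  · exact (abs_real_inner_le_norm z V).trans
      ((mul_le_mul hzn hV2 (norm_nonneg V) (by norm_num)).trans (by norm_num))
  · rw [hcdef, abs_div, abs_of_pos (by norm_num : (0 : ℝ) < 8)]
    exact div_le_div_of_nonneg_right hU (by norm_num)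
  · rw [real_inner_self_eq_norm_sq]; nlinarith [norm_nonneg V]
  · rw [hfdef, hσ, inner_sub_left, inner_sub_right, inner_sub_right, real_inner_comm e V,
      real_inner_self_eq_norm_sq e, he]
    field_simp
    ring
  · have h1 : |⟪z, a⟫| ≤ 1 / 4 * ‖a‖ :=
      (abs_real_inner_le_norm z a).trans (mul_le_mul_of_nonneg_right hzn (norm_nonneg a))
    rw [real_inner_self_eq_norm_sq, ← sq_abs]
    nlinarith [pow_le_pow_left₀ (abs_nonneg _) h1 2]
  · refine le_of_eq_of_le ?_ h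
    rw [hcdef, hfd]
    ring

/-- Direction: if moreover the squared gradient is `1 + O(δ)`, the gradient is `C √δ`-close to
`e`. -/
theorem dir_bound (hs : IsOpen s) (hu : ContDiffOn ℝ 3 u s)
    (heq : ∀ z ∈ s, fderiv ℝ (fderiv ℝ u) z (gradient u z) (gradient u z) = 0)
    (hball : closedBall (0 : E) (1 / 4) ⊆ s) {e : E} (he : ‖e‖ = 1) {δ : ℝ} (hδ : 0 < δ)
    (hflat : ∀ y ∈ closedBall (0 : E) (1 / 4), |u y - ⟪e, y⟫| ≤ δ)
    (hG2 : ∀ y ∈ closedBall (0 : E) (1 / 4), ‖gradient u y‖ ≤ 2)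
    (hmag : ∀ y ∈ closedBall (0 : E) (1 / 4),
      |(1 - ⟪gradient u y, gradient u y⟫) / δ| ≤ 1536) {x : E} (hx : ‖x‖ ≤ 1 / 8) :
    ‖gradient u x - e‖ ^ 2 ≤ 6000 * δ := by
  set G := gradient u with hGdef
  let W : E → ℝ := fun y => (1 / 16 - ⟪y, y⟫) ^ 2 *
      Real.exp (((u y - ⟪e, y⟫) / δ) ^ 2 / 16) * ⟪G y - e, G y - e⟫
  have hxB : x ∈ closedBall (0 : E) (1 / 4) := mem_closedBall_zero_iff.2 (by linarith)
  have hU : ∀ y ∈ closedBall (0 : E) (1 / 4), |(u y - ⟪e, y⟫) / δ| ≤ 1 := fun y hy => by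
    rw [abs_div, abs_of_pos hδ, div_le_one hδ]; exact hflat y hy
  suffices hW : ∀ y ∈ closedBall (0 : E) (1 / 4), W y ≤ 13 * δ by
    have h := hW x hxB
    simp only [W] at h
    have hn : (3 / 64 : ℝ) ≤ 1 / 16 - ⟪x, x⟫ := by
      rw [real_inner_self_eq_norm_sq]; nlinarith [norm_nonneg x]
    have hE : (1 : ℝ) ≤ Real.exp (((u x - ⟪e, x⟫) / δ) ^ 2 / 16) := Real.one_le_exp (by positivity)
    have h1 : (3 / 64 : ℝ) ^ 2 * 1 ≤
        (1 / 16 - ⟪x, x⟫) ^ 2 * Real.exp (((u x - ⟪e, x⟫) / δ) ^ 2 / 16) :=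
      mul_le_mul (pow_le_pow_left₀ (by norm_num) hn 2) hE (by norm_num) (sq_nonneg _)
    have h2 := mul_le_mul_of_nonneg_right h1
      (real_inner_self_nonneg (x := G x - e))
    rw [← real_inner_self_eq_norm_sq]
    linarith
  have hGc : ContinuousOn G (closedBall (0 : E) (1 / 4)) := fun y hy =>
    (hasFDerivAt_gradient hs hu (hball hy)).continuousAt.continuousWithinAt
  have huc : ContinuousOn u (closedBall (0 : E) (1 / 4)) := hu.continuousOn.mono hball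
  have hWc : ContinuousOn W (closedBall (0 : E) (1 / 4)) := by fun_prop
  obtain ⟨z, hzB, hzmax⟩ := (isCompact_closedBall (0 : E) (1 / 4)).exists_isMaxOn
    (nonempty_closedBall.2 (by norm_num)) hWc
  suffices hWz : W z ≤ 13 * δ from fun y hy => (hzmax hy).trans hWz
  rcases le_or_gt (W z) 0 with h0 | h0
  · linarith
  have hzn : ‖z‖ ≤ 1 / 4 := mem_closedBall_zero_iff.1 hzB
  have hnle : 0 ≤ 1 / 16 - ⟪z, z⟫ := by
    rw [real_inner_self_eq_norm_sq]; nlinarith [norm_nonneg z]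
  have hn0 : 1 / 16 - ⟪z, z⟫ ≠ 0 := fun h => by
    simp only [W] at h0
    rw [h] at h0
    simp at h0
  have hfpos : 0 < ⟪G z - e, G z - e⟫ := by
    refine lt_of_le_of_ne real_inner_self_nonneg fun h => ?_
    simp only [W] at h0
    rw [← h] at h0
    simp at h0
  have hnpos : 0 < 1 / 16 - ⟪z, z⟫ := lt_of_le_of_ne hnle hn0.symm
  have hnh : closedBall (0 : E) (1 / 4) ∈ 𝓝 z := interior_of_pos hzn (by
    rw [show ((1 : ℝ) / 4) ^ 2 = 1 / 16 by norm_num]; exact hn0)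
  have key := dir_at_max hs hu heq hδ (hball hzB) he hzn (hG2 z hzB) (hU z hzB) (hmag z hzB)
    hnpos hfpos (hzmax.isLocalMax hnh)
  have hE : Real.exp (((u z - ⟪e, z⟫) / δ) ^ 2 / 16) ≤ 17 / 15 := by
    refine (Real.exp_le_exp.2 (show _ ≤ (1 / 16 : ℝ) from ?_)).trans ?_
    · have := hU z hzB
      rw [← sq_abs]; nlinarith [abs_nonneg ((u z - ⟪e, z⟫) / δ)]
    · have h1 := Real.add_one_le_exp (-(1 / 16) : ℝ)
      rw [Real.exp_neg] at h1
      have h2 := Real.exp_pos (1 / 16 : ℝ)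
      rw [← one_div, le_div_iff₀ h2] at h1
      linarith
  have h1 : (1 / 16 - ⟪z, z⟫) ^ 2 * ⟪G z - e, G z - e⟫ ≤ 1 / 16 * (182 * δ) := by
    rw [pow_two, mul_assoc]
    exact mul_le_mul (by linarith [real_inner_self_nonneg (x := z)]) key
      (by positivity) (by norm_num)
  show (1 / 16 - ⟪z, z⟫) ^ 2 * Real.exp _ * ⟪G z - e, G z - e⟫ ≤ 13 * δ
  have h2 := mul_le_mul h1 hE (Real.exp_pos _).le (by positivity)
  linarith

end Vale.Agent.P080
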