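import Mathlib

/-
Semiconvex infinity-superharmonic functions: every proximal subgradient is attained as an
exact descending slope, hence subgradients are locally Hölder continuous with exponent 1/3
(P080).
-/

namespace Vale.Agent.P080

open Metric Set Filter Topology
open scoped RealInnerProductSpace

variable {E : Type*} [NormedAddCommGroup E] [InnerProductSpace ℝ E] [FiniteDimensional ℝ E]

/-- The infinity-Laplacian of a radial test function `F (‖y - c‖²)`,
`F s = -a √(s+δ) + η s`, is positive off a small ball. -/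
theorem test_pos {a η δ : ℝ} (hδ : 0 < δ) (c w : E)
    (hF : η < a / (2 * Real.sqrt (‖w - c‖ ^ 2 + δ)))
    (hpos : a * δ < 2 * η * ‖w - c‖ ^ 3) (ha : 0 < a) (hη : 0 < η) :
    let φ : E → ℝ := fun y => -a * Real.sqrt (‖y - c‖ ^ 2 + δ) + η * ‖y - c‖ ^ 2
    ContDiff ℝ 2 φ ∧ 0 < fderiv ℝ (fderiv ℝ φ) w (gradient φ w) (gradient φ w) := by
  intro φ
  have hsq : ∀ y, 0 < ‖y - c‖ ^ 2 + δ := fun y => by positivity
  have hn : ContDiff ℝ 2 (fun y : E => ‖y - c‖ ^ 2) :=
    (contDiff_id.sub contDiff_const).norm_sq ℝ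
  have hcd : ContDiff ℝ 2 φ :=
    (contDiff_const.mul ((hn.add contDiff_const).sqrt fun y => (hsq y).ne')).add
      (contDiff_const.mul hn)
  refine ⟨hcd, ?_⟩
  let Q : E → ℝ := fun y => 2 * η - a / Real.sqrt (‖y - c‖ ^ 2 + δ)
  have h1 : ∀ y, HasFDerivAt φ (Q y • innerSL ℝ (y - c)) y := by
    intro y
    have hs : HasFDerivAt (fun z : E => ‖z - c‖ ^ 2) (2 • innerSL ℝ (y - c)) y := by
      simpa using ((hasFDerivAt_id y).sub_const c).norm_sq
    have h : HasFDerivAt φ _ y :=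
      (((hs.add_const δ).sqrt (hsq y).ne').const_mul (-a)).add (hs.const_mul η)
    refine h.congr_fderiv ?_
    ext k
    simp [Q, two_smul]
    ring
  have hfd : fderiv ℝ φ = fun y => Q y • innerSL ℝ (y - c) := funext fun y => (h1 y).fderiv
  have hgrad : gradient φ w = Q w • (w - c) := by
    apply HasGradientAt.gradient
    rw [hasGradientAt_iff_hasFDerivAt]
    refine (h1 w).congr_fderiv ?_
    ext k
    simp [InnerProductSpace.toDual_apply_apply]
  set ρ := ‖w - c‖ with hρ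
  set S := Real.sqrt (ρ ^ 2 + δ) with hS
  have hS0 : 0 < S := Real.sqrt_pos.2 (by positivity)
  have hSS : S ^ 2 = ρ ^ 2 + δ := Real.sq_sqrt (by positivity)
  have hs : HasFDerivAt (fun z : E => ‖z - c‖ ^ 2) (2 • innerSL ℝ (w - c)) w := by
    simpa using ((hasFDerivAt_id w).sub_const c).norm_sq
  have hQ : HasFDerivAt Q ((a / S ^ 3) • innerSL ℝ (w - c)) w := by
    have hr := ((hs.add_const δ).sqrt (hsq w).ne')
    have hi := (hasDerivAt_inv (hS0.ne')).comp_hasFDerivAt w hr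
    have := (hi.const_mul a).const_sub (2 * η)
    refine (this.congr_of_eventuallyEq (Eventually.of_forall fun y => ?_)).congr_fderiv ?_
    · simp [Q, div_eq_mul_inv]
    · ext k
      simp [two_smul, ← hS, ← hρ]
      field_simp
      ring
  have hL : HasFDerivAt (fun y : E => (innerSL ℝ : E →L[ℝ] E →L[ℝ] ℝ) (y - c))
      (innerSL ℝ : E →L[ℝ] E →L[ℝ] ℝ) w := by
    have := ((innerSL ℝ : E →L[ℝ] E →L[ℝ] ℝ).hasFDerivAt).comp w ((hasFDerivAt_id w).sub_const c)
    simpa [Function.comp_def] using this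
  have h2 := hQ.smul hL
  rw [hfd, show (fun y => Q y • innerSL ℝ (y - c)) = Q • (fun y => innerSL ℝ (y - c)) from rfl,
    h2.fderiv, hgrad]
  have hq : Q w = 2 * η - a / S := rfl
  have hq0 : Q w < 0 := by
    rw [hq]
    have : η * (2 * S) < a := by rwa [lt_div_iff₀ (by positivity)] at hF
    rw [sub_neg, lt_div_iff₀ hS0]
    linarith
  have hρ0 : 0 < ρ := by
    rcases eq_or_lt_of_le (norm_nonneg (w - c)) with h | h
    · rw [← hρ] at h
      rw [← h] at hpos
      nlinarith [mul_pos ha hδ]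
    · exact h
  have key : 0 < Q w + a / S ^ 3 * ρ ^ 2 := by
    have hS3 : ρ ^ 3 ≤ S ^ 3 :=
      pow_le_pow_left₀ hρ0.le (Real.le_sqrt_of_sq_le (by linarith)) 3
    have : Q w + a / S ^ 3 * ρ ^ 2 = (2 * η * S ^ 3 - a * δ) / S ^ 3 := by
      rw [hq]
      field_simp
      linear_combination (-1 : ℝ) * hSS * a
    rw [this]
    exact div_pos (by nlinarith [mul_le_mul_of_nonneg_left hS3 hη.le]) (by positivity)
  simp only [add_apply, smul_apply,
    ContinuousLinearMap.smulRight_apply, map_smul, smul_eq_mul, innerSL_apply_apply,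
    real_inner_self_eq_norm_sq, ← hρ]
  have hvv : (innerSL ℝ : E →L[ℝ] E →L[ℝ] ℝ) (w - c) (w - c) = ρ ^ 2 :=
    real_inner_self_eq_norm_sq _
  rw [hvv]
  calc (0 : ℝ) < Q w ^ 2 * ρ ^ 2 * (Q w + a / S ^ 3 * ρ ^ 2) :=
        mul_pos (mul_pos (by nlinarith) (by positivity)) key
    _ = _ := by ring

/-- `u` is a viscosity supersolution of the infinity-Laplace equation on `s`. -/
theorem descent {s : Set E} {u : E → ℝ} (hcont : ContinuousOn u s)
    (hsup : ∀ z ∈ s, ∀ φ : E → ℝ, ContDiff ℝ 2 φ → IsLocalMin (fun y => u y - φ y) z →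
      fderiv ℝ (fderiv ℝ φ) z (gradient φ z) (gradient φ z) ≤ 0)
    {c x : E} {a g r : ℝ} (hball : closedBall c r ⊆ s) (ha : 0 < a) (hag : a < g)
    (hx0 : 0 < ‖x - c‖) (hxr : ‖x - c‖ < r) (hux : u x ≤ u c - g * ‖x - c‖) :
    ∃ w ∈ sphere c r, u w ≤ u c - a * r := by
  by_contra hcon
  push Not at hcon
  have hr : 0 < r := hx0.trans hxr
  set t := ‖x - c‖ with ht
  set m := (g - a) * t with hm
  have hm0 : 0 < m := mul_pos (sub_pos.2 hag) hx0
  have hcb : ContinuousOn u (closedBall c r) := hcont.mono hball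
  obtain ⟨ρ, hρ, hρu⟩ := Metric.continuousWithinAt_iff.1
    (hcb c (mem_closedBall_self hr.le)) (m / 3) (by positivity)
  set η := min (m / (3 * r ^ 2)) (a / (8 * r)) with hη
  have hη0 : 0 < η := lt_min (by positivity) (by positivity)
  set ρ' := min ρ r with hρ'
  have hρ'0 : 0 < ρ' := lt_min hρ hr
  set δ := min ((m / (4 * a)) ^ 2) (min (r ^ 2) (η * ρ' ^ 3 / a)) with hδ
  have hδ0 : 0 < δ := lt_min (by positivity) (lt_min (by positivity) (by positivity))
  let φ : E → ℝ := fun y => -a * Real.sqrt (‖y - c‖ ^ 2 + δ) + η * ‖y - c‖ ^ 2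
  have hφc : Continuous φ := by fun_prop
  obtain ⟨w, hwm, hwmin⟩ := (isCompact_closedBall c r).exists_isMinOn
    ⟨c, mem_closedBall_self hr.le⟩ (hcb.sub hφc.continuousOn)
  have hxm : x ∈ closedBall c r := by
    rw [mem_closedBall, dist_eq_norm]; exact hxr.le
  have hlow : ∀ y, a * ‖y - c‖ - η * ‖y - c‖ ^ 2 ≤ -φ y := by
    intro y
    have : ‖y - c‖ ≤ Real.sqrt (‖y - c‖ ^ 2 + δ) := Real.le_sqrt_of_sq_le (by linarith)
    simp only [φ]
    nlinarith [mul_le_mul_of_nonneg_left this ha.le]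
  have hwx : u w - φ w ≤ u x - φ x := hwmin hxm
  have hxval : u x - φ x ≤ u c - 3 * m / 4 := by
    have h1 : Real.sqrt (t ^ 2 + δ) ≤ t + m / (4 * a) := by
      rw [Real.sqrt_le_iff]
      refine ⟨by positivity, ?_⟩
      have : δ ≤ (m / (4 * a)) ^ 2 := min_le_left _ _
      nlinarith [show (0 : ℝ) ≤ t * (m / (4 * a)) by positivity]
    have h2 := mul_le_mul_of_nonneg_left h1 ha.le
    have h3 : a * (m / (4 * a)) = m / 4 := by field_simp
    simp only [φ, ← ht]
    nlinarith [mul_nonneg hη0.le (sq_nonneg t), hm]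
  have hηr : η * r ^ 2 ≤ m / 3 := by
    have := min_le_left (m / (3 * r ^ 2)) (a / (8 * r))
    rw [← hη, le_div_iff₀ (by positivity)] at this
    linarith
  have hwr : ‖w - c‖ ≤ r := by rw [← dist_eq_norm]; exact hwm
  have hηw : η * ‖w - c‖ ^ 2 ≤ m / 3 :=
    le_trans (mul_le_mul_of_nonneg_left (pow_le_pow_left₀ (norm_nonneg _) hwr 2) hη0.le) hηr
  have hlw := hlow w
  have hne : ‖w - c‖ ≠ r := by
    intro h
    have := hcon w (by rw [mem_sphere, dist_eq_norm]; exact h)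
    rw [h] at hlw hηw
    linarith
  have hfar : ρ' ≤ ‖w - c‖ := by
    by_contra h
    push Not at h
    have hd : dist w c < ρ := by
      rw [dist_eq_norm]; exact h.trans_le (min_le_left _ _)
    have := (abs_lt.1 (Real.dist_eq _ _ ▸ hρu hwm hd)).1
    nlinarith [mul_nonneg ha.le (norm_nonneg (w - c))]
  have hlt : ‖w - c‖ < r := lt_of_le_of_ne hwr hne
  have hloc : IsLocalMin (fun y => u y - φ y) w :=
    hwmin.isLocalMin (closedBall_mem_nhds_of_mem (by rw [mem_ball, dist_eq_norm]; exact hlt))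
  have hF : η < a / (2 * Real.sqrt (‖w - c‖ ^ 2 + δ)) := by
    have h1 : Real.sqrt (‖w - c‖ ^ 2 + δ) ≤ 2 * r := by
      rw [Real.sqrt_le_iff]
      refine ⟨by positivity, ?_⟩
      have : δ ≤ r ^ 2 := (min_le_right _ _).trans (min_le_left _ _)
      nlinarith [pow_le_pow_left₀ (norm_nonneg _) hwr 2]
    have h2 : η ≤ a / (8 * r) := min_le_right _ _
    rw [le_div_iff₀ (by positivity)] at h2
    rw [lt_div_iff₀ (by positivity)]
    nlinarith [mul_le_mul_of_nonneg_left h1 hη0.le]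
  have hpos : a * δ < 2 * η * ‖w - c‖ ^ 3 := by
    have h1 : δ ≤ η * ρ' ^ 3 / a := (min_le_right _ _).trans (min_le_right _ _)
    rw [le_div_iff₀ ha] at h1
    have h2 := pow_le_pow_left₀ hρ'0.le hfar 3
    nlinarith [mul_pos hη0 (pow_pos hρ'0 3), mul_le_mul_of_nonneg_left h2 hη0.le]
  obtain ⟨hcd, hgt⟩ := test_pos hδ0 c w hF hpos ha hη0
  exact absurd (hsup w (hball hwm) φ hcd hloc) (not_le.2 hgt)

/-- A semiconvex supersolution attains every subgradient as an exact descending slope. -/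
theorem slope {s : Set E} (hs : IsOpen s) {u : E → ℝ} (hcont : ContinuousOn u s)
    (hsup : ∀ z ∈ s, ∀ φ : E → ℝ, ContDiff ℝ 2 φ → IsLocalMin (fun y => u y - φ y) z →
      fderiv ℝ (fderiv ℝ φ) z (gradient φ z) (gradient φ z) ≤ 0)
    {x p : E} {r k : ℝ} (hk : 0 ≤ k) (hr : 0 < r) (hball : closedBall x r ⊆ s) (hp : p ≠ 0)
    (hsub : ∀ y ∈ s, u x + ⟪p, y - x⟫ - k / 2 * ‖y - x‖ ^ 2 ≤ u y) :
    ∃ w ∈ sphere x r, u w ≤ u x - ‖p‖ * r := by
  by_contra hcon
  push Not at hcon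
  have hg : 0 < ‖p‖ := norm_pos_iff.2 hp
  have hne : (sphere x r).Nonempty := by
    refine ⟨x + (r / ‖p‖) • p, ?_⟩
    rw [mem_sphere, dist_eq_norm, add_sub_cancel_left, norm_smul, Real.norm_of_nonneg (by positivity)]
    field_simp
  obtain ⟨w₀, hw₀, hw₀m⟩ := (isCompact_sphere x r).exists_isMinOn hne
    (hcont.mono (sphere_subset_closedBall.trans hball))
  set ε := (u w₀ - (u x - ‖p‖ * r)) / 4 with hε
  have hε0 : 0 < ε := by have := hcon w₀ hw₀; rw [hε]; linarith
  obtain ⟨e, he, hes⟩ := (isCompact_closedBall x r).exists_cthickening_subset_open hs hball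
  rw [cthickening_closedBall he.le hr.le] at hes
  obtain ⟨μ, hμ, hμu⟩ := Metric.uniformContinuousOn_iff.1
    ((isCompact_closedBall x (e + r)).uniformContinuousOn_of_continuous (hcont.mono hes)) ε hε0
  set η := min (‖p‖ / 2) (ε / r) with hη
  have hη0 : 0 < η := lt_min (by linarith) (div_pos hε0 hr)
  set t := min (min (min e μ) r / 2) (η / (k + 1)) with ht
  have ht0 : 0 < t := lt_min (by have := lt_min (lt_min he hμ) hr; linarith) (by positivity)
  have htk : k * t ≤ η := by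
    have h := min_le_right (min (min e μ) r / 2) (η / (k + 1))
    rw [← ht, le_div_iff₀ (by positivity)] at h
    nlinarith
  have hte : t < e ∧ t < μ ∧ t < r := by
    have h0 := min_le_left (min (min e μ) r / 2) (η / (k + 1))
    rw [← ht] at h0
    have h1 := min_le_left (min e μ) r
    have h2 := min_le_left e μ
    have h3 := min_le_right e μ
    have h4 := min_le_right (min e μ) r
    have h5 := lt_min (lt_min he hμ) hr
    refine ⟨?_, ?_, ?_⟩ <;> linarith
  set v := (t / ‖p‖) • p with hv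
  have hvn : ‖v‖ = t := by
    rw [hv, norm_smul, Real.norm_of_nonneg (by positivity)]; field_simp
  have hxc : x - (x + v) = -v := by abel
  have hcmem : x + v ∈ closedBall x (e + r) := by
    rw [mem_closedBall, dist_eq_norm, add_sub_cancel_left, hvn]; linarith
  have hcb : closedBall (x + v) r ⊆ closedBall x (e + r) := by
    refine closedBall_subset_closedBall' ?_
    rw [dist_eq_norm, add_sub_cancel_left, hvn]; linarith
  set a := ‖p‖ - η with ha
  have ha0 : 0 < a := by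
    have := min_le_left (‖p‖ / 2) (ε / r)
    rw [← hη] at this
    linarith
  have hag : a < ‖p‖ - η / 2 := by linarith
  have hux : u x ≤ u (x + v) - (‖p‖ - η / 2) * ‖x - (x + v)‖ := by
    have := hsub _ (hes hcmem)
    rw [add_sub_cancel_left, hvn, hv, inner_smul_right, real_inner_self_eq_norm_sq,
      show t / ‖p‖ * ‖p‖ ^ 2 = ‖p‖ * t by field_simp, ← hv] at this
    rw [hxc, norm_neg, hvn]
    nlinarith [mul_le_mul_of_nonneg_right htk ht0.le]
  obtain ⟨w, hw, huw⟩ := descent hcont hsup (hcb.trans hes) ha0 hag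
    (by rw [hxc, norm_neg, hvn]; exact ht0) (by rw [hxc, norm_neg, hvn]; exact hte.2.2) hux
  have hwv : w - v ∈ sphere x r := by
    rw [mem_sphere, dist_eq_norm] at hw ⊢
    rwa [show w - v - x = w - (x + v) by abel]
  have hwv' : w - v ∈ closedBall x (e + r) :=
    closedBall_subset_closedBall (by linarith) (sphere_subset_closedBall hwv)
  have h1 := (abs_lt.1 (Real.dist_eq _ _ ▸ hμu w (hcb (sphere_subset_closedBall hw)) (w - v)
    hwv' (by rw [dist_eq_norm, sub_sub_cancel, hvn]; exact hte.2.1))).1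
  have h2 := (abs_lt.1 (Real.dist_eq _ _ ▸ hμu (x + v) hcmem x
    (mem_closedBall_self (by linarith))
    (by rw [dist_eq_norm, add_sub_cancel_left, hvn]; exact hte.2.1))).2
  have h3 : u w₀ ≤ u (w - v) := hw₀m hwv
  have h4 : η * r ≤ ε := by
    have h := min_le_right (‖p‖ / 2) (ε / r)
    rw [← hη, le_div_iff₀ hr] at h
    exact h
  rw [ha, sub_mul] at huw
  linarith

/-- Existence of subgradients at points of an open convex set. -/
theorem subgrad {s : Set E} (hs : IsOpen s) {u : E → ℝ} (hconv : ConvexOn ℝ s u)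
    {x : E} (hx : x ∈ s) : ∃ p : E, ∀ y ∈ s, u x + ⟪p, y - x⟫ ≤ u y := by
  have hcont : ContinuousOn u s := hconv.continuousOn hs
  have hopen : IsOpen {q : E × ℝ | q.1 ∈ s ∧ u q.1 < q.2} := by
    have h : ContinuousOn (fun q : E × ℝ => q.2 - u q.1) (s ×ˢ univ) :=
      continuous_snd.continuousOn.sub
        (hcont.comp continuous_fst.continuousOn fun q hq => hq.1)
    have := h.isOpen_inter_preimage (hs.prod isOpen_univ) isOpen_Ioi (t := Ioi (0 : ℝ))
    convert this using 1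
    ext q
    simp
  obtain ⟨f, hf⟩ := geometric_hahn_banach_open_point hconv.convex_strict_epigraph hopen
    (show (x, u x) ∉ {q : E × ℝ | q.1 ∈ s ∧ u q.1 < q.2} by simp)
  have hsplit : ∀ (y : E) (τ : ℝ), f (y, τ) = f (y, 0) + τ * f (0, 1) := by
    intro y τ
    rw [← smul_eq_mul, ← map_smul, ← map_add]
    simp
  have hneg : f (0, 1) < 0 := by
    have := hf (x, u x + 1) ⟨hx, by simp⟩
    rw [hsplit, hsplit x (u x)] at this
    linarith
  refine ⟨(InnerProductSpace.toDual ℝ E).symm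
    ((-(f (0, 1)))⁻¹ • f.comp (ContinuousLinearMap.inl ℝ E ℝ)), fun y hy => ?_⟩
  rw [InnerProductSpace.toDual_symm_apply]
  simp only [smul_apply, ContinuousLinearMap.comp_apply,
    ContinuousLinearMap.inl_apply, smul_eq_mul]
  refine le_of_forall_pos_le_add fun e he => ?_
  have := hf (y, u y + e) ⟨hy, by simpa using he⟩
  rw [hsplit, hsplit x (u x)] at this
  have hd : f (y - x, (0 : ℝ)) = f (y, 0) - f (x, 0) := by
    rw [← map_sub]; simp
  rw [hd]
  have h' : (-(f (0, 1)))⁻¹ * (f (y, 0) - f (x, 0)) < u y + e - u x := by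
    rw [inv_mul_lt_iff₀ (by linarith)]
    linarith
  linarith

/-- Subgradients for a semiconvex function. -/
theorem subgrad' {s : Set E} (hs : IsOpen s) {u : E → ℝ} {k : ℝ}
    (hconv : ConvexOn ℝ s fun z => u z + k / 2 * ‖z‖ ^ 2) {x : E} (hx : x ∈ s) :
    ∃ p : E, ∀ y ∈ s, u x + ⟪p, y - x⟫ - k / 2 * ‖y - x‖ ^ 2 ≤ u y := by
  obtain ⟨P, hP⟩ := subgrad hs hconv hx
  refine ⟨P - k • x, fun y hy => ?_⟩
  have h := hP y hy
  have e : k / 2 * ‖y - x‖ ^ 2 + k * ⟪x, y - x⟫ = k / 2 * ‖y‖ ^ 2 - k / 2 * ‖x‖ ^ 2 := by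
    rw [norm_sub_sq_real, inner_sub_right, real_inner_self_eq_norm_sq, real_inner_comm y x]
    ring
  rw [inner_sub_left, real_inner_smul_left]
  linarith

/-- Two subgradients of a semiconvex supersolution, at distance at most the room `r`. -/
theorem two_points {s : Set E} (hs : IsOpen s) {u : E → ℝ} (hcont : ContinuousOn u s)
    (hsup : ∀ z ∈ s, ∀ φ : E → ℝ, ContDiff ℝ 2 φ → IsLocalMin (fun y => u y - φ y) z →
      fderiv ℝ (fderiv ℝ φ) z (gradient φ z) (gradient φ z) ≤ 0)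
    {x y p q : E} {r k M : ℝ} (hk : 0 ≤ k) (hr : 0 < r) (hxy : ‖x - y‖ ≤ r)
    (hbx : closedBall x r ⊆ s) (hby : closedBall y r ⊆ s)
    (hp : ∀ z ∈ s, u x + ⟪p, z - x⟫ - k / 2 * ‖z - x‖ ^ 2 ≤ u z)
    (hq : ∀ z ∈ s, u y + ⟪q, z - y⟫ - k / 2 * ‖z - y‖ ^ 2 ≤ u z)
    (hpM : ‖p‖ ≤ M) (hqM : ‖q‖ ≤ M) :
    ‖p - q‖ ≤ 2 * M * ‖x - y‖ / r + 5 * Real.sqrt (k * M * r) := by
  have hM : 0 ≤ M := (norm_nonneg p).trans hpM
  set S := Real.sqrt (k * M * r) with hS
  have hS0 : 0 ≤ S := Real.sqrt_nonneg _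
  have hSS : S ^ 2 = k * M * r := Real.sq_sqrt (by positivity)
  have one : ∀ x y p q : E, ‖x - y‖ ≤ r → closedBall x r ⊆ s → y ∈ s →
      (∀ z ∈ s, u x + ⟪p, z - x⟫ - k / 2 * ‖z - x‖ ^ 2 ≤ u z) →
      (∀ z ∈ s, u y + ⟪q, z - y⟫ - k / 2 * ‖z - y‖ ^ 2 ≤ u z) → ‖p‖ ≤ M →
      r * (‖p‖ ^ 2 - ⟪p, q⟫) ≤
        M * ‖p - q‖ * ‖x - y‖ + 5 / 2 * r * S ^ 2 + ‖p - q‖ * (r * S) := by
    intro x y p q hxy hbx hy hp hq hpM
    rcases eq_or_ne p 0 with rfl | hp0
    · simp only [inner_zero_left, norm_zero]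
      nlinarith [mul_nonneg (mul_nonneg hM (norm_nonneg ((0 : E) - q))) (norm_nonneg (x - y)),
        mul_nonneg (norm_nonneg ((0 : E) - q)) (mul_nonneg hr.le hS0),
        mul_nonneg hr.le (sq_nonneg S)]
    obtain ⟨w, hw, huw⟩ := slope hs hcont hsup hk hr hbx hp0 hp
    rw [mem_sphere, dist_eq_norm] at hw
    have hws : w ∈ s := hbx (by rw [mem_closedBall, dist_eq_norm]; exact hw.le)
    set v := w - x with hv
    set e := ‖p‖ • v + r • p with he
    have hge := hp w hws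
    rw [← hv, hw] at hge
    have hpe : ⟪p, e⟫ = ‖p‖ * (⟪p, v⟫ + ‖p‖ * r) := by
      rw [he, inner_add_right, inner_smul_right, inner_smul_right, real_inner_self_eq_norm_sq]
      ring
    have hpv : 0 ≤ ⟪p, v⟫ + ‖p‖ * r := by
      have := neg_le_of_abs_le (abs_real_inner_le_norm p v)
      rw [hw] at this
      linarith
    have hpe0 : 0 ≤ ⟪p, e⟫ := hpe ▸ mul_nonneg (norm_nonneg p) hpv
    have hesq : ‖e‖ ^ 2 ≤ (r * S) ^ 2 := by
      have : ‖e‖ ^ 2 = 2 * r * ‖p‖ * (⟪p, v⟫ + ‖p‖ * r) := by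
        rw [he, norm_add_sq_real, norm_smul, norm_smul, inner_smul_left, inner_smul_right,
          norm_norm, hw, real_inner_comm p v, Real.norm_of_nonneg hr.le]
        simp only [conj_trivial]
        ring
      rw [this, mul_pow, hSS]
      have h1 : ⟪p, v⟫ + ‖p‖ * r ≤ k / 2 * r ^ 2 := by linarith
      nlinarith [mul_le_mul_of_nonneg_left h1 (mul_nonneg (mul_nonneg zero_le_two hr.le)
          (norm_nonneg p)),
        mul_le_mul_of_nonneg_right hpM (mul_nonneg hk (pow_nonneg hr.le 3))]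
    have hen : ‖e‖ ≤ r * S :=
      (pow_le_pow_iff_left₀ (norm_nonneg _) (by positivity) two_ne_zero).1 hesq
    have hqe : -(‖p - q‖ * (r * S)) ≤ ⟪q, e⟫ := by
      have h1 := real_inner_le_norm (p - q) e
      rw [inner_sub_left] at h1
      nlinarith [mul_le_mul_of_nonneg_left hen (norm_nonneg (p - q))]
    have h1 := hq w hws
    have h2 := hp y hy
    have h3 : ⟪q, w - y⟫ = ⟪q, v⟫ - ⟪q, y - x⟫ := by
      rw [hv, ← inner_sub_right, sub_sub_sub_cancel_right]
    have h4 : ⟪q, e⟫ = ‖p‖ * ⟪q, v⟫ + r * ⟪p, q⟫ := by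
      rw [he, inner_add_right, inner_smul_right, inner_smul_right, real_inner_comm p q]
    have h5 : ⟪q, y - x⟫ - ⟪p, y - x⟫ ≤ ‖p - q‖ * ‖x - y‖ := by
      rw [← inner_sub_left, norm_sub_rev p, norm_sub_rev x]
      exact real_inner_le_norm _ _
    have h7 : ‖w - y‖ ≤ 2 * r := by
      have := norm_add_le v (x - y)
      rw [hv, sub_add_sub_cancel, ← hv, hw] at this
      linarith
    have h8 : ‖y - x‖ ≤ r := by rwa [norm_sub_rev]
    have h9 := mul_le_mul_of_nonneg_left (pow_le_pow_left₀ (norm_nonneg _) h7 2)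
      (by linarith : 0 ≤ k / 2)
    have h10 := mul_le_mul_of_nonneg_left (pow_le_pow_left₀ (norm_nonneg _) h8 2)
      (by linarith : 0 ≤ k / 2)
    have h6 : ‖p‖ * r + ⟪q, v⟫ ≤ ‖p - q‖ * ‖x - y‖ + 5 / 2 * k * r ^ 2 := by linarith
    have h11 := mul_le_mul_of_nonneg_left h6 (norm_nonneg p)
    have h12 := mul_le_mul_of_nonneg_right hpM
      (show 0 ≤ ‖p - q‖ * ‖x - y‖ + 5 / 2 * k * r ^ 2 by positivity)
    have h13 : 5 / 2 * r * S ^ 2 = M * (5 / 2 * k * r ^ 2) := by rw [hSS]; ring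
    nlinarith
  have hxs : x ∈ s := hbx (mem_closedBall_self hr.le)
  have hys : y ∈ s := hby (mem_closedBall_self hr.le)
  have A := one x y p q hxy hbx hys hp hq hpM
  have B := one y x q p (by rwa [norm_sub_rev]) hby hxs hq hp hqM
  rw [norm_sub_rev q, norm_sub_rev y, real_inner_comm p q] at B
  set D := ‖p - q‖ with hD
  set c := M * ‖x - y‖ / r with hc
  have hc' : r * c = M * ‖x - y‖ := by rw [hc]; field_simp
  have hc0 : 0 ≤ c := by positivity
  have hsq : r * D ^ 2 ≤ r * (2 * D * c + 5 * S ^ 2 + 2 * D * S) := by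
    have hn := norm_sub_sq_real p q
    rw [← hD] at hn
    rw [hn]
    linear_combination A + B - 2 * D * hc'
  have hsq' := le_of_mul_le_mul_left hsq hr
  rw [show 2 * M * ‖x - y‖ / r = 2 * c by rw [hc]; ring]
  by_contra hlt
  push Not at hlt
  have hD0 : 0 < D := lt_of_le_of_lt (by positivity) hlt
  nlinarith [mul_lt_mul_of_pos_left hlt hD0, mul_nonneg hc0 hS0,
    mul_le_mul_of_nonneg_left hlt.le hS0]

/-- A subgradient is bounded by the oscillation over the room. -/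
theorem norm_le {s : Set E} (hs : IsOpen s) {u : E → ℝ} (hcont : ContinuousOn u s)
    (hsup : ∀ z ∈ s, ∀ φ : E → ℝ, ContDiff ℝ 2 φ → IsLocalMin (fun y => u y - φ y) z →
      fderiv ℝ (fderiv ℝ φ) z (gradient φ z) (gradient φ z) ≤ 0)
    {x p : E} {r k K : ℝ} (hk : 0 ≤ k) (hr : 0 < r) (hball : closedBall x r ⊆ s)
    (hp : ∀ y ∈ s, u x + ⟪p, y - x⟫ - k / 2 * ‖y - x‖ ^ 2 ≤ u y) (hK : 0 ≤ K)
    (hosc : ∀ w ∈ closedBall x r, u x - u w ≤ K) : r * ‖p‖ ≤ K := by
  rcases eq_or_ne p 0 with rfl | hp0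
  · simpa using hK
  obtain ⟨w, hw, huw⟩ := slope hs hcont hsup hk hr hball hp0 hp
  have := hosc w (sphere_subset_closedBall hw)
  linarith

end Vale.Agent.P080
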