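import Mathlib
import Vale.Agent.P080.Semiconvex

/-!
Comparison with cones for viscosity subsolutions of the infinity-Laplace equation, convexity of
the maximum over balls in the radius, and the Lipschitz bound by the oscillation (P080).
-/

namespace Vale.Agent.P080

open Metric Set Filter Topology
open scoped RealInnerProductSpace

variable {E : Type*} [NormedAddCommGroup E] [InnerProductSpace ℝ E] [FiniteDimensional ℝ E]

/-- The quadratic form of the infinity Laplacian is odd in the test function. -/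
theorem infLap_neg (f : E → ℝ) (z : E) :
    fderiv ℝ (fderiv ℝ fun y => -f y) z (gradient (fun y => -f y) z)
        (gradient (fun y => -f y) z) =
      -(fderiv ℝ (fderiv ℝ f) z (gradient f z) (gradient f z)) := by
  have h1 : fderiv ℝ (fun y => -f y) = fun y => -fderiv ℝ f y := funext fun y => fderiv_fun_neg
  have h2 : gradient (fun y => -f y) z = -gradient f z := by
    unfold gradient
    rw [fderiv_fun_neg, map_neg]
  rw [h1, fderiv_fun_neg, h2]
  simp

/-- The negative of a subsolution is a supersolution. -/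
theorem neg_sub_is_super {s : Set E} {u : E → ℝ}
    (hsub : ∀ z ∈ s, ∀ φ : E → ℝ, ContDiff ℝ 2 φ → IsLocalMax (fun y => u y - φ y) z →
      0 ≤ fderiv ℝ (fderiv ℝ φ) z (gradient φ z) (gradient φ z)) :
    ∀ z ∈ s, ∀ φ : E → ℝ, ContDiff ℝ 2 φ → IsLocalMin (fun y => -u y - φ y) z →
      fderiv ℝ (fderiv ℝ φ) z (gradient φ z) (gradient φ z) ≤ 0 := by
  intro z hz φ hφ hmin
  have h := hsub z hz (fun y => -φ y) hφ.neg
    (hmin.neg.congr (Eventually.of_forall fun y => by simp; ring))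
  rw [infLap_neg] at h
  linarith

/-- Comparison with an upward cone on an annulus. -/
theorem annulus_le {s : Set E} {u : E → ℝ} (hcont : ContinuousOn u s)
    (hsub : ∀ z ∈ s, ∀ φ : E → ℝ, ContDiff ℝ 2 φ → IsLocalMax (fun y => u y - φ y) z →
      0 ≤ fderiv ℝ (fderiv ℝ φ) z (gradient φ z) (gradient φ z))
    {c : E} {a b r₁ r₂ : ℝ} (hball : closedBall c r₂ ⊆ s) (ha : 0 ≤ a) (hr₁ : 0 < r₁)
    (h₁ : ∀ w ∈ sphere c r₁, u w ≤ a * r₁ + b) (h₂ : ∀ w ∈ sphere c r₂, u w ≤ a * r₂ + b)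
    {x : E} (hx₁ : r₁ ≤ dist x c) (hx₂ : dist x c ≤ r₂) : u x ≤ a * dist x c + b := by
  have hr₂ : 0 < r₂ := hr₁.trans_le (hx₁.trans hx₂)
  suffices key : ∀ a₀, a < a₀ → u x ≤ a₀ * dist x c + b by
    refine le_of_forall_pos_le_add fun e he => ?_
    have := key (a + e / r₂) (lt_add_of_pos_right a (div_pos he hr₂))
    have : e / r₂ * dist x c ≤ e / r₂ * r₂ :=
      mul_le_mul_of_nonneg_left hx₂ (div_pos he hr₂).le
    rw [div_mul_cancel₀ _ hr₂.ne'] at this
    linarith
  intro a₀ haa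
  have ha₀ : 0 < a₀ := ha.trans_lt haa
  by_contra hlt
  push Not at hlt
  simp only [dist_eq_norm] at hx₁ hx₂ hlt
  set t := ‖x - c‖ with ht
  set m := u x - (a₀ * t + b) with hm
  have hm0 : 0 < m := sub_pos.2 hlt
  set η := min (m / (3 * r₂ ^ 2)) (a₀ / (8 * r₂)) with hη
  have hη0 : 0 < η := lt_min (by positivity) (by positivity)
  set δ := min ((m / (4 * a₀)) ^ 2) (min (r₂ ^ 2) (η * r₁ ^ 3 / a₀)) with hδ
  have hδ0 : 0 < δ := lt_min (by positivity) (lt_min (by positivity) (by positivity))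
  let φ : E → ℝ := fun y => -a₀ * Real.sqrt (‖y - c‖ ^ 2 + δ) + η * ‖y - c‖ ^ 2
  let A : Set E := closedBall c r₂ \ ball c r₁
  have hA : ∀ y, y ∈ A ↔ r₁ ≤ ‖y - c‖ ∧ ‖y - c‖ ≤ r₂ := fun y => by
    simp [A, mem_ball, mem_closedBall, dist_eq_norm, and_comm]
  have hAc : IsCompact A := (isCompact_closedBall c r₂).diff isOpen_ball
  have hφc : Continuous φ := by fun_prop
  obtain ⟨w, hwA, hwmax⟩ := hAc.exists_isMaxOn ⟨x, (hA x).2 ⟨hx₁, hx₂⟩⟩
    ((hcont.mono fun y hy => hball hy.1).add hφc.continuousOn)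
  have hηr : η * r₂ ^ 2 ≤ m / 3 := by
    have := min_le_left (m / (3 * r₂ ^ 2)) (a₀ / (8 * r₂))
    rw [← hη, le_div_iff₀ (by positivity)] at this
    linarith
  have hxval : b + 3 * m / 4 ≤ u x + φ x := by
    have h1 : Real.sqrt (t ^ 2 + δ) ≤ t + m / (4 * a₀) := by
      rw [Real.sqrt_le_iff]
      refine ⟨by positivity, ?_⟩
      have : δ ≤ (m / (4 * a₀)) ^ 2 := min_le_left _ _
      nlinarith [show (0 : ℝ) ≤ t * (m / (4 * a₀)) by positivity]
    have h2 := mul_le_mul_of_nonneg_left h1 ha₀.le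
    have h3 : a₀ * (m / (4 * a₀)) = m / 4 := by field_simp
    simp only [φ, ← ht]
    nlinarith [mul_nonneg hη0.le (sq_nonneg t)]
  have hwval : b + 3 * m / 4 ≤ u w + φ w := hxval.trans (hwmax ((hA x).2 ⟨hx₁, hx₂⟩))
  obtain ⟨hw₁, hw₂⟩ := (hA w).1 hwA
  have hlw : φ w ≤ -(a₀ * ‖w - c‖) + m / 3 := by
    have h1 : ‖w - c‖ ≤ Real.sqrt (‖w - c‖ ^ 2 + δ) := Real.le_sqrt_of_sq_le (by linarith)
    have h2 := pow_le_pow_left₀ (norm_nonneg _) hw₂ 2
    simp only [φ]
    nlinarith [mul_le_mul_of_nonneg_left h1 ha₀.le, mul_le_mul_of_nonneg_left h2 hη0.le]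
  have hn₁ : ‖w - c‖ ≠ r₁ := by
    intro h
    have h' := h₁ w (by rw [mem_sphere, dist_eq_norm, h])
    rw [h] at hlw
    nlinarith [mul_le_mul_of_nonneg_right haa.le hr₁.le]
  have hn₂ : ‖w - c‖ ≠ r₂ := by
    intro h
    have h' := h₂ w (by rw [mem_sphere, dist_eq_norm, h])
    rw [h] at hlw
    nlinarith [mul_le_mul_of_nonneg_right haa.le hr₂.le]
  have hnhds : A ∈ 𝓝 w := by
    have hopen : IsOpen {y : E | r₁ < ‖y - c‖ ∧ ‖y - c‖ < r₂} :=
      have hn : Continuous fun y : E => ‖y - c‖ := by fun_prop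
      (isOpen_lt continuous_const hn).inter (isOpen_lt hn continuous_const)
    refine mem_of_superset (hopen.mem_nhds ⟨lt_of_le_of_ne hw₁ hn₁.symm,
      lt_of_le_of_ne hw₂ hn₂⟩) fun y hy => (hA y).2 ⟨hy.1.le, hy.2.le⟩
  have hF : η < a₀ / (2 * Real.sqrt (‖w - c‖ ^ 2 + δ)) := by
    have h1 : Real.sqrt (‖w - c‖ ^ 2 + δ) ≤ 2 * r₂ := by
      rw [Real.sqrt_le_iff]
      refine ⟨by positivity, ?_⟩
      have : δ ≤ r₂ ^ 2 := (min_le_right _ _).trans (min_le_left _ _)
      nlinarith [pow_le_pow_left₀ (norm_nonneg _) hw₂ 2]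
    have h2 : η ≤ a₀ / (8 * r₂) := min_le_right _ _
    rw [le_div_iff₀ (by positivity)] at h2
    rw [lt_div_iff₀ (by positivity)]
    nlinarith [mul_le_mul_of_nonneg_left h1 hη0.le]
  have hpos : a₀ * δ < 2 * η * ‖w - c‖ ^ 3 := by
    have h1 : δ ≤ η * r₁ ^ 3 / a₀ := (min_le_right _ _).trans (min_le_right _ _)
    rw [le_div_iff₀ ha₀] at h1
    have h2 := pow_le_pow_left₀ hr₁.le hw₁ 3
    nlinarith [mul_pos hη0 (pow_pos hr₁ 3), mul_le_mul_of_nonneg_left h2 hη0.le]
  obtain ⟨hcd, hgt⟩ := test_pos hδ0 c w hF hpos ha₀ hη0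
  have h := hsub w (hball hwA.1) (fun y => -φ y) hcd.neg
    ((hwmax.isLocalMax hnhds).congr (Eventually.of_forall fun y => by simp [φ]; ring))
  rw [infLap_neg] at h
  linarith

/-- Comparison with an upward cone on a ball, the vertex being the centre. -/
theorem cone_le {s : Set E} {u : E → ℝ} (hcont : ContinuousOn u s)
    (hsub : ∀ z ∈ s, ∀ φ : E → ℝ, ContDiff ℝ 2 φ → IsLocalMax (fun y => u y - φ y) z →
      0 ≤ fderiv ℝ (fderiv ℝ φ) z (gradient φ z) (gradient φ z))
    {c : E} {a b r : ℝ} (hball : closedBall c r ⊆ s) (ha : 0 ≤ a)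
    (hc : u c ≤ b) (h₂ : ∀ w ∈ sphere c r, u w ≤ a * r + b)
    {x : E} (hx : dist x c ≤ r) : u x ≤ a * dist x c + b := by
  rcases eq_or_ne x c with rfl | hne
  · simpa using hc
  have hd : 0 < dist x c := dist_pos.2 hne
  refine le_of_forall_pos_le_add fun e he => ?_
  obtain ⟨ρ, hρ, hρu⟩ := Metric.continuousWithinAt_iff.1
    ((hcont.mono hball) c (mem_closedBall_self (dist_nonneg.trans hx))) e he
  set r₁ := min (ρ / 2) (dist x c) with hr₁
  have hr₁0 : 0 < r₁ := lt_min (by linarith) hd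
  have h := annulus_le hcont hsub (b := b + e) hball ha hr₁0 (fun w hw => ?_)
    (fun w hw => by linarith [h₂ w hw]) (min_le_right _ _) hx
  · linarith
  · rw [mem_sphere] at hw
    have hwr : w ∈ closedBall c r := by
      rw [mem_closedBall, hw]; exact (min_le_right _ _).trans hx
    have h' := (abs_lt.1 (Real.dist_eq _ _ ▸ hρu hwr
      (by rw [hw]; exact (min_le_left _ _).trans_lt (by linarith)))).2
    nlinarith [mul_nonneg ha hr₁0.le]

/-- The maximum over closed balls is convex in the radius. -/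
theorem convexOn_sup_ball {s : Set E} {u : E → ℝ} (hcont : ContinuousOn u s)
    (hsub : ∀ z ∈ s, ∀ φ : E → ℝ, ContDiff ℝ 2 φ → IsLocalMax (fun y => u y - φ y) z →
      0 ≤ fderiv ℝ (fderiv ℝ φ) z (gradient φ z) (gradient φ z))
    {c : E} {R : ℝ} (hball : closedBall c R ⊆ s) :
    ConvexOn ℝ (Icc 0 R) fun r => sSup (u '' closedBall c r) := by
  set M : ℝ → ℝ := fun r => sSup (u '' closedBall c r) with hMdef
  have bdd : ∀ r ≤ R, BddAbove (u '' closedBall c r) := fun r hr =>
    ((isCompact_closedBall c r).image_of_continuousOn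
      (hcont.mono ((closedBall_subset_closedBall hr).trans hball))).bddAbove
  have le_M : ∀ r ≤ R, ∀ w ∈ closedBall c r, u w ≤ M r := fun r hr w hw =>
    le_csSup (bdd r hr) ⟨w, hw, rfl⟩
  refine LinearOrder.convexOn_of_lt (convex_Icc 0 R) fun p hp q hq hpq α β hα hβ hαβ => ?_
  simp only [smul_eq_mul]
  set r := α * p + β * q with hr
  have hpr : p ≤ r := by
    obtain rfl : α = 1 - β := by linarith
    nlinarith [mul_le_mul_of_nonneg_left hpq.le hβ.le]
  have hrq : r ≤ q := by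
    obtain rfl : β = 1 - α := by linarith
    nlinarith [mul_le_mul_of_nonneg_left hpq.le hα.le]
  have hr0 : 0 ≤ r := hp.1.trans hpr
  have hMpq : M p ≤ M q :=
    csSup_le_csSup (bdd q hq.2) ⟨u c, c, mem_closedBall_self hp.1, rfl⟩
      (image_mono (closedBall_subset_closedBall hpq.le))
  set a := (M q - M p) / (q - p) with ha
  have hqp : 0 < q - p := sub_pos.2 hpq
  have ha0 : 0 ≤ a := div_nonneg (sub_nonneg.2 hMpq) hqp.le
  have haq : a * (q - p) = M q - M p := div_mul_cancel₀ _ hqp.ne'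
  have hval : a * r + (M p - a * p) = α * M p + β * M q := by
    obtain rfl : β = 1 - α := by linarith
    rw [hr]; linear_combination (1 - α) * haq
  refine csSup_le ⟨u c, c, mem_closedBall_self hr0, rfl⟩ ?_
  rintro _ ⟨w, hw, rfl⟩
  rw [mem_closedBall] at hw
  rcases le_or_gt (dist w c) p with hwp | hwp
  · have := le_M p hp.2 w hwp
    nlinarith [mul_le_mul_of_nonneg_left hpr ha0]
  have hball' : closedBall c q ⊆ s := (closedBall_subset_closedBall hq.2).trans hball
  have htop : ∀ v ∈ sphere c q, u v ≤ a * q + (M p - a * p) := fun v hv => by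
    nlinarith [le_M q hq.2 v (sphere_subset_closedBall hv)]
  have hwle : u w ≤ a * dist w c + (M p - a * p) := by
    rcases eq_or_lt_of_le hp.1 with h0 | h0
    · refine cone_le hcont hsub hball' ha0 ?_ htop (hw.trans hrq)
      rw [← h0, mul_zero, sub_zero]
      exact le_M 0 (h0 ▸ hp.2) c (mem_closedBall_self le_rfl)
    · refine annulus_le hcont hsub hball' ha0 h0 (fun v hv => ?_) htop hwp.le (hw.trans hrq)
      linarith [le_M p hp.2 v (sphere_subset_closedBall hv)]
  nlinarith [mul_le_mul_of_nonneg_left hw ha0]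

/-- The Lipschitz bound by the oscillation. -/
theorem lip_of_osc {s : Set E} {u : E → ℝ} (hcont : ContinuousOn u s)
    (hsub : ∀ z ∈ s, ∀ φ : E → ℝ, ContDiff ℝ 2 φ → IsLocalMax (fun y => u y - φ y) z →
      0 ≤ fderiv ℝ (fderiv ℝ φ) z (gradient φ z) (gradient φ z))
    {c : E} {r K : ℝ} (hr : 0 < r) (hball : closedBall c (2 * r) ⊆ s)
    (hosc : ∀ v ∈ closedBall c (2 * r), ∀ w ∈ closedBall c (2 * r), u v - u w ≤ K) :
    ∀ x ∈ closedBall c r, ∀ y ∈ closedBall c r, |u x - u y| ≤ K / r * dist x y := by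
  have hcc : c ∈ closedBall c (2 * r) := mem_closedBall_self (by linarith)
  have hK : 0 ≤ K := by simpa using hosc c hcc c hcc
  have hbig : ∀ x ∈ closedBall c r, closedBall x r ⊆ closedBall c (2 * r) := fun x hx =>
    closedBall_subset_closedBall' (by rw [mem_closedBall] at hx; linarith)
  suffices one : ∀ x ∈ closedBall c r, ∀ y ∈ closedBall c r, u x - u y ≤ K / r * dist x y by
    intro x hx y hy
    rw [abs_le]
    have h := one y hy x hx
    rw [dist_comm] at h
    exact ⟨by linarith, one x hx y hy⟩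
  intro x hx y hy
  have hx2 := hbig x hx (mem_closedBall_self hr.le)
  have hy2 := hbig y hy (mem_closedBall_self hr.le)
  rcases le_or_gt (dist x y) r with h | h
  · have := cone_le hcont hsub (b := u y) ((hbig y hy).trans hball) (div_nonneg hK hr.le) le_rfl
      (fun w hw => by
        rw [div_mul_cancel₀ _ hr.ne']
        linarith [hosc w (hbig y hy (sphere_subset_closedBall hw)) y hy2]) h
    linarith
  · have h' : K ≤ K / r * dist x y := by
      rw [div_mul_eq_mul_div, le_div_iff₀ hr]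
      exact mul_le_mul_of_nonneg_left h.le hK
    linarith [hosc x hx2 y hy2]

end Vale.Agent.P080
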