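import Vale.Agent.P080.Bernstein2

/-!
Flatness controls the gradient of a classical infinity-harmonic function on any ball (P080).
-/

namespace Vale.Agent.P080

open Metric Set Filter Topology
open scoped RealInnerProductSpace

variable {E : Type*} [NormedAddCommGroup E] [InnerProductSpace ℝ E] [FiniteDimensional ℝ E]
variable {u : E → ℝ} {s : Set E}

/-- A classical solution is a viscosity subsolution. -/
theorem classical_sub (hs : IsOpen s) (hu : ContDiffOn ℝ 3 u s)
    (heq : ∀ z ∈ s, fderiv ℝ (fderiv ℝ u) z (gradient u z) (gradient u z) = 0) :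
    ∀ z ∈ s, ∀ φ : E → ℝ, ContDiff ℝ 2 φ → IsLocalMax (fun y => u y - φ y) z →
      0 ≤ fderiv ℝ (fderiv ℝ φ) z (gradient φ z) (gradient φ z) := by
  intro z hz φ hφ hmax
  have hu1 : ∀ y ∈ s, DifferentiableAt ℝ u y := fun y hy =>
    (hu.contDiffAt (hs.mem_nhds hy)).differentiableAt (by norm_num)
  have hφ1 : Differentiable ℝ φ := hφ.differentiable (by norm_num)
  have hgrad : fderiv ℝ u z = fderiv ℝ φ z := by
    have h := hmax.fderiv_eq_zero
    rwa [fderiv_fun_sub (hu1 z hz) (hφ1 z), sub_eq_zero] at h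
  have hg : gradient φ z = gradient u z := by unfold gradient; rw [hgrad]
  rw [hg]
  set V := gradient u z with hV
  have hl : ∀ t : ℝ, HasDerivAt (fun t : ℝ => z + t • V) V t := fun t => by
    simpa using ((hasDerivAt_id t).smul_const V).const_add z
  have hev : ∀ᶠ t : ℝ in 𝓝 0, z + t • V ∈ s := by
    have : Continuous fun t : ℝ => z + t • V := by fun_prop
    exact (this.tendsto' 0 z (by simp)).eventually (hs.mem_nhds hz)
  have hd : ∀ᶠ t : ℝ in 𝓝 0, HasDerivAt (fun t : ℝ => u (z + t • V) - φ (z + t • V))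
      (fderiv ℝ u (z + t • V) V - fderiv ℝ φ (z + t • V) V) t := by
    filter_upwards [hev] with t ht
    exact ((hu1 _ ht).hasFDerivAt.comp_hasDerivAt t (hl t)).sub
      ((hφ1 _).hasFDerivAt.comp_hasDerivAt t (hl t))
  have hu2 : DifferentiableAt ℝ (fun y => fderiv ℝ u y V) z :=
    (((hu.contDiffAt (hs.mem_nhds hz)).fderiv_right (m := 2) (by norm_num)).differentiableAt
      (by norm_num)).clm_apply (differentiableAt_const V)
  have hφ2 : DifferentiableAt ℝ (fun y => fderiv ℝ φ y V) z :=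
    (((hφ.contDiffAt).fderiv_right (m := 1) (by norm_num)).differentiableAt
      (by norm_num)).clm_apply (differentiableAt_const V)
  have h2 := (hu2.hasFDerivAt.comp_hasDerivAt_of_eq (0 : ℝ) (hl 0) (by simp)).sub
    (hφ2.hasFDerivAt.comp_hasDerivAt_of_eq (0 : ℝ) (hl 0) (by simp))
  have hm : IsLocalMax (fun t : ℝ => u (z + t • V) - φ (z + t • V)) 0 :=
    IsLocalMax.comp_continuous (f := fun y => u y - φ y) (g := fun t : ℝ => z + t • V)
      (by simpa using hmax) (by fun_prop)
  have h := second_deriv_test hd h2 hm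
  have du2 : DifferentiableAt ℝ (fderiv ℝ u) z :=
    ((hu.contDiffAt (hs.mem_nhds hz)).fderiv_right (m := 2) (by norm_num)).differentiableAt
      (by norm_num)
  have dφ2 : DifferentiableAt ℝ (fderiv ℝ φ) z :=
    ((hφ.contDiffAt).fderiv_right (m := 1) (by norm_num)).differentiableAt (by norm_num)
  rw [fderiv_clm_apply du2 (differentiableAt_const V),
    fderiv_clm_apply dφ2 (differentiableAt_const V)] at h
  simp at h
  linarith [heq z hz]

/-- The negative of a classical solution is a classical solution. -/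
theorem classical_neg (heq : ∀ z ∈ s, fderiv ℝ (fderiv ℝ u) z (gradient u z) (gradient u z) = 0) :
    ∀ z ∈ s, fderiv ℝ (fderiv ℝ fun y => -u y) z (gradient (fun y => -u y) z)
      (gradient (fun y => -u y) z) = 0 := fun z hz => by
  rw [infLap_neg, heq z hz, neg_zero]

/-- The gradient is bounded by the slope of any cone from above on a sphere around the point. -/
theorem grad_le_slope (hs : IsOpen s) (hu : ContDiffOn ℝ 3 u s)
    (heq : ∀ z ∈ s, fderiv ℝ (fderiv ℝ u) z (gradient u z) (gradient u z) = 0)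
    {x : E} {r a : ℝ} (hr : 0 < r) (hball : closedBall x r ⊆ s) (ha : 0 ≤ a)
    (h : ∀ w ∈ sphere x r, u w ≤ a * r + u x) : ‖gradient u x‖ ≤ a := by
  set V := gradient u x with hV
  have hxs : x ∈ s := hball (mem_closedBall_self hr.le)
  have hd : HasDerivAt (fun t : ℝ => u (x + t • V) - (a * ‖V‖) * t) (‖V‖ ^ 2 - a * ‖V‖) 0 := by
    refine (((line_derivs hs hu x V (t := 0) (by simpa using hxs)).2.1).sub
      ((hasDerivAt_id (0 : ℝ)).const_mul (a * ‖V‖))).congr_deriv ?_
    simp [← hV, real_inner_self_eq_norm_sq]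
  by_contra hlt
  push Not at hlt
  have hV0 : 0 < ‖V‖ := ha.trans_lt hlt
  have hpos : 0 < ‖V‖ ^ 2 - a * ‖V‖ := by nlinarith
  have hs' := (hasDerivAt_iff_tendsto_slope.1 hd).eventually (lt_mem_nhds hpos)
  rw [eventually_nhdsWithin_iff] at hs'
  obtain ⟨ρ, hρ, hρb⟩ := Metric.eventually_nhds_iff_ball.1 hs'
  set t := min (ρ / 2) (r / ‖V‖) with ht
  have ht0 : 0 < t := lt_min (by linarith) (div_pos hr hV0)
  have hdist : dist (x + t • V) x = t * ‖V‖ := by
    rw [dist_eq_norm, add_sub_cancel_left, norm_smul, Real.norm_eq_abs, abs_of_pos ht0]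
  have hle := cone_le hu.continuousOn (classical_sub hs hu heq) hball ha le_rfl h
    (x := x + t • V) (by rw [hdist, ← le_div_iff₀ hV0]; exact min_le_right _ _)
  have hsl := hρb t (by
    rw [mem_ball, Real.dist_eq, sub_zero, abs_of_pos ht0]
    linarith [min_le_left (ρ / 2) (r / ‖V‖)]) (ne_of_gt ht0)
  rw [slope_def_field] at hsl
  simp only [zero_smul, add_zero, mul_zero, sub_zero] at hsl
  rw [div_pos_iff] at hsl
  rw [hdist] at hle
  rcases hsl with ⟨h1, -⟩ | ⟨-, h2⟩ <;> linarith

/-- Flatness controls the gradient. -/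
theorem flat_gradient {x₀ p : E} {R c D : ℝ} (hR : 0 < R) (hD : 0 < D) (hD8 : D ≤ 1 / 8)
    (hu : ContDiffOn ℝ 3 u (ball x₀ R))
    (heq : ∀ z ∈ ball x₀ R, fderiv ℝ (fderiv ℝ u) z (gradient u z) (gradient u z) = 0)
    (hflat : ∀ y ∈ ball x₀ R, |u y - c - ⟪p, y - x₀⟫| ≤ D * ‖p‖ * R) {x : E}
    (hx : dist x x₀ ≤ R / 8) : ‖gradient u x - p‖ ^ 2 ≤ 6000 * D * ‖p‖ ^ 2 := by
  rcases eq_or_ne p 0 with rfl | hp
  · have hxm : x ∈ ball x₀ R := mem_ball.2 (by linarith)
    have he : u =ᶠ[𝓝 x] fun _ => c := by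
      filter_upwards [isOpen_ball.mem_nhds hxm] with y hy
      have := hflat y hy
      simp at this
      linarith
    have : gradient u x = 0 := by
      unfold gradient
      rw [he.fderiv_eq, fderiv_const_apply, map_zero]
    simp [this]
  have hp0 : 0 < ‖p‖ := norm_pos_iff.2 hp
  set k := (‖p‖ * R)⁻¹ with hk
  set e := ‖p‖⁻¹ • p with he
  let w : E → ℝ := fun y => k * (u (x₀ + R • y) - c)
  have hmaps : MapsTo (fun y : E => x₀ + R • y) (ball 0 1) (ball x₀ R) := fun y hy => by
    rw [mem_ball, dist_eq_norm, add_sub_cancel_left, norm_smul, Real.norm_eq_abs, abs_of_pos hR]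
    have := mul_lt_mul_of_pos_left (mem_ball_zero_iff.1 hy) hR
    simpa using this
  have hw : ContDiffOn ℝ 3 w (ball 0 1) :=
    contDiffOn_const.mul ((hu.comp (by fun_prop) hmaps).sub contDiffOn_const)
  have hgw : ∀ y ∈ ball (0 : E) 1, gradient w y = ‖p‖⁻¹ • gradient u (x₀ + R • y) ∧
      ∀ ξ η, fderiv ℝ (fderiv ℝ w) y ξ η =
        R / ‖p‖ * fderiv ℝ (fderiv ℝ u) (x₀ + R • y) ξ η := by
    have haff : ∀ z : E, HasFDerivAt (fun y : E => x₀ + R • y) (R • ContinuousLinearMap.id ℝ E) z :=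
      fun z => by simpa using ((hasFDerivAt_id z).const_smul R).const_add x₀
    have h1 : ∀ z ∈ ball (0 : E) 1,
        HasFDerivAt w ((k * R) • fderiv ℝ u (x₀ + R • z)) z := fun z hz => by
      have := (((hu.contDiffAt (isOpen_ball.mem_nhds (hmaps hz))).differentiableAt
        (by norm_num)).hasFDerivAt.comp z (haff z)).sub_const c |>.const_mul k
      refine this.congr_fderiv ?_
      ext ξ
      simp
      ring
    intro y hy
    refine ⟨?_, fun ξ η => ?_⟩
    · unfold gradient
      rw [(h1 y hy).fderiv, map_smul]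
      congr 1
      rw [hk]; field_simp
    · have h2 : HasFDerivAt (fderiv ℝ u) (fderiv ℝ (fderiv ℝ u) (x₀ + R • y)) (x₀ + R • y) :=
        (((hu.contDiffAt (isOpen_ball.mem_nhds (hmaps hy))).fderiv_right (m := 2)
          (by norm_num)).differentiableAt (by norm_num)).hasFDerivAt
      have h3 := (h2.comp y (haff y)).const_smul (k * R)
      have he' : fderiv ℝ w =ᶠ[𝓝 y] fun z => (k * R) • fderiv ℝ u (x₀ + R • z) :=
        (isOpen_ball.eventually_mem hy).mono fun z hz => (h1 z hz).fderiv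
      have h3' : HasFDerivAt (fun z => (k * R) • fderiv ℝ u (x₀ + R • z)) _ y := h3
      rw [he'.fderiv_eq, h3'.fderiv]
      simp [hk]
      field_simp
  have heqw : ∀ z ∈ ball (0 : E) 1,
      fderiv ℝ (fderiv ℝ w) z (gradient w z) (gradient w z) = 0 := fun z hz => by
    rw [(hgw z hz).2, (hgw z hz).1]
    simp [heq _ (hmaps hz)]
  have he1 : ‖e‖ = 1 := by
    rw [he, norm_smul, norm_inv, norm_norm, inv_mul_cancel₀ hp0.ne']
  have hflw : ∀ y ∈ ball (0 : E) 1, |w y - ⟪e, y⟫| ≤ D := fun y hy => by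
    have h := hflat _ (hmaps hy)
    simp only [add_sub_cancel_left, real_inner_smul_right] at h
    have : w y - ⟪e, y⟫ = k * (u (x₀ + R • y) - c - R * ⟪p, y⟫) := by
      simp only [w, he, real_inner_smul_left, hk]; field_simp
    rw [this, abs_mul, abs_of_pos (by positivity), hk, inv_mul_le_iff₀ (by positivity)]
    linarith
  have hsub : closedBall (0 : E) (1 / 2) ⊆ ball 0 1 := closedBall_subset_ball (by norm_num)
  have hslope : ∀ y ∈ closedBall (0 : E) (1 / 2), ‖gradient w y‖ ≤ 1 + 5 * D := fun y hy => by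
    have hy' := mem_closedBall_zero_iff.1 hy
    refine grad_le_slope isOpen_ball hw heqw (r := 2 / 5) (by norm_num)
      (closedBall_subset_ball' (by rw [dist_zero_right]; linarith)) (by linarith) fun v hv => ?_
    have hv' : ‖v - y‖ = 2 / 5 := by rw [← dist_eq_norm]; exact mem_sphere.1 hv
    have hvb : v ∈ ball (0 : E) 1 := mem_ball_zero_iff.2 (by linarith [norm_le_insert' v y])
    have h1 := abs_le.1 (hflw v hvb)
    have h2 := abs_le.1 (hflw y (hsub hy))
    have h3 : ⟪e, v⟫ - ⟪e, y⟫ ≤ 2 / 5 := by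
      rw [← inner_sub_right]
      exact (real_inner_le_norm _ _).trans (by rw [he1, one_mul, hv'])
    linarith
  have hG2 : ∀ y ∈ closedBall (0 : E) (1 / 2), ‖gradient w y‖ ≤ 2 := fun y hy =>
    (hslope y hy).trans (by linarith)
  have hsub4 : closedBall (0 : E) (1 / 4) ⊆ closedBall 0 (1 / 2) :=
    closedBall_subset_closedBall (by norm_num)
  have hmag : ∀ y ∈ closedBall (0 : E) (1 / 4),
      |(1 - ⟪gradient w y, gradient w y⟫) / D| ≤ 1536 := fun y hy => by
    have h1 := mag_bound isOpen_ball hw heqw hsub he1 hD (by linarith)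
      (fun z hz => hflw z (hsub hz)) hG2 (mem_closedBall_zero_iff.1 hy)
    have h2 := pow_le_pow_left₀ (norm_nonneg _) (hslope y (hsub4 hy)) 2
    rw [← real_inner_self_eq_norm_sq] at h2
    rw [abs_div, abs_of_pos hD, div_le_iff₀ hD, abs_le]
    constructor
    · nlinarith
    · linarith
  set y := R⁻¹ • (x - x₀) with hy
  have hy8 : ‖y‖ ≤ 1 / 8 := by
    rw [hy, norm_smul, norm_inv, Real.norm_eq_abs, abs_of_pos hR, ← dist_eq_norm,
      inv_mul_le_iff₀ hR]
    linarith
  have hmain := dir_bound isOpen_ball hw heqw ((hsub4.trans hsub)) he1 hD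
    (fun z hz => hflw z (hsub (hsub4 hz))) (fun z hz => hG2 z (hsub4 hz)) hmag hy8
  have hxy : x₀ + R • y = x := by
    rw [hy, smul_inv_smul₀ hR.ne']; abel
  rw [(hgw y (mem_ball_zero_iff.2 (by linarith))).1, hxy, he, ← smul_sub, norm_smul, mul_pow,
    norm_inv, norm_norm, inv_pow, inv_mul_le_iff₀ (by positivity)] at hmain
  linarith

end Vale.Agent.P080
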