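import Vale.Agent.P080.Cones

/-!
Calculus of the gradient of a classical infinity-harmonic function: along the line through `x`
in the direction `Du x` the gradient has velocity `a = D²u Du` and acceleration `-2 D²u a`.
Bernstein estimates: a function close to an affine function has gradient close to its slope (P080).
-/

namespace Vale.Agent.P080

open Metric Set Filter Topology
open scoped RealInnerProductSpace

variable {E : Type*} [NormedAddCommGroup E] [InnerProductSpace ℝ E] [FiniteDimensional ℝ E]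

theorem inner_gradient_eq (u : E → ℝ) (y w : E) : ⟪gradient u y, w⟫ = fderiv ℝ u y w := by
  rw [← InnerProductSpace.toDual_apply_apply (𝕜 := ℝ), toDual_gradient]

/-- Second derivative test at a local maximum on a line. -/
theorem second_deriv_test {f f1 : ℝ → ℝ} {c : ℝ} (hf : ∀ᶠ t in 𝓝 0, HasDerivAt f (f1 t) t)
    (h1 : HasDerivAt f1 c 0) (hmax : IsLocalMax f 0) : c ≤ 0 := by
  by_contra hc
  push Not at hc
  have h0 : f1 0 = 0 := hmax.hasDerivAt_eq_zero hf.self_of_nhds
  have hs := hasDerivAt_iff_tendsto_slope.1 h1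
  have hpos : ∀ᶠ t in 𝓝[≠] 0, 0 < _root_.slope f1 0 t := hs.eventually (lt_mem_nhds hc)
  rw [eventually_nhdsWithin_iff] at hpos
  obtain ⟨ρ, hρ, hball⟩ := Metric.eventually_nhds_iff_ball.1 (hpos.and (hf.and hmax))
  have hIcc : ∀ t ∈ Icc (0 : ℝ) (ρ / 2), t ∈ ball (0 : ℝ) ρ := fun t ht => by
    rw [mem_ball, Real.dist_eq, sub_zero, abs_of_nonneg ht.1]; linarith [ht.2]
  have hmono : StrictMonoOn f (Icc 0 (ρ / 2)) := by
    refine strictMonoOn_of_deriv_pos (convex_Icc _ _)
      (fun t ht => (hball t (hIcc t ht)).2.1.continuousAt.continuousWithinAt) fun t ht => ?_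
    rw [interior_Icc] at ht
    obtain ⟨hp, hd, -⟩ := hball t (hIcc t (Ioo_subset_Icc_self ht))
    rw [hd.deriv]
    have := hp (ne_of_gt ht.1)
    rw [slope_def_field, h0, sub_zero, sub_zero] at this
    exact (div_pos_iff.1 this).elim (fun h => h.1) fun h => absurd h.2 (by linarith [ht.1])
  have h2 : f (ρ / 2) ≤ f 0 := (hball _ (hIcc _ ⟨by linarith, le_rfl⟩)).2.2
  linarith [hmono ⟨le_rfl, by linarith⟩ ⟨by linarith, le_rfl⟩ (by linarith : (0:ℝ) < ρ / 2)]

variable {u : E → ℝ} {s : Set E}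

theorem contDiffAt_gradient (hs : IsOpen s) (hu : ContDiffOn ℝ 3 u s) {x : E} (hx : x ∈ s) :
    ContDiffAt ℝ 2 (gradient u) x := by
  have h : ContDiffAt ℝ 2 (fderiv ℝ u) x :=
    (hu.contDiffAt (hs.mem_nhds hx)).fderiv_right (by norm_num)
  let T : StrongDual ℝ E →L[ℝ] E := LinearMap.toContinuousLinearMap
    { toFun := fun f => (InnerProductSpace.toDual ℝ E).symm f
      map_add' := fun f g => map_add _ f g
      map_smul' := fun r f => by simp }
  exact T.contDiff.contDiffAt.comp x h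

theorem hasFDerivAt_gradient (hs : IsOpen s) (hu : ContDiffOn ℝ 3 u s) {x : E} (hx : x ∈ s) :
    HasFDerivAt (gradient u) (fderiv ℝ (gradient u) x) x :=
  ((contDiffAt_gradient hs hu hx).differentiableAt (by norm_num)).hasFDerivAt

theorem inner_hess (hs : IsOpen s) (hu : ContDiffOn ℝ 3 u s) {x : E} (hx : x ∈ s) (ξ w : E) :
    ⟪fderiv ℝ (gradient u) x ξ, w⟫ = fderiv ℝ (fderiv ℝ u) x ξ w := by
  have h1 := (hasFDerivAt_gradient hs hu hx).inner ℝ (hasFDerivAt_const w x)
  have h2 : HasFDerivAt (fderiv ℝ u) (fderiv ℝ (fderiv ℝ u) x) x :=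
    (((hu.contDiffAt (hs.mem_nhds hx)).fderiv_right (m := 2) (by norm_num)).differentiableAt
      (by norm_num)).hasFDerivAt
  have h3 := h2.clm_apply (hasFDerivAt_const w x)
  have he : (fun y => ⟪gradient u y, w⟫) = fun y => fderiv ℝ u y w :=
    funext fun y => inner_gradient_eq u y w
  rw [he] at h1
  have := DFunLike.congr_fun (h1.unique h3) ξ
  simpa using this

theorem hess_symm (hs : IsOpen s) (hu : ContDiffOn ℝ 3 u s) {x : E} (hx : x ∈ s) (ξ w : E) :
    ⟪fderiv ℝ (gradient u) x ξ, w⟫ = ⟪fderiv ℝ (gradient u) x w, ξ⟫ := by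
  rw [inner_hess hs hu hx, inner_hess hs hu hx]
  exact (hu.contDiffAt (hs.mem_nhds hx)).isSymmSndFDerivAt (by norm_num) ξ w

/-- Velocity and acceleration of the gradient along a line in the gradient direction. -/
theorem grad_along (hs : IsOpen s) (hu : ContDiffOn ℝ 3 u s)
    (heq : ∀ z ∈ s, fderiv ℝ (fderiv ℝ u) z (gradient u z) (gradient u z) = 0)
    {x : E} (hx : x ∈ s) :
    ⟪fderiv ℝ (gradient u) x (gradient u x), gradient u x⟫ = 0 ∧
    HasDerivAt (fun t : ℝ => fderiv ℝ (gradient u) (x + t • gradient u x) (gradient u x))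
      (-(2 : ℝ) • fderiv ℝ (gradient u) x (fderiv ℝ (gradient u) x (gradient u x))) 0 := by
  set G := gradient u with hG
  set H := fderiv ℝ G with hH
  have hz : ∀ z ∈ s, ⟪H z (G z), G z⟫ = 0 := fun z hz => by
    rw [hH, hG, inner_hess hs hu hz]; exact heq z hz
  refine ⟨hz x hx, ?_⟩
  have hG2 := contDiffAt_gradient hs hu hx
  have hH1 : HasFDerivAt H (fderiv ℝ H x) x :=
    (((hG2).fderiv_right (m := 1) (by norm_num)).differentiableAt (by norm_num)).hasFDerivAt
  have hG1 : HasFDerivAt G (H x) x := hasFDerivAt_gradient hs hu hx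
  set D := fderiv ℝ H x with hD
  set V := G x with hV
  set a := H x V with ha
  have hsym : ∀ p q, D p q = D q p := fun p q => hG2.isSymmSndFDerivAt (by norm_num) p q
  have hsym2 : ∀ p q r, ⟪D p q, r⟫ = ⟪D p r, q⟫ := by
    intro p q r
    have h1 := (hH1.clm_apply (hasFDerivAt_const q x)).inner ℝ (hasFDerivAt_const r x)
    have h2 := (hH1.clm_apply (hasFDerivAt_const r x)).inner ℝ (hasFDerivAt_const q x)
    have he : (fun y => ⟪H y q, r⟫) =ᶠ[𝓝 x] fun y => ⟪H y r, q⟫ :=
      (hs.eventually_mem hx).mono fun y hy => hess_symm hs hu hy q r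
    simpa using DFunLike.congr_fun ((h1.congr_of_eventuallyEq he.symm).unique h2) p
  have hψ : ∀ ξ, ⟪D ξ V, V⟫ + 2 * ⟪H x a, ξ⟫ = 0 := by
    intro ξ
    have h1 := (hH1.clm_apply hG1).inner ℝ hG1
    have he : (fun y => ⟪H y (G y), G y⟫) =ᶠ[𝓝 x] fun _ => (0 : ℝ) :=
      (hs.eventually_mem hx).mono fun y hy => hz y hy
    have h := DFunLike.congr_fun ((h1.congr_of_eventuallyEq he.symm).unique
      (hasFDerivAt_const (0 : ℝ) x)) ξ
    simp only [← hV] at h
    simp [inner_add_left] at h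
    have e1 : ⟪H x (H x ξ), V⟫ = ⟪H x a, ξ⟫ := by
      rw [hess_symm hs hu hx, ← ha, real_inner_comm]
      exact hess_symm hs hu hx ξ a
    have e2 : ⟪a, H x ξ⟫ = ⟪H x a, ξ⟫ := by
      rw [real_inner_comm]; exact hess_symm hs hu hx ξ a
    rw [e1, e2] at h
    linarith
  have hK : D V V = -(2 : ℝ) • H x a := by
    refine ext_inner_right ℝ fun w => ?_
    have := hψ w
    rw [hsym w V, hsym2 V w V] at this
    rw [real_inner_smul_left]
    linarith
  have hline : HasDerivAt (fun t : ℝ => x + t • V) V 0 := by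
    simpa using ((hasDerivAt_id (0 : ℝ)).smul_const V).const_add x
  have := ((hH1.clm_apply (hasFDerivAt_const V x)).comp_hasDerivAt_of_eq (0 : ℝ) hline (by simp))
  refine this.congr_deriv ?_
  simpa using hK

/-- Derivatives along a line of position, function and gradient. -/
theorem line_derivs (hs : IsOpen s) (hu : ContDiffOn ℝ 3 u s) (x ξ : E) {t : ℝ}
    (ht : x + t • ξ ∈ s) :
    HasDerivAt (fun t : ℝ => x + t • ξ) ξ t ∧
    HasDerivAt (fun t : ℝ => u (x + t • ξ)) ⟪gradient u (x + t • ξ), ξ⟫ t ∧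
    HasDerivAt (fun t : ℝ => gradient u (x + t • ξ))
      (fderiv ℝ (gradient u) (x + t • ξ) ξ) t := by
  have hline : HasDerivAt (fun t : ℝ => x + t • ξ) ξ t := by
    simpa using ((hasDerivAt_id t).smul_const ξ).const_add x
  refine ⟨hline, ?_, ?_⟩
  swap
  · simpa [Function.comp_def] using (hasFDerivAt_gradient hs hu ht).comp_hasDerivAt t hline
  rw [inner_gradient_eq]
  exact (((hu.contDiffAt (hs.mem_nhds ht)).differentiableAt (by norm_num)).hasFDerivAt).comp_hasDerivAt
    t hline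

end Vale.Agent.P080
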