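import Vale.Agent.P080.Modulus

/-!
Scaled form of the modulus of continuity, and `C¹` regularity of locally uniform limits of
classical infinity-harmonic functions (P080).
-/

namespace Vale.Agent.P080

open Metric Set Filter Topology
open scoped RealInnerProductSpace

/-- Universal modulus of continuity of the gradient on any ball. -/
theorem modulus_ball {ε : ℝ} (hε : 0 < ε) :
    ∃ r : ℝ, 0 < r ∧ ∀ (d : ℕ) (x₀ : EuclideanSpace ℝ (Fin d)) (R K : ℝ)
      (u : EuclideanSpace ℝ (Fin d) → ℝ), 0 < R → ContDiffOn ℝ 3 u (ball x₀ R) →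
      (∀ z ∈ ball x₀ R, fderiv ℝ (fderiv ℝ u) z (gradient u z) (gradient u z) = 0) →
      (∀ z ∈ ball x₀ R, ∀ w ∈ ball x₀ R, u z - u w ≤ K) →
      ∀ x y, dist x x₀ ≤ R / 2 → dist y x ≤ r * R →
        ‖gradient u y - gradient u x‖ ≤ ε * K / R := by
  obtain ⟨r, hr, hmod⟩ := modulus_unit (ε := min 1 (ε / 6)) (lt_min one_pos (by positivity))
    (min_le_left _ _)
  refine ⟨min r (1 / 4), lt_min hr (by norm_num), fun d x₀ R K u hR hu heq hosc x y hx hy => ?_⟩
  have hyr : dist y x ≤ r * R :=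
    hy.trans (mul_le_mul_of_nonneg_right (min_le_left _ _) hR.le)
  have hy4 : dist y x ≤ R / 4 := by
    refine hy.trans ((mul_le_mul_of_nonneg_right (min_le_right _ _) hR.le).trans ?_)
    linarith
  have hK0 : 0 ≤ K := by
    simpa using hosc x₀ (mem_ball_self hR) x₀ (mem_ball_self hR)
  -- work with any larger positive oscillation bound
  suffices h : ∀ L, K < L → ‖gradient u y - gradient u x‖ ≤ ε * L / R by
    refine le_of_forall_pos_le_add fun e he => ?_
    have := h (K + e * R / ε) (by have : 0 < e * R / ε := by positivity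
                                  linarith)
    rw [mul_add, add_div] at this
    refine this.trans (le_of_eq ?_)
    field_simp
  intro L hL
  have hL0 : 0 < L := hK0.trans_lt hL
  let w : EuclideanSpace ℝ (Fin d) → ℝ := fun z => L⁻¹ * (u (x₀ + R • z) - u x₀)
  have hmaps : MapsTo (fun z : EuclideanSpace ℝ (Fin d) => x₀ + R • z) (ball 0 1) (ball x₀ R) :=
    fun z hz => by
      rw [mem_ball, dist_eq_norm, add_sub_cancel_left, norm_smul, Real.norm_eq_abs,
        abs_of_pos hR]
      simpa using mul_lt_mul_of_pos_left (mem_ball_zero_iff.1 hz) hR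
  have hw : ContDiffOn ℝ 3 w (ball 0 1) :=
    contDiffOn_const.mul ((hu.comp (by fun_prop) hmaps).sub contDiffOn_const)
  have haff : ∀ z : EuclideanSpace ℝ (Fin d),
      HasFDerivAt (fun z : EuclideanSpace ℝ (Fin d) => x₀ + R • z)
        (R • ContinuousLinearMap.id ℝ (EuclideanSpace ℝ (Fin d))) z :=
    fun z => by simpa using ((hasFDerivAt_id z).const_smul R).const_add x₀
  have h1 : ∀ z ∈ ball (0 : EuclideanSpace ℝ (Fin d)) 1,
      HasFDerivAt w ((L⁻¹ * R) • fderiv ℝ u (x₀ + R • z)) z := fun z hz => by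
    have := (((hu.contDiffAt (isOpen_ball.mem_nhds (hmaps hz))).differentiableAt
      (by norm_num)).hasFDerivAt.comp z (haff z)).sub_const (u x₀) |>.const_mul L⁻¹
    refine this.congr_fderiv ?_
    ext ξ
    simp
    ring
  have hgrad : ∀ z ∈ ball (0 : EuclideanSpace ℝ (Fin d)) 1,
      gradient w z = (L⁻¹ * R) • gradient u (x₀ + R • z) := fun z hz => by
    unfold gradient
    rw [(h1 z hz).fderiv, map_smul]
  have heqw : ∀ z ∈ ball (0 : EuclideanSpace ℝ (Fin d)) 1,
      fderiv ℝ (fderiv ℝ w) z (gradient w z) (gradient w z) = 0 := fun z hz => by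
    have h2 : HasFDerivAt (fderiv ℝ u) (fderiv ℝ (fderiv ℝ u) (x₀ + R • z)) (x₀ + R • z) :=
      (((hu.contDiffAt (isOpen_ball.mem_nhds (hmaps hz))).fderiv_right (m := 2)
        (by norm_num)).differentiableAt (by norm_num)).hasFDerivAt
    have h3 : HasFDerivAt (fun y => (L⁻¹ * R) • fderiv ℝ u (x₀ + R • y)) _ z :=
      (h2.comp z (haff z)).const_smul (L⁻¹ * R)
    have he' : fderiv ℝ w =ᶠ[𝓝 z] fun y => (L⁻¹ * R) • fderiv ℝ u (x₀ + R • y) :=
      (isOpen_ball.eventually_mem hz).mono fun y hy' => (h1 y hy').fderiv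
    rw [he'.fderiv_eq, h3.fderiv, hgrad z hz]
    simp [heq _ (hmaps hz)]
  have hb : ∀ z ∈ ball (0 : EuclideanSpace ℝ (Fin d)) 1, |w z| ≤ 1 := fun z hz => by
    simp only [w, abs_mul, abs_inv, abs_of_pos hL0]
    rw [inv_mul_le_iff₀ hL0, mul_one, abs_le]
    constructor <;>
      linarith [hosc _ (hmaps hz) x₀ (mem_ball_self hR), hosc x₀ (mem_ball_self hR) _ (hmaps hz)]
  have hnorm : ∀ z : EuclideanSpace ℝ (Fin d), ‖R⁻¹ • (z - x₀)‖ = dist z x₀ / R := fun z => by
    rw [norm_smul, norm_inv, Real.norm_eq_abs, abs_of_pos hR, dist_eq_norm]; ring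
  have hx' : ‖R⁻¹ • (x - x₀)‖ ≤ 1 / 2 := by rw [hnorm, div_le_iff₀ hR]; linarith
  have hy' : ‖R⁻¹ • (y - x₀)‖ < 1 := by
    rw [hnorm, div_lt_iff₀ hR]; linarith [dist_triangle y x x₀]
  have hd : dist (R⁻¹ • (y - x₀)) (R⁻¹ • (x - x₀)) ≤ r := by
    rw [dist_eq_norm, ← smul_sub, sub_sub_sub_cancel_right, norm_smul, norm_inv, Real.norm_eq_abs,
      abs_of_pos hR, ← dist_eq_norm, inv_mul_le_iff₀ hR]
    linarith
  have h := hmod d w hw heqw hb _ _ hx' hd
  have hxe : ∀ z : EuclideanSpace ℝ (Fin d), x₀ + R • R⁻¹ • (z - x₀) = z := fun z => by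
    rw [smul_inv_smul₀ hR.ne']; abel
  rw [hgrad _ (mem_ball_zero_iff.2 hy'), hgrad _ (mem_ball_zero_iff.2 (by linarith)), hxe, hxe,
    ← smul_sub, norm_smul, Real.norm_eq_abs, abs_of_pos (by positivity)] at h
  rw [le_div_iff₀ hR]
  have h6 : 6 * min 1 (ε / 6) ≤ ε := by linarith [min_le_right (1 : ℝ) (ε / 6)]
  have := mul_le_mul_of_nonneg_left (h.trans h6) hL0.le
  rw [← mul_assoc, ← mul_assoc, mul_inv_cancel₀ hL0.ne', one_mul] at this
  linarith

variable {d : ℕ}

/-- Closeness of the values and continuity of the gradients force closeness of the gradients. -/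
theorem fderiv_close {S : Set (EuclideanSpace ℝ (Fin d))}
    {f g : EuclideanSpace ℝ (Fin d) → ℝ} {y : EuclideanSpace ℝ (Fin d)} {h ω η : ℝ}
    (hh : 0 < h) (hS : closedBall y h ⊆ S) (hf : ∀ z ∈ S, DifferentiableAt ℝ f z)
    (hg : ∀ z ∈ S, DifferentiableAt ℝ g z)
    (hfω : ∀ z ∈ closedBall y h, ‖fderiv ℝ f z - fderiv ℝ f y‖ ≤ ω)
    (hgω : ∀ z ∈ closedBall y h, ‖fderiv ℝ g z - fderiv ℝ g y‖ ≤ ω)
    (hη : ∀ z ∈ closedBall y h, |f z - g z| ≤ η) :
    ‖fderiv ℝ f y - fderiv ℝ g y‖ ≤ 2 * ω + 2 * η / h := by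
  have hy : y ∈ closedBall y h := mem_closedBall_self hh.le
  have hω : 0 ≤ ω := le_trans (norm_nonneg _) (hfω y hy)
  have hη0 : 0 ≤ η := le_trans (abs_nonneg _) (hη y hy)
  refine ContinuousLinearMap.opNorm_le_bound _ (by positivity) fun ξ => ?_
  rcases eq_or_ne ξ 0 with rfl | hξ
  · simp
  have hξ0 : 0 < ‖ξ‖ := norm_pos_iff.2 hξ
  set k := h / ‖ξ‖ with hk
  have hk0 : 0 < k := div_pos hh hξ0
  have hz : y + k • ξ ∈ closedBall y h := by
    rw [mem_closedBall, dist_eq_norm, add_sub_cancel_left, norm_smul, Real.norm_eq_abs,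
      abs_of_pos hk0, hk, div_mul_cancel₀ _ hξ0.ne']
  have h1 := (convex_closedBall y h).norm_image_sub_le_of_norm_hasFDerivWithin_le
    (f := fun z => f z - fderiv ℝ f y z) (f' := fun z => fderiv ℝ f z - fderiv ℝ f y)
    (fun z hz' => ((hf z (hS hz')).hasFDerivAt.sub (fderiv ℝ f y).hasFDerivAt).hasFDerivWithinAt)
    hfω hy hz
  have h2 := (convex_closedBall y h).norm_image_sub_le_of_norm_hasFDerivWithin_le
    (f := fun z => g z - fderiv ℝ g y z) (f' := fun z => fderiv ℝ g z - fderiv ℝ g y)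
    (fun z hz' => ((hg z (hS hz')).hasFDerivAt.sub (fderiv ℝ g y).hasFDerivAt).hasFDerivWithinAt)
    hgω hy hz
  have hn : ‖y + k • ξ - y‖ = h := by
    rw [add_sub_cancel_left, norm_smul, Real.norm_eq_abs, abs_of_pos hk0, hk,
      div_mul_cancel₀ _ hξ0.ne']
  rw [hn, Real.norm_eq_abs, abs_le] at h1 h2
  simp only [map_add, map_smul, smul_eq_mul] at h1 h2
  have h3 : |k * ((fderiv ℝ f y - fderiv ℝ g y) ξ)| ≤ 2 * (ω * h) + 2 * η := by
    rw [_root_.abs_le, ContinuousLinearMap.sub_apply]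
    constructor <;>
      linarith [abs_le.1 (hη y hy), abs_le.1 (hη _ hz)]
  rw [abs_mul, abs_of_pos hk0, ← le_div_iff₀' hk0] at h3
  refine (Real.norm_eq_abs _).le.trans (h3.trans (le_of_eq ?_))
  rw [hk]
  field_simp

/-- A locally uniform limit of classical infinity-harmonic functions is `C¹`. -/
theorem limit_contDiffOn {Ω : Set (EuclideanSpace ℝ (Fin d))} (hΩ : IsOpen Ω)
    {U : ℕ → EuclideanSpace ℝ (Fin d) → ℝ} {u : EuclideanSpace ℝ (Fin d) → ℝ}
    (hU : ∀ n, ContDiffOn ℝ 3 (U n) Ω)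
    (heq : ∀ n, ∀ z ∈ Ω, fderiv ℝ (fderiv ℝ (U n)) z (gradient (U n) z) (gradient (U n) z) = 0)
    (hlim : TendstoLocallyUniformlyOn U u atTop Ω) : ContDiffOn ℝ 1 u Ω := by
  have huc : ContinuousOn u Ω :=
    hlim.continuousOn (Eventually.of_forall fun n => (hU n).continuousOn).frequently
  suffices hloc : ∀ x ∈ Ω, ContDiffAt ℝ 1 u x from fun x hx => (hloc x hx).contDiffWithinAt
  intro x₀ hx₀
  obtain ⟨R, hR, hRΩ⟩ := nhds_basis_closedBall.mem_iff.1 (hΩ.mem_nhds hx₀)
  have hball : ball x₀ R ⊆ Ω := ball_subset_closedBall.trans hRΩ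
  have hunif : TendstoUniformlyOn U u atTop (closedBall x₀ R) :=
    (tendstoLocallyUniformlyOn_iff_tendstoUniformlyOn_of_compact (isCompact_closedBall x₀ R)).1
      (hlim.mono hRΩ)
  rw [Metric.tendstoUniformlyOn_iff] at hunif
  obtain ⟨B, hB⟩ := ((isCompact_closedBall x₀ R).image_of_continuousOn
    (huc.mono hRΩ)).isBounded.exists_norm_le
  set K := 2 * B + 2 with hK
  have hB0 : 0 ≤ B := le_trans (norm_nonneg _) (hB _ ⟨x₀, mem_closedBall_self hR.le, rfl⟩)
  have hKpos : 0 < K := by rw [hK]; linarith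
  set V := ball x₀ (R / 4) with hV
  have hVΩ : V ⊆ Ω := (ball_subset_ball (by linarith)).trans hball
  have hcau : UniformCauchySeqOn (fun n => fderiv ℝ (U n)) atTop V := by
    rw [Metric.uniformCauchySeqOn_iff]
    intro ε hε
    obtain ⟨r, hr, hmod⟩ := modulus_ball (ε := ε * R / (8 * K)) (by positivity)
    set h := min (r * R) (R / 4) with hh
    have hh0 : 0 < h := lt_min (by positivity) (by linarith)
    set η := min 1 (ε * h / 16) with hη
    have hη0 : 0 < η := lt_min one_pos (by positivity)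
    obtain ⟨N, hN⟩ := eventually_atTop.1 (hunif η hη0)
    refine ⟨N, fun m hm n hn y hy => ?_⟩
    have hval : ∀ j ≥ N, ∀ z ∈ closedBall x₀ R, |u z - U j z| ≤ η := fun j hj z hz => by
      rw [← Real.dist_eq]; exact (hN j hj z hz).le
    have hsub : closedBall y h ⊆ closedBall x₀ R :=
      closedBall_subset_closedBall' (by linarith [mem_ball.1 hy, min_le_right (r * R) (R / 4)])
    have homega : ∀ j ≥ N, ∀ z ∈ closedBall y h,
        ‖fderiv ℝ (U j) z - fderiv ℝ (U j) y‖ ≤ ε / 8 := by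
      intro j hj z hz
      have hosc : ∀ a ∈ ball x₀ R, ∀ b ∈ ball x₀ R, U j a - U j b ≤ K := by
        intro a ha b hb
        have h1 := abs_le.1 (hval j hj a (ball_subset_closedBall ha))
        have h2 := abs_le.1 (hval j hj b (ball_subset_closedBall hb))
        have h3 := hB _ ⟨a, ball_subset_closedBall ha, rfl⟩
        have h4 := hB _ ⟨b, ball_subset_closedBall hb, rfl⟩
        rw [Real.norm_eq_abs] at h3 h4
        linarith [abs_le.1 h3, abs_le.1 h4, min_le_left (1 : ℝ) (ε * h / 16)]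
      have := hmod d x₀ R K (U j) hR ((hU j).mono hball) (fun z hz' => heq j z (hball hz')) hosc
        y z (by linarith [mem_ball.1 hy]) ((mem_closedBall.1 hz).trans (min_le_left _ _))
      rw [← toDual_gradient, ← toDual_gradient, ← map_sub, LinearIsometryEquiv.norm_map]
      refine this.trans (le_of_eq ?_)
      have := hKpos.ne'
      field_simp
    have := fderiv_close (f := U m) (g := U n) (η := 2 * η) hh0 hsub
      (fun z hz => ((hU m).contDiffAt (hΩ.mem_nhds (hRΩ hz))).differentiableAt (by norm_num))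
      (fun z hz => ((hU n).contDiffAt (hΩ.mem_nhds (hRΩ hz))).differentiableAt (by norm_num))
      (homega m hm) (homega n hn) (fun z hz => by
        have h1 := abs_le.1 (hval m hm z (hsub hz))
        have h2 := abs_le.1 (hval n hn z (hsub hz))
        rw [abs_le]; constructor <;> linarith)
    rw [dist_eq_norm]
    have h2 : 2 * (2 * η) / h ≤ ε / 4 := by
      rw [div_le_iff₀ hh0]; linarith [min_le_right (1 : ℝ) (ε * h / 16)]
    linarith
  let g' : EuclideanSpace ℝ (Fin d) → (EuclideanSpace ℝ (Fin d) →L[ℝ] ℝ) :=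
    fun y => limUnder atTop fun n => fderiv ℝ (U n) y
  have hpt : ∀ y ∈ V, Tendsto (fun n => fderiv ℝ (U n) y) atTop (𝓝 (g' y)) := fun y hy =>
    (cauchySeq_tendsto_of_complete (hcau.cauchySeq hy)).elim fun a ha => by
      show Tendsto _ _ (𝓝 (limUnder atTop fun n => fderiv ℝ (U n) y))
      rw [ha.limUnder_eq]; exact ha
  have hg' : TendstoUniformlyOn (fun n => fderiv ℝ (U n)) g' atTop V :=
    hcau.tendstoUniformlyOn_of_tendsto hpt
  have hcont : ContinuousOn g' V := hg'.continuousOn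
    (Eventually.of_forall fun n =>
      (((hU n).continuousOn_fderiv_of_isOpen hΩ (by norm_num)).mono hVΩ)).frequently
  have hder : ∀ y ∈ V, HasFDerivAt u (g' y) y := fun y hy =>
    hasFDerivAt_of_tendstoUniformlyOn isOpen_ball hg'
      (fun n z hz => (((hU n).contDiffAt (hΩ.mem_nhds (hVΩ hz))).differentiableAt
        (by norm_num)).hasFDerivAt)
      (fun z hz => hlim.tendsto_at (hVΩ hz)) hy
  have h1 : ContDiffOn ℝ 1 u V := by
    rw [show (1 : WithTop ℕ∞) = 0 + 1 by norm_num,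
      contDiffOn_succ_iff_fderiv_of_isOpen isOpen_ball]
    refine ⟨fun y hy => (hder y hy).differentiableAt.differentiableWithinAt, by simp, ?_⟩
    rw [contDiffOn_zero]
    exact hcont.congr fun y hy => (hder y hy).fderiv
  exact h1.contDiffAt (isOpen_ball.mem_nhds (mem_ball_self (by linarith)))

end Vale.Agent.P080
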