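import Vale.Agent.P080.Improve
import Vale.Agent.P080.Limits

/-!
Interior `C^{1,α}` estimate, with `α` and the constant independent of the dimension, for classical
infinity-harmonic functions and their locally uniform limits (P080).
-/

namespace Vale.Agent.P080

open Metric Set Filter Topology
open scoped RealInnerProductSpace

section General

variable {E : Type*} [NormedAddCommGroup E] [InnerProductSpace ℝ E] [FiniteDimensional ℝ E]
variable {u : E → ℝ}

/-- Rescaling a classical solution to the unit ball. -/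
theorem rescale {x₀ : E} {R k a : ℝ} (hR : 0 < R) (hu : ContDiffOn ℝ 3 u (ball x₀ R))
    (heq : ∀ z ∈ ball x₀ R, fderiv ℝ (fderiv ℝ u) z (gradient u z) (gradient u z) = 0) :
    ContDiffOn ℝ 3 (fun z => k * (u (x₀ + R • z) - a)) (ball 0 1) ∧
    (∀ z ∈ ball (0 : E) 1,
      fderiv ℝ (fderiv ℝ fun z => k * (u (x₀ + R • z) - a)) z
        (gradient (fun z => k * (u (x₀ + R • z) - a)) z)
        (gradient (fun z => k * (u (x₀ + R • z) - a)) z) = 0) ∧
    ∀ z ∈ ball (0 : E) 1, gradient (fun z => k * (u (x₀ + R • z) - a)) z =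
      (k * R) • gradient u (x₀ + R • z) := by
  set w : E → ℝ := fun z => k * (u (x₀ + R • z) - a) with hwdef
  have hmaps : MapsTo (fun z : E => x₀ + R • z) (ball 0 1) (ball x₀ R) := fun z hz => by
    rw [mem_ball, dist_eq_norm, add_sub_cancel_left, norm_smul, Real.norm_eq_abs, abs_of_pos hR]
    simpa using mul_lt_mul_of_pos_left (mem_ball_zero_iff.1 hz) hR
  have haff : ∀ z : E, HasFDerivAt (fun z : E => x₀ + R • z) (R • ContinuousLinearMap.id ℝ E) z :=
    fun z => by simpa using ((hasFDerivAt_id z).const_smul R).const_add x₀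
  have h1 : ∀ z ∈ ball (0 : E) 1,
      HasFDerivAt w ((k * R) • fderiv ℝ u (x₀ + R • z)) z := fun z hz => by
    have := (((hu.contDiffAt (isOpen_ball.mem_nhds (hmaps hz))).differentiableAt
      (by norm_num)).hasFDerivAt.comp z (haff z)).sub_const a |>.const_mul k
    refine this.congr_fderiv ?_
    ext ξ
    simp
    ring
  have hgrad : ∀ z ∈ ball (0 : E) 1, gradient w z = (k * R) • gradient u (x₀ + R • z) :=
    fun z hz => by
    unfold gradient
    rw [(h1 z hz).fderiv, map_smul]
  refine ⟨contDiffOn_const.mul ((hu.comp (by fun_prop) hmaps).sub contDiffOn_const),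
    fun z hz => ?_, hgrad⟩
  have h2 : HasFDerivAt (fderiv ℝ u) (fderiv ℝ (fderiv ℝ u) (x₀ + R • z)) (x₀ + R • z) :=
    (((hu.contDiffAt (isOpen_ball.mem_nhds (hmaps hz))).fderiv_right (m := 2)
      (by norm_num)).differentiableAt (by norm_num)).hasFDerivAt
  have h3 : HasFDerivAt (fun y => (k * R) • fderiv ℝ u (x₀ + R • y)) _ z :=
    (h2.comp z (haff z)).const_smul (k * R)
  have he' : fderiv ℝ w =ᶠ[𝓝 z] fun y => (k * R) • fderiv ℝ u (x₀ + R • y) :=
    (isOpen_ball.eventually_mem hz).mono fun y hy => (h1 y hy).fderiv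
  rw [he'.fderiv_eq, h3.fderiv, hgrad z hz]
  simp [heq _ (hmaps hz)]

/-- Geometric decay of the oscillation of the gradient around the centre of a flat window. -/
theorem decay {N : ℕ} {q : ℝ} (hN : 76800 < (N : ℝ) * (1 / 10000)) (hq0 : 0 < q) (hq1 : q ≤ 1)
    (hq : q ≤ (1 / 10 ^ 9) ^ N / 320000) (n : ℕ) :
    ∀ (u : E → ℝ) (e : E) (d : ℝ), ContDiffOn ℝ 3 u (ball 0 1) →
      (∀ z ∈ ball (0 : E) 1, fderiv ℝ (fderiv ℝ u) z (gradient u z) (gradient u z) = 0) →
      ‖e‖ = 1 → 0 < d → d ^ 2 ≤ 1 / 10 ^ 9 →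
      (∀ y, aForm e (d ^ 2) y y ≤ 1 / 4 → |u y - ⟪e, y⟫| ≤ d ^ 2) →
      (∀ y, aForm e (d ^ 2) y y ≤ 1 / 4 → ‖gradient u y‖ ≤ 2) →
      ∀ y, ‖y‖ ≤ d / 8 * q ^ n → ‖gradient u y - gradient u 0‖ ≤ 4500 * d * (2 / 3) ^ n := by
  induction n with
  | zero =>
    intro u e d hu heq he hd hd2 hflat hG2 y hy
    have hδ : 0 < d ^ 2 := by positivity
    have hδ1 : d ^ 2 ≤ 1 := by linarith
    have hsub : ∀ z, aForm e (d ^ 2) z z ≤ 1 / 4 → z ∈ ball (0 : E) 1 := fun z hz => by
      rw [mem_ball_zero_iff, ← pow_lt_pow_iff_left₀ (norm_nonneg z) zero_le_one two_ne_zero,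
        ← real_inner_self_eq_norm_sq]
      linarith [le_aForm he hδ hδ1 z]
    have hnear : ∀ z : E, ‖z‖ ≤ d / 8 → ‖gradient u z - e‖ ≤ 2250 * d := fun z hz => by
      rw [← pow_le_pow_iff_left₀ (norm_nonneg _) (by positivity) two_ne_zero, mul_pow]
      refine le_trans (window_est isOpen_ball hu heq he hδ hδ1 hsub hflat hG2 ?_).2 (le_of_eq ?_)
      · refine (aForm_le he hδ hδ1 z).trans ?_
        rw [div_le_iff₀ hδ, real_inner_self_eq_norm_sq]
        linarith [pow_le_pow_left₀ (norm_nonneg z) hz 2]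
      · norm_num
    rw [pow_zero, mul_one] at hy
    rw [pow_zero, mul_one]
    calc ‖gradient u y - gradient u 0‖ ≤ ‖gradient u y - e‖ + ‖gradient u 0 - e‖ := by
          rw [norm_sub_rev (gradient u 0) e]; exact norm_sub_le_norm_sub_add_norm_sub _ _ _
      _ ≤ 2250 * d + 2250 * d :=
          add_le_add (hnear y hy) (hnear 0 (by rw [norm_zero]; positivity))
      _ = 4500 * d := by ring
  | succ n ih =>
    intro u e d hu heq he hd hd2 hflat hG2 y hy
    obtain ⟨ρ, Λ, e', hρlo, hρ1, hΛlo, hΛhi, he', hnew⟩ :=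
      improve hu heq he hd hd2 hflat hG2 rfl rfl hN
    have hρ0 : 0 < ρ := lt_of_lt_of_le (by positivity) hρlo
    have hρq : 2 * q ≤ ρ := by linarith
    have hΛ0 : 0 < Λ := by linarith
    have hball : ball (0 : E) ρ ⊆ ball 0 1 := ball_subset_ball hρ1
    obtain ⟨hw, hweq, hwg⟩ := rescale (k := (ρ * Λ)⁻¹) (a := u 0) hρ0 (hu.mono hball)
      fun z hz => heq z (hball hz)
    have hk : (ρ * Λ)⁻¹ * ρ = Λ⁻¹ := by field_simp
    have hsub' : ∀ z, aForm e' ((d / 2) ^ 2) z z ≤ 1 / 4 → z ∈ ball (0 : E) 1 := fun z hz => by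
      rw [mem_ball_zero_iff, ← pow_lt_pow_iff_left₀ (norm_nonneg z) zero_le_one two_ne_zero,
        ← real_inner_self_eq_norm_sq]
      linarith [le_aForm he' (by positivity : 0 < (d / 2) ^ 2) (by linarith) z]
    have hnew' : ∀ z, aForm e' ((d / 2) ^ 2) z z ≤ 1 / 4 → ‖gradient u (ρ • z)‖ ≤ Λ ∧
        |u (ρ • z) - u 0 - Λ * ⟪e', ρ • z⟫| ≤ ρ * Λ * (d ^ 2 / 4) := fun z hz => by
      refine hnew (ρ • z) ?_
      rw [aForm_smul, show d ^ 2 / 4 = (d / 2) ^ 2 by ring]
      linarith [mul_le_mul_of_nonneg_left hz (sq_nonneg ρ)]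
    have h := ih _ e' (d / 2) hw hweq he' (by positivity) (by linarith)
      (fun z hz => by
        have h1 := (hnew' z hz).2
        rw [real_inner_smul_right] at h1
        have e1 : (ρ * Λ)⁻¹ * (u (0 + ρ • z) - u 0) - ⟪e', z⟫ =
            (ρ * Λ)⁻¹ * (u (ρ • z) - u 0 - Λ * (ρ * ⟪e', z⟫)) := by
          rw [zero_add]; field_simp
        rw [e1, abs_mul, abs_of_pos (by positivity), inv_mul_le_iff₀ (by positivity)]
        exact h1.trans (le_of_eq (by ring)))
      (fun z hz => by
        rw [hwg z (hsub' z hz), hk, zero_add, norm_smul, norm_inv, Real.norm_eq_abs,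
          abs_of_pos hΛ0, inv_mul_le_iff₀ hΛ0]
        linarith [(hnew' z hz).1]) (ρ⁻¹ • y) (by
        rw [norm_smul, norm_inv, Real.norm_eq_abs, abs_of_pos hρ0, inv_mul_le_iff₀ hρ0]
        refine hy.trans ?_
        have := mul_le_mul_of_nonneg_left hρq (by positivity : 0 ≤ d / 16 * q ^ n)
        rw [pow_succ]
        linarith)
    have hy1 : ρ⁻¹ • y ∈ ball (0 : E) 1 := by
      rw [mem_ball_zero_iff, norm_smul, norm_inv, Real.norm_eq_abs, abs_of_pos hρ0,
        inv_mul_lt_iff₀ hρ0]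
      have h1 : d / 8 * q ^ (n + 1) ≤ d / 8 * q :=
        mul_le_mul_of_nonneg_left (pow_le_of_le_one hq0.le hq1 (by omega)) (by positivity)
      have hd8 : d < 8 := by
        by_contra hc
        push Not at hc
        linarith [pow_le_pow_left₀ (by norm_num) hc 2]
      have := mul_lt_mul_of_pos_right hd8 hq0
      linarith
    rw [hwg _ hy1, hwg 0 (mem_ball_self one_pos), hk, zero_add, zero_add, smul_zero,
      smul_inv_smul₀ hρ0.ne', ← smul_sub, norm_smul, norm_inv, Real.norm_eq_abs, abs_of_pos hΛ0,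
      inv_mul_le_iff₀ hΛ0] at h
    refine h.trans ?_
    have := mul_le_mul_of_nonneg_right hΛhi (by positivity : 0 ≤ 2250 * d * (2 / 3 : ℝ) ^ n)
    have h0 : 0 ≤ d * (2 / 3 : ℝ) ^ n := by positivity
    rw [pow_succ]
    linarith

/-- The gradient at a point is bounded by the oscillation over a ball around it. -/
theorem grad_le_osc {x : E} {R M : ℝ} (hR : 0 < R) (hu : ContDiffOn ℝ 3 u (ball x R))
    (heq : ∀ z ∈ ball x R, fderiv ℝ (fderiv ℝ u) z (gradient u z) (gradient u z) = 0)
    (hM : 0 ≤ M) (h : ∀ y ∈ ball x R, u y - u x ≤ M * R) : ‖gradient u x‖ ≤ 2 * M := by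
  refine grad_le_slope isOpen_ball hu heq (r := R / 2) (by positivity)
    (closedBall_subset_ball (by linarith)) (by positivity) fun w hw => ?_
  have := h w (mem_ball.2 (by rw [mem_sphere.1 hw]; linarith))
  linarith

end General

/-- A small scale where either the gradient has halved or the function is flat, iterated. -/
theorem decay_unit : ∃ c q : ℝ, 0 < c ∧ c ≤ 1 ∧ 0 < q ∧ q < 1 ∧ ∀ (n d : ℕ)
    (x : EuclideanSpace ℝ (Fin d)) (R M : ℝ) (u : EuclideanSpace ℝ (Fin d) → ℝ), 0 < R →
    ContDiffOn ℝ 3 u (ball x R) →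
    (∀ z ∈ ball x R, fderiv ℝ (fderiv ℝ u) z (gradient u z) (gradient u z) = 0) →
    (∀ y ∈ ball x R, |u y - u x| ≤ M * R) →
    ∀ y, dist y x ≤ c * q ^ n * R → ‖gradient u y - gradient u x‖ ≤ M * (2 / 3) ^ n := by
  obtain ⟨N, hN⟩ := exists_nat_gt ((76800 : ℝ) * 10000)
  set d₀ : ℝ := 1 / 40000 with hd₀
  set ε : ℝ := d₀ ^ 2 / 8 with hε
  obtain ⟨r₁, hr₁, hmod⟩ := modulus_ball (ε := ε) (by positivity)
  set r := min r₁ (1 / 4) with hr
  have hr0 : 0 < r := lt_min hr₁ (by norm_num)
  have hr4 : r ≤ 1 / 4 := min_le_right _ _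
  set q₀ : ℝ := (1 / 10 ^ 9) ^ N / 320000 with hq₀
  have hq₀0 : 0 < q₀ := by positivity
  have hq₀1 : q₀ ≤ 1 := by
    have : ((1 : ℝ) / 10 ^ 9) ^ N ≤ 1 := pow_le_one₀ (by positivity) (by norm_num)
    linarith
  have hN' : 76800 < (N : ℝ) * (1 / 10000) := by linarith
  set q := min q₀ r with hqdef
  have hq0 : 0 < q := lt_min hq₀0 hr0
  have hqr : q ≤ r := min_le_right _ _
  set c := r * (d₀ / 8) with hc
  have hc0 : 0 < c := by positivity
  have hd1 : d₀ / 8 ≤ 1 := by rw [hd₀]; norm_num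
  have hcr : c ≤ r := mul_le_of_le_one_right hr0.le hd1
  refine ⟨c, q, hc0, by linarith, hq0, by linarith, fun n => ?_⟩
  have near : ∀ (d : ℕ) (x : EuclideanSpace ℝ (Fin d)) (R M : ℝ)
      (u : EuclideanSpace ℝ (Fin d) → ℝ), 0 < R → ContDiffOn ℝ 3 u (ball x R) →
      (∀ z ∈ ball x R, fderiv ℝ (fderiv ℝ u) z (gradient u z) (gradient u z) = 0) →
      (∀ y ∈ ball x R, |u y - u x| ≤ M * R) →
      ∀ y, dist y x ≤ r * R → ‖gradient u y - gradient u x‖ ≤ 2 * ε * M := by
    intro d x R M u hR hu heq hb y hy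
    refine (hmod d x R (2 * (M * R)) u hR hu heq (fun z hz w hw => ?_) x y (by rw [dist_self]; positivity)
      (hy.trans (mul_le_mul_of_nonneg_right (min_le_left _ _) hR.le))).trans (le_of_eq ?_)
    · linarith [abs_le.1 (hb z hz), abs_le.1 (hb w hw)]
    · field_simp
  induction n with
  | zero =>
    intro d x R M u hR hu heq hb y hy
    rw [pow_zero, mul_one] at hy
    rw [pow_zero, mul_one]
    refine (near d x R M u hR hu heq hb y (hy.trans (mul_le_mul_of_nonneg_right hcr hR.le))).trans ?_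
    have hM : 0 ≤ M := nonneg_of_mul_nonneg_left
      ((abs_nonneg _).trans (hb x (mem_ball_self hR))) hR
    refine mul_le_of_le_one_left hM ?_
    rw [hε, hd₀]; norm_num
  | succ n ih =>
    intro d x R M u hR hu heq hb y hy
    have hM : 0 ≤ M := nonneg_of_mul_nonneg_left
      ((abs_nonneg _).trans (hb x (mem_ball_self hR))) hR
    set σ := r * R with hσ
    have hσ0 : 0 < σ := mul_pos hr0 hR
    have hsub : ball x σ ⊆ ball x R := ball_subset_ball (mul_le_of_le_one_left hR.le (by linarith))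
    have hnear := near d x R M u hR hu heq hb
    set p := gradient u x with hp
    rcases le_or_gt ‖p‖ (M / 4) with hsmall | hbig
    · have hgrad : ∀ z ∈ ball x σ, ‖gradient u z‖ ≤ M / 2 := fun z hz => by
        have h1 := hnear z (mem_ball.1 hz).le
        have h2 := norm_le_insert' (gradient u z) p
        have h3 : 2 * ε * M ≤ M / 4 := by
          have : 2 * ε ≤ 1 / 4 := by rw [hε, hd₀]; norm_num
          linarith [mul_le_mul_of_nonneg_right this hM]
        refine h2.trans ?_
        exact (add_le_add hsmall (h1.trans h3)).trans (by linarith only [hM])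
      have hosc : ∀ z ∈ ball x σ, |u z - u x| ≤ M / 2 * σ := fun z hz => by
        have hd : ‖z - x‖ ≤ σ := by rw [← dist_eq_norm]; exact (mem_ball.1 hz).le
        have h1 := lip_of_grad isOpen_ball hu (convex_ball x σ) hsub hgrad hz (mem_ball_self hσ0)
        have h2 := lip_of_grad isOpen_ball hu (convex_ball x σ) hsub hgrad (mem_ball_self hσ0) hz
        rw [norm_sub_rev x z] at h2
        have := mul_le_mul_of_nonneg_left hd (by positivity : 0 ≤ M / 2)
        rw [abs_le]; constructor <;> linarith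
      refine (ih d x σ (M / 2) u hσ0 (hu.mono hsub) (fun z hz => heq z (hsub hz)) hosc y ?_).trans ?_
      · refine hy.trans ?_
        have := mul_le_mul_of_nonneg_left hqr (by positivity : 0 ≤ c * q ^ n * R)
        rw [pow_succ, hσ]; linarith
      · rw [pow_succ]
        have : 0 ≤ M * (2 / 3 : ℝ) ^ n := by positivity
        linarith
    · have hp0 : 0 < ‖p‖ := lt_of_le_of_lt (by positivity) hbig
      have hp2 : ‖p‖ ≤ 2 * M :=
        grad_le_osc hR hu heq hM fun z hz => (abs_le.1 (hb z hz)).2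
      have hdiff : ∀ z ∈ ball x σ, ‖gradient u z - p‖ ≤ d₀ ^ 2 * ‖p‖ := fun z hz => by
        refine (hnear z (mem_ball.1 hz).le).trans ?_
        rw [hε]; linarith [mul_le_mul_of_nonneg_left hbig.le (sq_nonneg d₀)]
      have hflat : ∀ z ∈ ball x σ, |u z - u x - ⟪p, z - x⟫| ≤ d₀ ^ 2 * ‖p‖ * σ := fun z hz => by
        have h := (convex_ball x σ).norm_image_sub_le_of_norm_hasFDerivWithin_le
          (f := fun w => u w - fderiv ℝ u x w) (f' := fun w => fderiv ℝ u w - fderiv ℝ u x)
          (fun w hw => (((hu.contDiffAt (isOpen_ball.mem_nhds (hsub hw))).differentiableAt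
            (by norm_num)).hasFDerivAt.sub (fderiv ℝ u x).hasFDerivAt).hasFDerivWithinAt)
          (C := d₀ ^ 2 * ‖p‖) (fun w hw => by
            rw [← toDual_gradient, ← toDual_gradient, ← map_sub, LinearIsometryEquiv.norm_map]
            exact hdiff w hw)
          (mem_ball_self hσ0) hz
        rw [Real.norm_eq_abs] at h
        have e1 : u z - fderiv ℝ u x z - (u x - fderiv ℝ u x x) = u z - u x - ⟪p, z - x⟫ := by
          rw [hp, inner_gradient_eq, map_sub]; ring
        rw [e1] at h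
        refine h.trans (mul_le_mul_of_nonneg_left ?_ (by positivity))
        rw [← dist_eq_norm]; exact (mem_ball.1 hz).le
      set k := (σ * ‖p‖)⁻¹ with hk
      have hkσ : k * σ = ‖p‖⁻¹ := by rw [hk]; field_simp
      obtain ⟨hw, hweq, hwg⟩ := rescale (k := k) (a := u x) hσ0 (hu.mono hsub)
        fun z hz => heq z (hsub hz)
      set e := ‖p‖⁻¹ • p with he
      have he1 : ‖e‖ = 1 := by
        rw [he, norm_smul, norm_inv, norm_norm, inv_mul_cancel₀ hp0.ne']
      have hd0 : 0 < d₀ := by rw [hd₀]; norm_num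
      have hd02 : d₀ ^ 2 ≤ 1 / 10 ^ 9 := by rw [hd₀]; norm_num
      have hin : ∀ z : EuclideanSpace ℝ (Fin d), aForm e (d₀ ^ 2) z z ≤ 1 / 4 →
          z ∈ ball (0 : EuclideanSpace ℝ (Fin d)) 1 ∧ x + σ • z ∈ ball x σ := fun z hz => by
        have hz1 : ‖z‖ < 1 := by
          rw [← pow_lt_pow_iff_left₀ (norm_nonneg z) zero_le_one two_ne_zero,
            ← real_inner_self_eq_norm_sq]
          exact ((le_aForm he1 (by positivity : 0 < d₀ ^ 2) (hd02.trans (by norm_num)) z).trans hz).trans_lt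
            (by norm_num)
        refine ⟨mem_ball_zero_iff.2 hz1, ?_⟩
        rw [mem_ball, dist_eq_norm, add_sub_cancel_left, norm_smul, Real.norm_eq_abs,
          abs_of_pos hσ0]
        exact mul_lt_of_lt_one_right hσ0 hz1
      have hzeq : x + σ • σ⁻¹ • (y - x) = y := by rw [smul_inv_smul₀ hσ0.ne']; abel
      have hz8 : ‖σ⁻¹ • (y - x)‖ ≤ d₀ / 8 * q₀ ^ (n + 1) := by
        rw [norm_smul, norm_inv, Real.norm_eq_abs, abs_of_pos hσ0, inv_mul_le_iff₀ hσ0,
          ← dist_eq_norm]
        refine hy.trans ?_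
        have := mul_le_mul_of_nonneg_left (pow_le_pow_left₀ hq0.le (min_le_left q₀ r) (n + 1))
          (by positivity : 0 ≤ c * R)
        rw [hc] at this
        rw [hc, hσ]
        linarith
      have h := decay hN' hq₀0 hq₀1 le_rfl (n + 1) _ e d₀ hw hweq he1 hd0 hd02
        (fun z hz => by
          have h1 := hflat _ (hin z hz).2
          rw [add_sub_cancel_left, real_inner_smul_right] at h1
          have e1 : k * (u (x + σ • z) - u x) - ⟪e, z⟫ =
              k * (u (x + σ • z) - u x - σ * ⟪p, z⟫) := by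
            rw [he, real_inner_smul_left, hk]; field_simp
          rw [e1, abs_mul, abs_of_pos (by positivity), hk, inv_mul_le_iff₀ (by positivity)]
          exact h1.trans (le_of_eq (by ring)))
        (fun z hz => by
          rw [hwg z (hin z hz).1, hkσ, norm_smul, norm_inv, norm_norm, inv_mul_le_iff₀ hp0]
          have h1 := hdiff _ (hin z hz).2
          have h2 := norm_le_insert' (gradient u (x + σ • z)) p
          linarith [mul_le_mul_of_nonneg_right (hd02.trans (by norm_num : (1 / 10 ^ 9 : ℝ) ≤ 1)) hp0.le]) (σ⁻¹ • (y - x)) hz8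
      have hy1 : σ⁻¹ • (y - x) ∈ ball (0 : EuclideanSpace ℝ (Fin d)) 1 :=
        mem_ball_zero_iff.2 (hz8.trans_lt (by
          have : q₀ ^ (n + 1) ≤ 1 := pow_le_one₀ hq₀0.le hq₀1
          rw [hd₀]; linarith))
      rw [hwg _ hy1, hwg 0 (mem_ball_self one_pos), hkσ, hzeq, smul_zero, add_zero, ← hp,
        ← smul_sub, norm_smul, norm_inv, norm_norm, inv_mul_le_iff₀ hp0] at h
      refine h.trans ?_
      have h1 := mul_le_mul_of_nonneg_right hp2
        (by positivity : 0 ≤ 4500 * d₀ * (2 / 3 : ℝ) ^ (n + 1))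
      have h2 : 0 ≤ M * (2 / 3 : ℝ) ^ (n + 1) := by positivity
      rw [hd₀] at h1 ⊢
      linarith

/-- The interior `C^{1,α}` estimate. -/
theorem holder_ball : ∃ α C : ℝ, 0 < α ∧ 0 < C ∧ ∀ (d : ℕ) (x₀ : EuclideanSpace ℝ (Fin d))
    (R K : ℝ) (u : EuclideanSpace ℝ (Fin d) → ℝ), 0 < R → ContDiffOn ℝ 3 u (ball x₀ R) →
    (∀ z ∈ ball x₀ R, fderiv ℝ (fderiv ℝ u) z (gradient u z) (gradient u z) = 0) →
    (∀ z ∈ ball x₀ R, ∀ w ∈ ball x₀ R, u z - u w ≤ K) →
    ∀ x ∈ closedBall x₀ (R / 2), ∀ y ∈ closedBall x₀ (R / 2),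
      ‖gradient u y - gradient u x‖ ≤ C * K / R * (dist y x / R) ^ α := by
  obtain ⟨c, q, hc, hc1, hq, hq1, hdec⟩ := decay_unit
  set α := Real.log (2 / 3) / Real.log q with hα
  have hlq : Real.log q < 0 := Real.log_neg hq hq1
  have hα0 : 0 < α := div_pos_of_neg_of_neg (Real.log_neg (by norm_num) (by norm_num)) hlq
  have hqα : q ^ α = 2 / 3 := by
    rw [Real.rpow_def_of_pos hq, hα, mul_div_cancel₀ _ hlq.ne, Real.exp_log (by norm_num)]
  set C := 8 * (2 / c) ^ α with hC
  refine ⟨α, C, hα0, by positivity, fun d x₀ R K u hR hu heq hosc x hx y hy => ?_⟩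
  have hK : 0 ≤ K := by simpa using hosc x₀ (mem_ball_self hR) x₀ (mem_ball_self hR)
  rcases eq_or_ne y x with rfl | hne
  · rw [sub_self, norm_zero, dist_self, zero_div, Real.zero_rpow hα0.ne', mul_zero]
  set t := dist y x / R with ht
  have ht0 : 0 < t := div_pos (dist_pos.2 hne) hR
  have hsplit : (2 / c * t) ^ α = (2 / c) ^ α * t ^ α :=
    Real.mul_rpow (by positivity) ht0.le
  have hCt : C * K / R * t ^ α = 8 * (K / R) * (2 / c * t) ^ α := by rw [hsplit, hC]; ring
  rw [hCt]
  have hKR : 0 ≤ K / R := div_nonneg hK hR.le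
  rcases le_or_gt (2 / c * t) 1 with hle | hgt
  · obtain ⟨n, hn1, hn2⟩ := exists_nat_pow_near_of_lt_one (by positivity) hle hq hq1
    have hsub : ball x (R / 2) ⊆ ball x₀ R :=
      ball_subset_ball' (by linarith [mem_closedBall.1 hx])
    have h := hdec n d x (R / 2) (2 * (K / R)) u (by positivity) (hu.mono hsub)
      (fun z hz => heq z (hsub hz)) (fun z hz => by
        have hx' : x ∈ ball x₀ R := hsub (mem_ball_self (by positivity))
        have e1 : 2 * (K / R) * (R / 2) = K := by field_simp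
        rw [e1, abs_le]
        constructor <;> linarith [hosc z (hsub hz) x hx', hosc x hx' z (hsub hz)])
      y (by
        have e1 : dist y x = c * (R / 2) * (2 / c * t) := by rw [ht]; field_simp
        rw [e1]
        have := mul_le_mul_of_nonneg_left hn2 (by positivity : 0 ≤ c * (R / 2))
        linarith)
    refine h.trans ?_
    have h1 : (2 / 3 : ℝ) ^ (n + 1) ≤ (2 / c * t) ^ α := by
      rw [← hqα, ← Real.rpow_natCast (q ^ α), ← Real.rpow_mul hq.le, mul_comm α,
        Real.rpow_mul hq.le, Real.rpow_natCast]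
      exact Real.rpow_le_rpow (by positivity) hn1.le hα0.le
    have h2 := mul_le_mul_of_nonneg_left h1 hKR
    have h3 : 0 ≤ K / R * (2 / c * t) ^ α := by positivity
    rw [pow_succ] at h2
    linarith
  · have hg : ∀ z ∈ closedBall x₀ (R / 2), ‖gradient u z‖ ≤ 4 * (K / R) := fun z hz => by
      have hz' : z ∈ ball x₀ R := mem_ball.2 (by linarith [mem_closedBall.1 hz])
      have hsub : closedBall z (R / 4) ⊆ ball x₀ R :=
        closedBall_subset_ball' (by linarith [mem_closedBall.1 hz])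
      refine grad_le_slope isOpen_ball hu heq (r := R / 4) (by positivity) hsub (by positivity)
        fun w hw => ?_
      have e1 : 4 * (K / R) * (R / 4) = K := by field_simp
      linarith [hosc w (hsub (sphere_subset_closedBall hw)) z hz']
    have h1 := (norm_sub_le (gradient u y) (gradient u x)).trans (add_le_add (hg y hy) (hg x hx))
    have h2 : 1 ≤ (2 / c * t) ^ α := Real.one_le_rpow hgt.le hα0.le
    linarith [mul_le_mul_of_nonneg_left h2 hKR]

/-- The estimate passes to locally uniform limits. -/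
theorem holder_limit {α C : ℝ} (hC : 0 ≤ C) (hα : 0 ≤ α)
    (hest : ∀ (d : ℕ) (x₀ : EuclideanSpace ℝ (Fin d))
      (R K : ℝ) (u : EuclideanSpace ℝ (Fin d) → ℝ), 0 < R → ContDiffOn ℝ 3 u (ball x₀ R) →
      (∀ z ∈ ball x₀ R, fderiv ℝ (fderiv ℝ u) z (gradient u z) (gradient u z) = 0) →
      (∀ z ∈ ball x₀ R, ∀ w ∈ ball x₀ R, u z - u w ≤ K) →
      ∀ x ∈ closedBall x₀ (R / 2), ∀ y ∈ closedBall x₀ (R / 2),
        ‖gradient u y - gradient u x‖ ≤ C * K / R * (dist y x / R) ^ α)
    {d : ℕ} {Ω : Set (EuclideanSpace ℝ (Fin d))} {U : ℕ → EuclideanSpace ℝ (Fin d) → ℝ}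
    {u : EuclideanSpace ℝ (Fin d) → ℝ} (hΩ : IsOpen Ω) (hU : ∀ n, ContDiffOn ℝ 3 (U n) Ω)
    (heq : ∀ n, ∀ z ∈ Ω, fderiv ℝ (fderiv ℝ (U n)) z (gradient (U n) z) (gradient (U n) z) = 0)
    (hlim : TendstoLocallyUniformlyOn U u atTop Ω)
    {x₀ : EuclideanSpace ℝ (Fin d)} {R K : ℝ} (hR : 0 < R) (hball : ball x₀ R ⊆ Ω)
    (hosc : ∀ z ∈ ball x₀ R, ∀ w ∈ ball x₀ R, u z - u w ≤ K)
    {x y : EuclideanSpace ℝ (Fin d)} (hx : x ∈ ball x₀ (R / 2)) (hy : y ∈ ball x₀ (R / 2)) :
    ‖gradient u y - gradient u x‖ ≤ C * K / R * (dist y x / R) ^ α := by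
  have hu : ContDiffOn ℝ 1 u Ω := limit_contDiffOn hΩ hU heq hlim
  have hxΩ : x ∈ Ω := hball (ball_subset_ball (by linarith) hx)
  have hyΩ : y ∈ Ω := hball (ball_subset_ball (by linarith) hy)
  set L : ℝ → ℝ := fun t => C * (K + t) / (R - t) * (dist y x / (R - t)) ^ α with hL
  have hcont : ContinuousAt L 0 := by
    simp only [hL]
    have h1 : ContinuousAt (fun t : ℝ => R - t) 0 := by fun_prop
    exact ((continuousAt_const.mul (continuousAt_const.add continuousAt_id)).div h1
      (by simpa using hR.ne')).mul ((continuousAt_const.div h1 (by simpa using hR.ne')).rpow_const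
        (Or.inr hα))
  have hL0 : L 0 = C * K / R * (dist y x / R) ^ α := by simp [hL]
  rw [← hL0]
  refine ge_of_tendsto (hcont.tendsto.mono_left (nhdsWithin_le_nhds (s := Ioi 0))) ?_
  have hδ : 0 < min (R - 2 * dist x x₀) (R - 2 * dist y x₀) := by
    rw [mem_ball] at hx hy
    exact lt_min (by linarith) (by linarith)
  filter_upwards [Ioo_mem_nhdsGT hδ] with t ⟨ht, htm⟩
  have hx' : 2 * dist x x₀ < R - t := by linarith [min_le_left (R - 2 * dist x x₀) (R - 2 * dist y x₀)]
  have hy' : 2 * dist y x₀ < R - t := by linarith [min_le_right (R - 2 * dist x x₀) (R - 2 * dist y x₀)]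
  have hR' : 0 < R - t := by linarith [dist_nonneg (x := x) (y := x₀)]
  have hsub : closedBall x₀ (R - t) ⊆ ball x₀ R := closedBall_subset_ball (by linarith)
  have hev : ∀ᶠ n in atTop, ∀ z ∈ closedBall x₀ (R - t), |u z - U n z| < t / 2 := by
    have h := (tendstoLocallyUniformlyOn_iff_tendstoUniformlyOn_of_compact
      (isCompact_closedBall x₀ (R - t))).1 (hlim.mono (hsub.trans hball))
    simpa [Real.dist_eq] using Metric.tendstoUniformlyOn_iff.1 h (t / 2) (by positivity)
  -- the increments of `u` near `y` and near `x` differ by little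
  have hd1 : HasFDerivAt (fun z => u (z + (y - x)) - u z) (fderiv ℝ u y - fderiv ℝ u x) x := by
    refine HasFDerivAt.sub ?_
      ((hu.contDiffAt (hΩ.mem_nhds hxΩ)).differentiableAt (by norm_num)).hasFDerivAt
    have h2 := ((hu.contDiffAt (hΩ.mem_nhds hyΩ)).differentiableAt (by norm_num)).hasFDerivAt
    have h3 : HasFDerivAt (fun z => z + (y - x)) (ContinuousLinearMap.id ℝ _) x :=
      (hasFDerivAt_id x).add_const (y - x)
    exact (show HasFDerivAt u (fderiv ℝ u y) (x + (y - x)) by rwa [add_sub_cancel]).comp x h3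
  have hlt : ‖fderiv ℝ u y - fderiv ℝ u x‖ ≤ L t := by
    have hLt0 : 0 ≤ L t := by
      have hK : 0 ≤ K := by simpa using hosc x₀ (mem_ball_self hR) x₀ (mem_ball_self hR)
      simp only [hL]; positivity
    refine hd1.le_of_lip' hLt0 ?_
    set ρ := min ((R - t) / 2 - dist x x₀) ((R - t) / 2 - dist y x₀) with hρ
    have hρ0 : 0 < ρ := lt_min (by linarith) (by linarith)
    filter_upwards [ball_mem_nhds x hρ0] with z hz
    have hseg : ∀ v ∈ ball x ρ, v ∈ closedBall x₀ ((R - t) / 2) ∧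
        v + (y - x) ∈ closedBall x₀ ((R - t) / 2) := fun v hv => by
      have h1 := dist_triangle v x x₀
      have h2 := dist_triangle (v + (y - x)) y x₀
      have h3 : dist (v + (y - x)) y = dist v x := by
        rw [dist_eq_norm, dist_eq_norm]; congr 1; abel
      rw [mem_ball] at hv
      exact ⟨mem_closedBall.2 (by linarith [min_le_left ((R - t) / 2 - dist x x₀) ((R - t) / 2 - dist y x₀)]),
        mem_closedBall.2 (by linarith [min_le_right ((R - t) / 2 - dist x x₀) ((R - t) / 2 - dist y x₀)])⟩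
    have hbn : ∀ᶠ n in atTop,
        ‖(U n (z + (y - x)) - U n z) - (U n (x + (y - x)) - U n x)‖ ≤ L t * ‖z - x‖ := by
      filter_upwards [hev] with n hn
      have hbig : ∀ v ∈ closedBall x₀ ((R - t) / 2), v ∈ Ω := fun v hv =>
        hball (hsub (closedBall_subset_closedBall (by linarith) hv))
      refine (convex_ball x ρ).norm_image_sub_le_of_norm_hasFDerivWithin_le
        (f := fun v => U n (v + (y - x)) - U n v) (C := L t)
        (f' := fun v => fderiv ℝ (U n) (v + (y - x)) - fderiv ℝ (U n) v) (fun v hv => ?_)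
        (fun v hv => ?_) (mem_ball_self hρ0) hz
      · refine (HasFDerivAt.sub ?_ (((hU n).contDiffAt (hΩ.mem_nhds (hbig _ (hseg v hv).1))
          ).differentiableAt (by norm_num)).hasFDerivAt).hasFDerivWithinAt
        have h3 : HasFDerivAt (fun z => z + (y - x)) (ContinuousLinearMap.id ℝ _) v :=
          (hasFDerivAt_id v).add_const (y - x)
        exact (((hU n).contDiffAt (hΩ.mem_nhds (hbig _ (hseg v hv).2))).differentiableAt
          (by norm_num)).hasFDerivAt.comp v h3
      · rw [← toDual_gradient, ← toDual_gradient, ← map_sub, LinearIsometryEquiv.norm_map]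
        have := hest d x₀ (R - t) (K + t) (U n) hR'
          ((hU n).mono ((ball_subset_closedBall.trans hsub).trans hball))
          (fun w hw => heq n w (hball (hsub (ball_subset_closedBall hw))))
          (fun a ha b hb => by
            have h1 := abs_lt.1 (hn a (ball_subset_closedBall ha))
            have h2 := abs_lt.1 (hn b (ball_subset_closedBall hb))
            linarith [hosc a (hsub (ball_subset_closedBall ha)) b (hsub (ball_subset_closedBall hb))])
          v (hseg v hv).1 (v + (y - x)) (hseg v hv).2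
        rwa [dist_eq_norm, add_sub_cancel_left, ← dist_eq_norm] at this
    have hpt : ∀ v ∈ closedBall x₀ ((R - t) / 2), Tendsto (fun n => U n v) atTop (𝓝 (u v)) :=
      fun v hv => hlim.tendsto_at (hball (hsub (closedBall_subset_closedBall (by linarith) hv)))
    exact le_of_tendsto ((((hpt _ (hseg z hz).2).sub (hpt _ (hseg z hz).1)).sub
      ((hpt _ (hseg x (mem_ball_self hρ0)).2).sub (hpt _ (hseg x (mem_ball_self hρ0)).1))).norm) hbn
  rwa [← toDual_gradient, ← toDual_gradient, ← map_sub, LinearIsometryEquiv.norm_map] at hlt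

end Vale.Agent.P080
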