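import Vale.Agent.P080.Flatness

/-!
Universal modulus of continuity of the gradient of a bounded classical infinity-harmonic
function (P080): pigeonhole on the slopes over scales gives a flat scale, flatness pins the
gradient.
-/

namespace Vale.Agent.P080

open Metric Set Filter Topology
open scoped RealInnerProductSpace

variable {E : Type*} [NormedAddCommGroup E] [InnerProductSpace ℝ E] [FiniteDimensional ℝ E]
variable {u : E → ℝ} {s : Set E}

theorem norm_fderiv_eq_gradient (u : E → ℝ) (x : E) : ‖fderiv ℝ u x‖ = ‖gradient u x‖ := by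
  rw [← toDual_gradient, LinearIsometryEquiv.norm_map]

/-- A gradient bound on a convex set is a Lipschitz bound. -/
theorem lip_of_grad (hs : IsOpen s) (hu : ContDiffOn ℝ 3 u s) {S : Set E} (hS : Convex ℝ S)
    (hSs : S ⊆ s) {a : ℝ} (h : ∀ y ∈ S, ‖gradient u y‖ ≤ a) {v w : E} (hv : v ∈ S) (hw : w ∈ S) :
    u v - u w ≤ a * ‖v - w‖ :=
  (le_abs_self _).trans (hS.norm_image_sub_le_of_norm_fderiv_le
    (fun y hy => (hu.contDiffAt (hs.mem_nhds (hSs hy))).differentiableAt (by norm_num))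
    (fun y hy => (norm_fderiv_eq_gradient u y).le.trans (h y hy)) hw hv)

/-- The maximal slope over the closed ball of radius `r`. -/
noncomputable def slopeUp (u : E → ℝ) (x : E) (r : ℝ) : ℝ :=
  (sSup (u '' closedBall x r) - u x) / r

theorem slopeUp_spec {x : E} {r : ℝ} (hr : 0 < r) (hc : ContinuousOn u (closedBall x r)) :
    (∀ w ∈ closedBall x r, u w ≤ u x + slopeUp u x r * r) ∧
      ∃ P ∈ closedBall x r, u P = u x + slopeUp u x r * r := by
  have hcpt := (isCompact_closedBall x r).image_of_continuousOn hc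
  have e : u x + slopeUp u x r * r = sSup (u '' closedBall x r) := by
    rw [slopeUp, div_mul_cancel₀ _ hr.ne']; ring
  rw [e]
  refine ⟨fun w hw => le_csSup hcpt.bddAbove ⟨w, hw, rfl⟩, ?_⟩
  obtain ⟨P, hP, hPe⟩ := hcpt.sSup_mem ⟨u x, x, mem_closedBall_self hr.le, rfl⟩
  exact ⟨P, hP, hPe⟩

theorem slopeUp_nonneg {x : E} {r : ℝ} (hr : 0 < r) (hc : ContinuousOn u (closedBall x r)) :
    0 ≤ slopeUp u x r := by
  have := (slopeUp_spec hr hc).1 x (mem_closedBall_self hr.le)
  exact nonneg_of_mul_nonneg_left (by linarith) hr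

theorem slopeUp_mono (hs : IsOpen s) (hu : ContDiffOn ℝ 3 u s)
    (heq : ∀ z ∈ s, fderiv ℝ (fderiv ℝ u) z (gradient u z) (gradient u z) = 0)
    {x : E} {r r' : ℝ} (hr : 0 < r) (hrr : r ≤ r') (hball : closedBall x r' ⊆ s) :
    slopeUp u x r ≤ slopeUp u x r' := by
  have hr' : 0 < r' := hr.trans_le hrr
  have hc' : ContinuousOn u (closedBall x r') := hu.continuousOn.mono hball
  obtain ⟨P, hP, hPe⟩ := (slopeUp_spec hr (hc'.mono (closedBall_subset_closedBall hrr))).2
  have h := cone_le hu.continuousOn (classical_sub hs hu heq) hball (slopeUp_nonneg hr' hc') le_rfl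
    (fun w hw => by linarith [(slopeUp_spec hr' hc').1 w (sphere_subset_closedBall hw)])
    (x := P) ((mem_closedBall.1 hP).trans hrr)
  have := mul_le_mul_of_nonneg_left (mem_closedBall.1 hP) (slopeUp_nonneg hr' hc')
  exact le_of_mul_le_mul_right (by linarith) hr

/-- At nearby scales the downward slope is at most the upward one. -/
theorem slope_down_le (hs : IsOpen s) (hu : ContDiffOn ℝ 3 u s)
    (heq : ∀ z ∈ s, fderiv ℝ (fderiv ℝ u) z (gradient u z) (gradient u z) = 0)
    {x : E} {R R' : ℝ} (hR : 0 < R) (hRR : 4 * R ≤ R') (hball : closedBall x R' ⊆ s) :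
    slopeUp (fun y => -u y) x R * (R' - 2 * R) ≤ R' * slopeUp u x R' := by
  have hR' : 0 < R' := by linarith
  have hc : ContinuousOn u (closedBall x R') := hu.continuousOn.mono hball
  have hsub : closedBall x R ⊆ closedBall x R' := closedBall_subset_closedBall (by linarith)
  obtain ⟨N, hN, hNe⟩ := (slopeUp_spec (u := fun y => -u y) hR (hc.mono hsub).neg).2
  set gm := slopeUp (fun y => -u y) x R with hgm
  set gp := slopeUp u x R' with hgp
  have hN' : u N = u x - gm * R := by linarith [hNe]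
  have hgm0 : 0 ≤ gm := slopeUp_nonneg hR (hc.mono hsub).neg
  have hgp0 : 0 ≤ gp := slopeUp_nonneg hR' hc
  have hρ : 0 < R' - R := by linarith
  have hNball : closedBall N (R' - R) ⊆ closedBall x R' :=
    closedBall_subset_closedBall' (by linarith [mem_closedBall.1 hN])
  have h := cone_le hu.continuousOn (classical_sub hs hu heq) (hNball.trans hball)
    (a := (gp * R' + gm * R) / (R' - R)) (by positivity) (b := u N) le_rfl
    (fun w hw => by
      rw [div_mul_cancel₀ _ hρ.ne']
      linarith [(slopeUp_spec hR' hc).1 w (hNball (sphere_subset_closedBall hw))])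
    (x := x) (by rw [dist_comm]; linarith [mem_closedBall.1 hN])
  have h2 : u x ≤ (gp * R' + gm * R) / (R' - R) * R + u N := by
    refine h.trans (add_le_add_left (mul_le_mul_of_nonneg_left ?_ (by positivity)) _)
    rw [dist_comm]; exact mem_closedBall.1 hN
  rw [hN'] at h2
  have h3 : gm * R * (R' - R) ≤ (gp * R' + gm * R) * R := by
    rw [← le_div_iff₀ hρ, ← div_mul_eq_mul_div]
    linarith
  refine le_of_mul_le_mul_right ?_ hR
  linarith

omit [FiniteDimensional ℝ E] in
theorem norm_add_le_expansion {R : ℝ} (hR : 0 < R) {n y : E} (hn : ‖n‖ ≤ R) (hy : ‖y‖ ≤ R) :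
    ‖n + y‖ ≤ R + ⟪n, y⟫ / R + ‖y‖ ^ 2 / (2 * R) := by
  set K := ⟪n, y⟫ / R + ‖y‖ ^ 2 / (2 * R) with hK
  have hnn : 0 ≤ R + K := by
    have h1 : |⟪n, y⟫| ≤ R * R :=
      (abs_real_inner_le_norm n y).trans (mul_le_mul hn hy (norm_nonneg _) hR.le)
    have h2 : -R ≤ ⟪n, y⟫ / R := by rw [le_div_iff₀ hR]; linarith [(abs_le.1 h1).1]
    have : 0 ≤ ‖y‖ ^ 2 / (2 * R) := by positivity
    linarith
  rw [add_assoc, ← hK, ← pow_le_pow_iff_left₀ (norm_nonneg _) hnn two_ne_zero, norm_add_sq_real]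
  have e : R * K = ⟪n, y⟫ + ‖y‖ ^ 2 / 2 := by rw [hK]; field_simp
  linarith [pow_le_pow_left₀ (norm_nonneg n) hn 2, sq_nonneg K]

/-- Two nearby scales with almost equal slopes give flatness at a smaller scale. -/
theorem squeeze_flat (hs : IsOpen s) (hu : ContDiffOn ℝ 3 u s)
    (heq : ∀ z ∈ s, fderiv ℝ (fderiv ℝ u) z (gradient u z) (gradient u z) = 0)
    {x : E} {R R' τ σ ν η : ℝ} (hR' : 0 < R') (hτ : 0 < τ) (hτ4 : τ ≤ 1 / 4) (hRdef : R = τ * R')
    (hσ : 0 < σ) (hσR : σ ≤ R) (hball : closedBall x R' ⊆ s)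
    (h8 : ∀ y ∈ closedBall x R', ‖gradient u y‖ ≤ 8)
    (hνp : slopeUp u x R' ≤ slopeUp u x R + ν)
    (hνm : slopeUp (fun y => -u y) x R' ≤ slopeUp (fun y => -u y) x R + ν)
    (hη : ν + 64 * τ ≤ η) :
    ∃ w : E, ‖w‖ ≤ 8 ∧ ∀ v ∈ closedBall x σ,
      |u v - u x - ⟪w, v - x⟫| ≤ 4 * η * R + 4 * σ ^ 2 / R + σ * Real.sqrt (96 * η) := by
  have hR : 0 < R := by rw [hRdef]; positivity
  have h4R : 4 * R ≤ R' := by
    rw [hRdef]; have := mul_le_mul_of_nonneg_right hτ4 hR'.le; linarith
  have hxB : x ∈ closedBall x R' := mem_closedBall_self hR'.le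
  have hc : ContinuousOn u (closedBall x R') := hu.continuousOn.mono hball
  have hsubR : closedBall x R ⊆ closedBall x R' := closedBall_subset_closedBall (by linarith)
  have lip8 : ∀ v ∈ closedBall x R', ∀ w ∈ closedBall x R', u v - u w ≤ 8 * ‖v - w‖ :=
    fun v hv w hw => lip_of_grad hs hu (convex_closedBall _ _) hball h8 hv hw
  obtain ⟨hPle, P, hP, hPe⟩ := slopeUp_spec hR (hc.mono hsubR)
  obtain ⟨-, N, hN, hNe⟩ := slopeUp_spec (u := fun y => -u y) hR (hc.mono hsubR).neg
  have hS'8 : slopeUp u x R' ≤ 8 := by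
    obtain ⟨Q, hQ, hQe⟩ := (slopeUp_spec hR' hc).2
    have := lip8 Q hQ x hxB
    have : ‖Q - x‖ ≤ R' := by rw [← dist_eq_norm]; exact mem_closedBall.1 hQ
    exact le_of_mul_le_mul_right (by linarith) hR'
  have hS0 : 0 ≤ slopeUp u x R := slopeUp_nonneg hR (hc.mono hsubR)
  have hS'0 : 0 ≤ slopeUp u x R' := slopeUp_nonneg hR' hc
  have hS8 : slopeUp u x R ≤ 8 := (slopeUp_mono hs hu heq hR (by linarith) hball).trans hS'8
  set S := slopeUp u x R with hS
  set S' := slopeUp u x R' with hS'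
  set gm := slopeUp (fun y => -u y) x R with hgm
  set gm' := slopeUp (fun y => -u y) x R' with hgm'
  have hNe' : u N = u x - gm * R := by linarith [hNe]
  -- the downward slope is at least `S - η`
  have hlow : S - η ≤ gm := by
    have h := slope_down_le hs hu.neg (classical_neg heq) hR h4R hball
    simp only [neg_neg] at h
    rw [show (fun y => u y) = u from rfl, ← hS, ← hgm', hRdef] at h
    have h' : S * (1 - 2 * τ) ≤ gm' := le_of_mul_le_mul_left (by linarith) hR'
    have := mul_le_mul_of_nonneg_left hS8 hτ.le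
    linarith
  set Λ := S + η with hΛ
  have hΛ0 : 0 ≤ Λ := by
    have : slopeUp u x R ≤ S' := slopeUp_mono hs hu heq hR (by linarith) hball
    linarith
  -- gradient bound on `closedBall x (2 R)`
  have hgrad : ∀ y ∈ closedBall x (2 * R), ‖gradient u y‖ ≤ Λ := by
    intro y hy
    have hρ : 0 < R' - 2 * R := by linarith
    have hyball : closedBall y (R' - 2 * R) ⊆ closedBall x R' :=
      closedBall_subset_closedBall' (by linarith [mem_closedBall.1 hy])
    refine grad_le_slope hs hu heq hρ (hyball.trans hball) hΛ0 fun v hv => ?_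
    have h1 := (slopeUp_spec hR' hc).1 v (hyball (sphere_subset_closedBall hv))
    have hyx : ‖x - y‖ ≤ 2 * R := by rw [← dist_eq_norm, dist_comm]; exact mem_closedBall.1 hy
    have h2 := lip8 x hxB y (closedBall_subset_closedBall (by linarith) hy)
    rw [← hS'] at h1
    have h3 : S' * R' + 16 * R ≤ Λ * (R' - 2 * R) := by
      have e1 := mul_le_mul_of_nonneg_right (show S' + 64 * τ ≤ Λ by linarith) hρ.le
      have e2 := mul_le_mul_of_nonneg_right hS'8 hR.le
      have e3 : τ * R' = R := hRdef.symm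
      have e4 := mul_le_mul_of_nonneg_left (show R' / 2 ≤ R' - 2 * R by linarith) hτ.le
      linarith
    linarith
  have hlip : ∀ v ∈ closedBall x (2 * R), ∀ w ∈ closedBall x (2 * R),
      u v - u w ≤ Λ * ‖v - w‖ := fun v hv w hw =>
    lip_of_grad hs hu (convex_closedBall _ _)
      ((closedBall_subset_closedBall (by linarith)).trans hball) hgrad hv hw
  have hR2 : closedBall x R ⊆ closedBall x (2 * R) := closedBall_subset_closedBall (by linarith)
  set n := x - N with hn
  set q := P - x with hq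
  have hnR : ‖n‖ ≤ R := by rw [hn, ← dist_eq_norm, dist_comm]; exact mem_closedBall.1 hN
  have hqR : ‖q‖ ≤ R := by rw [hq, ← dist_eq_norm]; exact mem_closedBall.1 hP
  have hη0 : 0 ≤ η := by linarith [slopeUp_mono hs hu heq hR (by linarith : R ≤ R') hball]
  -- the two directions almost agree
  have hpn : S * ‖q - n‖ ≤ R * Real.sqrt (96 * η) := by
    have h1 := hlip P (hR2 hP) N (hR2 hN)
    rw [show P - N = q + n by rw [hq, hn]; abel, hPe, hNe'] at h1
    have h2 : R * (2 * S - η) ≤ Λ * ‖q + n‖ := by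
      have := mul_le_mul_of_nonneg_right hlow hR.le
      linarith
    have hqn : ‖q + n‖ ≤ 2 * R := (norm_add_le q n).trans (by linarith)
    have h3 : R * (2 * S - 3 * η) ≤ S * ‖q + n‖ := by
      have := mul_le_mul_of_nonneg_left hqn hη0
      linarith
    have h4 : (S * ‖q - n‖) ^ 2 ≤ 4 * S ^ 2 * R ^ 2 - (S * ‖q + n‖) ^ 2 := by
      have hpl := parallelogram_law_with_norm ℝ q n
      have e1 := mul_le_mul_of_nonneg_left (mul_le_mul hqR hqR (norm_nonneg _) hR.le) (sq_nonneg S)
      have e2 := mul_le_mul_of_nonneg_left (mul_le_mul hnR hnR (norm_nonneg _) hR.le) (sq_nonneg S)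
      have e3 := congrArg (fun t => S ^ 2 * t) hpl
      linarith
    have h5 : 4 * S ^ 2 * R ^ 2 - (S * ‖q + n‖) ^ 2 ≤ 12 * S * η * R ^ 2 := by
      rcases le_or_gt (2 * S - 3 * η) 0 with hc' | hc'
      · have := mul_le_mul_of_nonneg_left hc' (mul_nonneg hS0 (sq_nonneg R))
        have := sq_nonneg (S * ‖q + n‖)
        have := mul_nonneg (mul_nonneg hS0 hη0) (sq_nonneg R)
        linarith
      · have h6 := pow_le_pow_left₀ (mul_pos hR hc').le h3 2
        have h7 := sq_nonneg (η * R)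
        linarith
    rw [← pow_le_pow_iff_left₀ (by positivity) (by positivity) two_ne_zero, mul_pow R (Real.sqrt _),
      Real.sq_sqrt (by positivity)]
    have := mul_le_mul_of_nonneg_left hS8 (mul_nonneg hη0 (sq_nonneg R))
    linarith
  refine ⟨(S / R) • n, ?_, fun v hv => ?_⟩
  · rw [norm_smul, Real.norm_eq_abs, abs_of_nonneg (by positivity), div_mul_eq_mul_div,
      div_le_iff₀ hR]
    exact mul_le_mul hS8 hnR (norm_nonneg _) (by norm_num)
  set y := v - x with hy
  have hyσ : ‖y‖ ≤ σ := by rw [hy, ← dist_eq_norm]; exact mem_closedBall.1 hv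
  have hv2 : v ∈ closedBall x (2 * R) := closedBall_subset_closedBall (by linarith) hv
  have hy2 : ‖y‖ ^ 2 ≤ σ ^ 2 := pow_le_pow_left₀ (norm_nonneg _) hyσ 2
  have hσ2 : σ ^ 2 / (2 * R) ≤ σ / 2 := by
    rw [div_le_iff₀ (by positivity)]
    have := mul_le_mul_of_nonneg_left hσR hσ.le
    linarith
  have hyy : ‖y‖ ^ 2 / (2 * R) ≤ σ ^ 2 / (2 * R) := div_le_div_of_nonneg_right hy2 (by positivity)
  have hSσ : S * (σ ^ 2 / (2 * R)) ≤ 4 * σ ^ 2 / R := by
    refine (mul_le_mul_of_nonneg_right hS8 (by positivity)).trans (le_of_eq ?_)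
    field_simp; ring
  have hsqrt := mul_nonneg hσ.le (Real.sqrt_nonneg (96 * η))
  have hw : ⟪(S / R) • n, y⟫ = S * (⟪n, y⟫ / R) := by rw [real_inner_smul_left]; ring
  rw [hw, abs_le]
  constructor
  · -- from `P`
    have h1 := hlip P (hR2 hP) v hv2
    rw [hPe, show P - v = q + -y by rw [hq, hy]; abel] at h1
    have h2 := mul_le_mul_of_nonneg_left
      (norm_add_le_expansion hR hqR (y := -y) (by rw [norm_neg]; linarith)) hΛ0
    rw [inner_neg_right, norm_neg] at h2
    have h3 : |⟪q, y⟫ / R| ≤ σ := by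
      rw [abs_div, abs_of_pos hR, div_le_iff₀ hR]
      exact (abs_real_inner_le_norm q y).trans (by
        rw [mul_comm σ R]; exact mul_le_mul hqR hyσ (norm_nonneg _) hR.le)
    have h4 : S * (⟪n, y⟫ / R) - S * (⟪q, y⟫ / R) ≤ σ * Real.sqrt (96 * η) := by
      have e : S * (⟪n, y⟫ / R) - S * (⟪q, y⟫ / R) = S * ⟪n - q, y⟫ / R := by
        rw [show ⟪n - q, y⟫ = ⟪n, y⟫ - ⟪q, y⟫ from inner_sub_left _ _ _]; ring
      rw [e, div_le_iff₀ hR]
      refine (mul_le_mul_of_nonneg_left (real_inner_le_norm _ _) hS0).trans ?_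
      rw [norm_sub_rev]
      have := mul_le_mul hpn hyσ (norm_nonneg _) (by positivity)
      linarith
    have h5 := mul_le_mul_of_nonneg_left hyy hΛ0
    have h6 := mul_le_mul_of_nonneg_left (abs_le.1 h3).1 hη0
    have h7 := mul_le_mul_of_nonneg_left hσ2 hη0
    have h8 := mul_le_mul_of_nonneg_left hσR hη0
    rw [neg_div, mul_add, mul_add, mul_neg] at h2
    rw [hΛ] at h1 h2 h5
    linarith [mul_nonneg hη0 hR.le, mul_nonneg hη0 hσ.le]
  · -- from `N`
    have h1 := hlip v hv2 N (hR2 hN)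
    rw [hNe', show v - N = n + y by rw [hn, hy]; abel] at h1
    have h2 := mul_le_mul_of_nonneg_left (norm_add_le_expansion hR hnR (y := y) (by linarith)) hΛ0
    have h3 : |⟪n, y⟫ / R| ≤ σ := by
      rw [abs_div, abs_of_pos hR, div_le_iff₀ hR]
      exact (abs_real_inner_le_norm n y).trans (by
        rw [mul_comm σ R]; exact mul_le_mul hnR hyσ (norm_nonneg _) hR.le)
    have h4 := mul_le_mul_of_nonneg_right hlow hR.le
    have h5 := mul_le_mul_of_nonneg_left hyy hΛ0
    have h6 := mul_le_mul_of_nonneg_left (abs_le.1 h3).2 hη0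
    have h7 := mul_le_mul_of_nonneg_left hσ2 hη0
    have h8 := mul_le_mul_of_nonneg_left hσR hη0
    rw [mul_add, mul_add] at h2
    rw [hΛ] at h1 h2 h5
    linarith [mul_nonneg hη0 hR.le, mul_nonneg hη0 hσ.le]

/-- The gradient is nearly constant on a ball around any interior point, uniformly. -/
theorem modulus_unit {ε : ℝ} (hε : 0 < ε) (hε1 : ε ≤ 1) :
    ∃ r : ℝ, 0 < r ∧ ∀ (d : ℕ) (u : EuclideanSpace ℝ (Fin d) → ℝ), ContDiffOn ℝ 3 u (ball 0 1) →
      (∀ z ∈ ball 0 1, fderiv ℝ (fderiv ℝ u) z (gradient u z) (gradient u z) = 0) →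
      (∀ z ∈ ball 0 1, |u z| ≤ 1) →
      ∀ x y, ‖x‖ ≤ 1 / 2 → dist y x ≤ r → ‖gradient u y - gradient u x‖ ≤ 6 * ε := by
  set D := ε ^ 2 / 48000 with hD
  have hD0 : 0 < D := by positivity
  have hε2 : ε ^ 2 ≤ ε := by rw [pow_two]; exact mul_le_of_le_one_left hε.le hε1
  have hD1 : D ≤ 1 := by rw [hD, div_le_iff₀ (by norm_num)]; linarith
  have hD8 : D ≤ ε / 8 := by rw [hD, div_le_iff₀ (by norm_num)]; linarith
  set η := D ^ 2 / 1000 with hη
  have hη0 : 0 < η := by positivity
  set τ := η / 128 with hτ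
  set τ' := D / 15 with hτ'
  have hτ0 : 0 < τ := by positivity
  have hτ'0 : 0 < τ' := by positivity
  have hη1 : η ≤ 1 / 1000 := by
    rw [hη]; exact div_le_div_of_nonneg_right (pow_le_one₀ hD0.le hD1) (by norm_num)
  have hτ4 : τ ≤ 1 / 4 := by rw [hτ]; linarith
  obtain ⟨N, hN⟩ := exists_nat_gt (32 / η)
  have hN0 : (0 : ℝ) < N := lt_trans (by positivity) hN
  refine ⟨τ' * τ ^ (N + 1) / 64, by positivity, fun d u hu heq hb x y hx hy => ?_⟩
  have hgrad8 : ∀ z : EuclideanSpace ℝ (Fin d), ‖z‖ ≤ 5 / 8 → ‖gradient u z‖ ≤ 8 := fun z hz => by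
    refine grad_le_slope isOpen_ball hu heq (r := 1 / 4) (by norm_num)
      (closedBall_subset_ball' (by rw [dist_zero_right]; linarith)) (by norm_num) fun v hv => ?_
    have hvb : v ∈ ball (0 : EuclideanSpace ℝ (Fin d)) 1 := by
      refine mem_ball_zero_iff.2 ?_
      have := mem_sphere.1 hv
      rw [dist_eq_norm] at this
      linarith [norm_le_insert' v z]
    linarith [abs_le.1 (hb v hvb), abs_le.1 (hb z (mem_ball_zero_iff.2 (by linarith)))]
  let ρ : ℕ → ℝ := fun k => τ ^ k / 8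
  have hρ0 : ∀ k, 0 < ρ k := fun k => by positivity
  have hρ8 : ∀ k, ρ k ≤ 1 / 8 := fun k =>
    div_le_div_of_nonneg_right (pow_le_one₀ hτ0.le (by linarith)) (by norm_num)
  have hsub : ∀ k, closedBall x (ρ k) ⊆ ball 0 1 := fun k =>
    closedBall_subset_ball' (by rw [dist_zero_right]; linarith [hρ8 k])
  have h8 : ∀ k, ∀ z ∈ closedBall x (ρ k), ‖gradient u z‖ ≤ 8 := fun k z hz => by
    refine hgrad8 z ?_
    have := mem_closedBall.1 hz
    rw [dist_eq_norm] at this
    linarith [norm_le_insert' z x, hρ8 k]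
  let F : ℕ → ℝ := fun k => slopeUp u x (ρ k) + slopeUp (fun z => -u z) x (ρ k)
  have hρs : ∀ k, ρ (k + 1) = τ * ρ k := fun k => by simp only [ρ, pow_succ]; ring
  have hρle : ∀ k, ρ (k + 1) ≤ ρ k := fun k => by
    rw [hρs]; exact mul_le_of_le_one_left (hρ0 k).le (by linarith)
  have hmp : ∀ k, slopeUp u x (ρ (k + 1)) ≤ slopeUp u x (ρ k) := fun k =>
    slopeUp_mono isOpen_ball hu heq (hρ0 _) (hρle k) (hsub k)
  have hmm : ∀ k, slopeUp (fun z => -u z) x (ρ (k + 1)) ≤ slopeUp (fun z => -u z) x (ρ k) :=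
    fun k => slopeUp_mono isOpen_ball hu.neg (classical_neg heq) (hρ0 _) (hρle k) (hsub k)
  have hF16 : F 0 ≤ 16 := by
    have hc : ContinuousOn u (closedBall x (ρ 0)) := hu.continuousOn.mono (hsub 0)
    obtain ⟨P, hP, hPe⟩ := (slopeUp_spec (hρ0 0) hc).2
    obtain ⟨Q, hQ, hQe⟩ := (slopeUp_spec (u := fun z => -u z) (hρ0 0) hc.neg).2
    have hl := fun v hv w hw => lip_of_grad isOpen_ball hu (convex_closedBall x (ρ 0)) (hsub 0)
      (h8 0) (v := v) (w := w) hv hw
    have h1 := hl P hP x (mem_closedBall_self (hρ0 0).le)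
    have h2 := hl x (mem_closedBall_self (hρ0 0).le) Q hQ
    have h3 : ‖P - x‖ ≤ ρ 0 := by rw [← dist_eq_norm]; exact mem_closedBall.1 hP
    have h4 : ‖x - Q‖ ≤ ρ 0 := by rw [← dist_eq_norm, dist_comm]; exact mem_closedBall.1 hQ
    exact le_of_mul_le_mul_right (by simp only [F]; linarith) (hρ0 0)
  have hFN : 0 ≤ F N := add_nonneg
    (slopeUp_nonneg (hρ0 N) (hu.continuousOn.mono (hsub N)))
    (slopeUp_nonneg (hρ0 N) (hu.continuousOn.mono (hsub N)).neg)
  obtain ⟨k, hk, hkF⟩ : ∃ k < N, F k - F (k + 1) ≤ η / 2 := by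
    by_contra hcon
    push Not at hcon
    have := Finset.card_nsmul_le_sum (Finset.range N) (fun k => F k - F (k + 1)) (η / 2)
      (fun k hk => (hcon k (Finset.mem_range.1 hk)).le)
    rw [Finset.sum_range_sub', Finset.card_range, nsmul_eq_mul] at this
    rw [div_lt_iff₀ hη0] at hN
    linarith
  set σ := τ' * ρ (k + 1) with hσ
  have hσ0 : 0 < σ := mul_pos hτ'0 (hρ0 _)
  have hνp : slopeUp u x (ρ k) ≤ slopeUp u x (ρ (k + 1)) + η / 2 := by
    have := hmm k; simp only [F] at hkF; linarith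
  have hνm : slopeUp (fun z => -u z) x (ρ k) ≤ slopeUp (fun z => -u z) x (ρ (k + 1)) + η / 2 := by
    have := hmp k; simp only [F] at hkF; linarith
  obtain ⟨w, hw8, hw⟩ := squeeze_flat isOpen_ball hu heq (hρ0 k) hτ0 hτ4 (hρs k) hσ0
    (mul_le_of_le_one_left (hρ0 _).le (by rw [hτ']; linarith)) (hsub k) (h8 k) hνp hνm
    (η := η) (by rw [hτ]; linarith)
  have hdev : ∀ v ∈ closedBall x σ, |u v - u x - ⟪w, v - x⟫| ≤ D * σ := fun v hv => by
    refine (hw v hv).trans ?_
    set R := ρ (k + 1) with hR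
    have hR0 : 0 < R := hρ0 _
    have e1 : 4 * η * R ≤ D * σ / 3 := by
      have : 4 * η ≤ D * τ' / 3 := by
        rw [hη, hτ']; have := sq_nonneg D; linarith
      have := mul_le_mul_of_nonneg_right this hR0.le
      rw [hσ]; linarith
    have e2 : 4 * σ ^ 2 / R ≤ D * σ / 3 := by
      rw [div_le_iff₀ hR0]
      have : 4 * τ' ≤ D / 3 := by rw [hτ']; linarith
      have := mul_le_mul_of_nonneg_right this (mul_nonneg hσ0.le hR0.le)
      rw [hσ] at this ⊢; linarith
    have e3 : σ * Real.sqrt (96 * η) ≤ D * σ / 3 := by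
      have : Real.sqrt (96 * η) ≤ D / 3 := by
        rw [Real.sqrt_le_left (by positivity), hη]; linarith [sq_nonneg D]
      have := mul_le_mul_of_nonneg_left this hσ0.le
      linarith
    linarith
  have hσsub : ball x σ ⊆ ball 0 1 := ball_subset_closedBall.trans
    ((closedBall_subset_closedBall ((mul_le_of_le_one_left (hρ0 _).le
      (by rw [hτ']; linarith)).trans (hρle k))).trans (hsub k))
  have hnear : ∀ z, dist z x ≤ σ / 8 → ‖gradient u z - w‖ ≤ 3 * ε := by
    intro z hz
    rcases le_or_gt ‖w‖ ε with hwε | hwε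
    · have hg : ‖gradient u z‖ ≤ ε + 8 * D := by
        refine grad_le_slope isOpen_ball hu heq (r := σ / 4) (by positivity) ?_ (by positivity)
          fun v hv => ?_
        · exact (closedBall_subset_ball' (by linarith)).trans hσsub
        · have hvz : ‖v - z‖ = σ / 4 := by rw [← dist_eq_norm]; exact mem_sphere.1 hv
          have hvB : v ∈ closedBall x σ := by
            refine mem_closedBall.2 ?_
            have := dist_triangle v z x
            rw [mem_sphere.1 hv] at this
            linarith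
          have h1 := abs_le.1 (hdev v hvB)
          have h2 := abs_le.1 (hdev z (mem_closedBall.2 (by linarith)))
          have h3 : ⟪w, v - x⟫ - ⟪w, z - x⟫ ≤ ε * (σ / 4) := by
            rw [← inner_sub_right, sub_sub_sub_cancel_right]
            exact (real_inner_le_norm _ _).trans
              (by rw [hvz]; exact mul_le_mul_of_nonneg_right hwε (by positivity))
          linarith
      linarith [norm_sub_le (gradient u z) w]
    · have hwpos : 0 < ‖w‖ := hε.trans hwε
      have h := flat_gradient (p := w) (c := u x) (D := D / ‖w‖) hσ0 (by positivity)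
        (by rw [div_le_iff₀ hwpos]; linarith) (hu.mono hσsub) (fun v hv => heq v (hσsub hv))
        (fun v hv => by
          rw [div_mul_cancel₀ _ hwpos.ne']
          exact hdev v (ball_subset_closedBall hv)) hz
      have e : 6000 * (D / ‖w‖) * ‖w‖ ^ 2 = 6000 * D * ‖w‖ := by field_simp
      rw [e] at h
      have h2 : ‖gradient u z - w‖ ^ 2 ≤ ε ^ 2 := h.trans (by
        have := mul_le_mul_of_nonneg_left hw8 hD0.le
        rw [hD] at this ⊢; linarith)
      rw [pow_le_pow_iff_left₀ (norm_nonneg _) hε.le two_ne_zero] at h2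
      linarith
  have hrσ : τ' * τ ^ (N + 1) / 64 ≤ σ / 8 := by
    have : τ ^ (N + 1) ≤ τ ^ (k + 1) := pow_le_pow_of_le_one hτ0.le (by linarith) (by omega)
    have := mul_le_mul_of_nonneg_left this hτ'0.le
    simp only [hσ, ρ]; linarith
  calc ‖gradient u y - gradient u x‖
      ≤ ‖gradient u y - w‖ + ‖gradient u x - w‖ := by
        rw [norm_sub_rev (gradient u x) w]; exact norm_sub_le_norm_sub_add_norm_sub _ _ _
    _ ≤ 3 * ε + 3 * ε :=
        add_le_add (hnear y (hy.trans hrσ)) (hnear x (by rw [dist_self]; positivity))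
    _ = 6 * ε := by ring

end Vale.Agent.P080
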