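import Vale.Agent.P080.Windows
import Vale.Agent.P080.Modulus

/-!
Improvement of flatness on anisotropic windows (P080): the squared gradient is transported along
discrete gradient paths, a pigeonhole on its maximum over nested windows gives two cones of almost
maximal slope, and squeezing between them gives a window with a four times smaller flatness.
-/

namespace Vale.Agent.P080

open Metric Set Filter Topology
open scoped RealInnerProductSpace

variable {E : Type*} [NormedAddCommGroup E] [InnerProductSpace ℝ E] [FiniteDimensional ℝ E]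
variable {u : E → ℝ} {s : Set E}

section Form

omit [FiniteDimensional ℝ E]

variable {e : E} {δ : ℝ}

theorem aForm_le_dist (he : ‖e‖ = 1) (hδ : 0 < δ) (t : ℝ) (x : E) :
    aForm e δ x x ≤ ⟪e, x⟫ ^ 2 + ⟪x - t • e, x - t • e⟫ / δ := by
  rw [aForm_eq, inner_sub_left, inner_sub_right, inner_sub_right, real_inner_smul_left,
    real_inner_smul_left, real_inner_smul_right, real_inner_smul_right, real_inner_comm e x,
    real_inner_self_eq_norm_sq e, he]
  rw [← sub_nonneg]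
  field_simp
  linarith [sq_nonneg (t - ⟪e, x⟫)]

theorem aForm_perp (he : ‖e‖ = 1) (hδ : 0 < δ) (x : E) :
    ⟪x - ⟪e, x⟫ • e, x - ⟪e, x⟫ • e⟫ = δ * (aForm e δ x x - ⟪e, x⟫ ^ 2) := by
  rw [aForm_eq, inner_sub_left, inner_sub_right, inner_sub_right, real_inner_smul_left,
    real_inner_smul_left, real_inner_smul_right, real_inner_smul_right, real_inner_comm e x,
    real_inner_self_eq_norm_sq e, he]
  field_simp
  ring

theorem aForm_add_le (he : ‖e‖ = 1) (hδ : 0 < δ) (hδ1 : δ ≤ 1) {x y : E} {a b : ℝ} (ha : 0 ≤ a)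
    (hb : 0 ≤ b) (hx : aForm e δ x x ≤ a ^ 2) (hy : aForm e δ y y ≤ b ^ 2) :
    aForm e δ (x + y) (x + y) ≤ (a + b) ^ 2 := by
  have h : aForm e δ x y ≤ a * b := by
    refine (le_abs_self _).trans ?_
    rw [← pow_le_pow_iff_left₀ (abs_nonneg _) (mul_nonneg ha hb) two_ne_zero, sq_abs, mul_pow]
    exact (aForm_sq_le he hδ hδ1 x y).trans
      (mul_le_mul hx hy (real_inner_self_nonneg.trans (le_aForm he hδ hδ1 y)) (sq_nonneg a))
  have e1 : aForm e δ (x + y) (x + y) =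
      aForm e δ x x + 2 * aForm e δ x y + aForm e δ y y := by
    simp only [aForm_eq, inner_add_left, inner_add_right, real_inner_comm x y]; ring
  rw [e1]
  linarith

theorem aForm_smul (t : ℝ) (x : E) : aForm e δ (t • x) (t • x) = t ^ 2 * aForm e δ x x := by
  simp only [aForm_eq, real_inner_smul_left, real_inner_smul_right]; ring

theorem convex_window (he : ‖e‖ = 1) (hδ : 0 < δ) (hδ1 : δ ≤ 1) {ρ : ℝ} (hρ : 0 ≤ ρ) :
    Convex ℝ {y : E | aForm e δ y y ≤ ρ ^ 2} := fun x hx y hy a b ha hb hab => by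
  have h := aForm_add_le he hδ hδ1 (a := a * ρ) (b := b * ρ) (mul_nonneg ha hρ) (mul_nonneg hb hρ)
    (x := a • x) (y := b • y)
    (by rw [aForm_smul, mul_pow]; exact mul_le_mul_of_nonneg_left hx (sq_nonneg a))
    (by rw [aForm_smul, mul_pow]; exact mul_le_mul_of_nonneg_left hy (sq_nonneg b))
  rw [← add_mul, hab, one_mul] at h
  exact h

/-- A vector is no longer than its component along `e` plus the transversal correction. -/
theorem norm_le_long (he : ‖e‖ = 1) {w : E} {ℓ : ℝ} (hℓ : 0 < ℓ) (hs : ℓ / 2 ≤ ⟪e, w⟫) :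
    ‖w‖ ≤ ⟪e, w⟫ + ⟪w - ⟪e, w⟫ • e, w - ⟪e, w⟫ • e⟫ / ℓ := by
  set X := ⟪w - ⟪e, w⟫ • e, w - ⟪e, w⟫ • e⟫ with hX
  have hX0 : 0 ≤ X := real_inner_self_nonneg
  have e1 : ‖w‖ ^ 2 = ⟪e, w⟫ ^ 2 + X := by
    rw [hX, inner_sub_left, inner_sub_right, inner_sub_right, real_inner_smul_left,
      real_inner_smul_left, real_inner_smul_right, real_inner_smul_right, real_inner_comm e w,
      real_inner_self_eq_norm_sq e, he, real_inner_self_eq_norm_sq]
    ring
  have h0 : 0 ≤ ⟪e, w⟫ + X / ℓ := add_nonneg (by linarith) (div_nonneg hX0 hℓ.le)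
  rw [← pow_le_pow_iff_left₀ (norm_nonneg _) h0 two_ne_zero, e1]
  have h1 : X ≤ 2 * (⟪e, w⟫ * (X / ℓ)) := by
    rw [← mul_div_assoc, ← mul_div_assoc, le_div_iff₀ hℓ]
    linarith [mul_le_mul_of_nonneg_right hs hX0]
  linarith [sq_nonneg (X / ℓ)]

end Form

omit [FiniteDimensional ℝ E] in
/-- The mean value inequality on a segment. -/
theorem slope_ge {f f' : ℝ → ℝ} {c h : ℝ} (hh : 0 < h) (hd : ∀ t ∈ Icc 0 h, HasDerivAt f (f' t) t)
    (hb : ∀ t ∈ Icc 0 h, c ≤ f' t) : c * h ≤ f h - f 0 := by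
  obtain ⟨t, ht, he⟩ := exists_hasDerivAt_eq_slope f f' hh
    (fun t ht => (hd t ht).continuousAt.continuousWithinAt)
    (fun t ht => hd t (Ioo_subset_Icc_self ht))
  have h1 := hb t (Ioo_subset_Icc_self ht)
  rwa [he, sub_zero, le_div_iff₀ hh] at h1

/-- A discrete gradient path of duration `T`: the squared gradient is almost constant along it,
so `u` grows at almost the rate `|Du P|²`. -/
theorem ascend (hs : IsOpen s) (hu : ContDiffOn ℝ 3 u s)
    (heq : ∀ z ∈ s, fderiv ℝ (fderiv ℝ u) z (gradient u z) (gradient u z) = 0)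
    {e P : E} (he : ‖e‖ = 1) {δ ρ b T K Λ D ε : ℝ} (hδ : 0 < δ) (hδ1 : δ ≤ 1) (hb : 0 ≤ b)
    (hK : 0 ≤ K) (hT : 0 < T) (hΛ : 0 < Λ) (hε : 0 < ε) (hP : aForm e δ P P ≤ b ^ 2)
    (hbT : b + K * T ≤ ρ) (hsub : ∀ y, aForm e δ y y ≤ ρ ^ 2 → y ∈ s)
    (hnorm : ∀ y, aForm e δ y y ≤ ρ ^ 2 → ‖gradient u y‖ ≤ Λ)
    (hvel : ∀ y, aForm e δ y y ≤ ρ ^ 2 → aForm e δ (gradient u y) (gradient u y) ≤ K ^ 2)
    (hdir : ∀ y, aForm e δ y y ≤ ρ ^ 2 → ‖gradient u y - e‖ ≤ D) :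
    ∃ Q, aForm e δ Q Q ≤ ρ ^ 2 ∧ ‖Q - P‖ ≤ Λ * T ∧ ‖Q - P - T • e‖ ≤ T * D ∧
      (⟪gradient u P, gradient u P⟫ - ε) * T ≤ u Q - u P := by
  have hρ : 0 ≤ ρ := le_trans (add_nonneg hb (mul_nonneg hK hT.le)) hbT
  set W := {y : E | aForm e δ y y ≤ ρ ^ 2} with hW
  have hWc : IsCompact W := isCompact_window he hδ hδ1 (ρ ^ 2)
  have hGc : ContinuousOn (gradient u) W := fun y hy =>
    (hasFDerivAt_gradient hs hu (hsub y hy)).continuousAt.continuousWithinAt
  have hHc : ContinuousOn (fderiv ℝ (gradient u)) W := fun y hy =>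
    (((contDiffAt_gradient hs hu (hsub y hy)).fderiv_right (m := 1) (by norm_num)).continuousAt
      ).continuousWithinAt
  obtain ⟨M, hM⟩ := hWc.exists_bound_of_continuousOn hHc
  set M' := max M 0 with hM'
  set c := Λ * (1 + 2 * M' * T) + 1 with hc
  have hc0 : 0 < c := by positivity
  set ε1 := ε / c with hε1
  have hε10 : 0 < ε1 := div_pos hε hc0
  have hεc : Λ * ε1 + 2 * (M' * Λ * ε1) * T ≤ ε := by
    have : ε1 * c = ε := div_mul_cancel₀ _ hc0.ne'
    rw [hc] at this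
    linarith
  obtain ⟨η, hη, hηG⟩ := Metric.uniformContinuousOn_iff.1
    (hWc.uniformContinuousOn_of_continuous hGc) ε1 hε10
  obtain ⟨N, hN⟩ := exists_nat_gt (Λ * T / η)
  have hN0 : (0 : ℝ) < N := lt_of_le_of_lt (by positivity) hN
  set h := T / N with hh
  have hh0 : 0 < h := div_pos hT hN0
  have hhη : Λ * h < η := by
    rw [hh, ← mul_div_assoc, div_lt_iff₀ hN0]
    rw [div_lt_iff₀ hη] at hN
    linarith
  set v0 := ⟪gradient u P, gradient u P⟫ with hv0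
  have key : ∀ j : ℕ, j ≤ N → ∃ X, aForm e δ X X ≤ (b + K * (j * h)) ^ 2 ∧
      ‖X - P‖ ≤ Λ * (j * h) ∧ ‖X - P - ((j : ℝ) * h) • e‖ ≤ (j * h) * D ∧
      v0 - (j * h) * (2 * (M' * Λ * ε1)) ≤ ⟪gradient u X, gradient u X⟫ ∧
      (j * h) * (v0 - ε) ≤ u X - u P := by
    intro j hj
    induction j with
    | zero => exact ⟨P, by simpa using hP, by simp, by simp, by simp [hv0], by simp⟩
    | succ j ih =>
      obtain ⟨X, hXB, hXn, hXd, hXv, hXu⟩ := ih (Nat.le_of_succ_le hj)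
      have hjN : ((j : ℝ) + 1) * h ≤ T := by
        have : ((j : ℝ) + 1) ≤ N := by exact_mod_cast hj
        have := mul_le_mul_of_nonneg_right this hh0.le
        rwa [hh, mul_div_cancel₀ _ hN0.ne'] at this
      have hjh : 0 ≤ (j : ℝ) * h := by positivity
      have hXW : X ∈ W := hXB.trans (pow_le_pow_left₀ (by positivity) (by
        have := mul_le_mul_of_nonneg_left hjN hK
        linarith [mul_nonneg hK hh0.le]) 2)
      set V := gradient u X with hV
      have hstep : ∀ t ∈ Icc (0 : ℝ) h,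
          aForm e δ (X + t • V) (X + t • V) ≤ (b + K * (j * h) + K * t) ^ 2 := fun t ht =>
        aForm_add_le he hδ hδ1 (by positivity) (mul_nonneg hK ht.1) hXB (by
          rw [aForm_smul, mul_pow, mul_comm (K ^ 2)]
          exact mul_le_mul_of_nonneg_left (hvel X hXW) (sq_nonneg t))
      have hseg : ∀ t ∈ Icc (0 : ℝ) h, X + t • V ∈ W := fun t ht =>
        (hstep t ht).trans (pow_le_pow_left₀ (by have := ht.1; positivity) (by
          have h1 := mul_le_mul_of_nonneg_left hjN hK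
          linarith [mul_le_mul_of_nonneg_left ht.2 hK]) 2)
      have hclose : ∀ t ∈ Icc (0 : ℝ) h, ‖gradient u (X + t • V) - V‖ ≤ ε1 := fun t ht => by
        rw [← dist_eq_norm]
        refine (hηG _ (hseg t ht) _ hXW ?_).le
        rw [dist_eq_norm, add_sub_cancel_left, norm_smul, Real.norm_eq_abs, abs_of_nonneg ht.1]
        have := mul_le_mul ht.2 (hnorm X hXW) (norm_nonneg _) hh0.le
        linarith
      have hder : ∀ t ∈ Icc (0 : ℝ) h,
          HasDerivAt (fun t : ℝ => u (X + t • V)) ⟪gradient u (X + t • V), V⟫ t ∧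
          HasDerivAt (fun t : ℝ => ⟪gradient u (X + t • V), gradient u (X + t • V)⟫)
            (2 * ⟪gradient u (X + t • V), fderiv ℝ (gradient u) (X + t • V) V⟫) t := fun t ht => by
        obtain ⟨-, h1, h2⟩ := line_derivs hs hu X V (hsub _ (hseg t ht))
        refine ⟨h1, (h2.inner ℝ h2).congr_deriv ?_⟩
        rw [real_inner_comm (gradient u (X + t • V))
          (fderiv ℝ (gradient u) (X + t • V) V)]
        ring
      have hu' : (⟪V, V⟫ - Λ * ε1) * h ≤ u (X + h • V) - u X := by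
        have := slope_ge hh0 (fun t ht => (hder t ht).1) (c := ⟪V, V⟫ - Λ * ε1) fun t ht => by
          have h1 := (abs_le.1 (abs_real_inner_le_norm (gradient u (X + t • V) - V) V)).1
          rw [inner_sub_left] at h1
          have := mul_le_mul (hclose t ht) (hnorm X hXW) (norm_nonneg _) hε10.le
          linarith
        simpa using this
      have hv' : -(2 * (M' * Λ * ε1)) * h ≤
          ⟪gradient u (X + h • V), gradient u (X + h • V)⟫ - ⟪V, V⟫ := by
        have := slope_ge hh0 (fun t ht => (hder t ht).2) (c := -(2 * (M' * Λ * ε1))) fun t ht => by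
          set y := X + t • V with hy
          have hys : y ∈ s := hsub _ (hseg t ht)
          set a := fderiv ℝ (gradient u) y (gradient u y) with ha
          rw [inner_hess_gradient hs hu hys, ← ha]
          have h0 : ⟪a, gradient u y⟫ = 0 := (grad_along hs hu heq hys).1
          have h1 := (abs_le.1 (abs_real_inner_le_norm a (V - gradient u y))).1
          rw [inner_sub_right, h0, sub_zero] at h1
          have h2 : ‖a‖ ≤ M' * Λ := (ContinuousLinearMap.le_opNorm _ _).trans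
            (mul_le_mul ((hM y (hseg t ht)).trans (le_max_left _ _)) (hnorm y (hseg t ht))
              (norm_nonneg _) (le_max_right _ _))
          have h3 : ‖V - gradient u y‖ ≤ ε1 := by rw [norm_sub_rev]; exact hclose t ht
          have := mul_le_mul h2 h3 (norm_nonneg _) (by positivity)
          linarith
        simpa [hV] using this
      refine ⟨X + h • V, ?_, ?_, ?_, ?_, ?_⟩ <;> push_cast
      · refine (hstep h ⟨hh0.le, le_rfl⟩).trans (le_of_eq ?_)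
        ring
      · rw [show X + h • V - P = (X - P) + h • V by abel]
        refine (norm_add_le _ _).trans ?_
        rw [norm_smul, Real.norm_eq_abs, abs_of_pos hh0]
        linarith [mul_le_mul_of_nonneg_left (hnorm X hXW) hh0.le]
      · rw [show X + h • V - P - (((j : ℝ) + 1) * h) • e =
          (X - P - ((j : ℝ) * h) • e) + h • (V - e) by module]
        refine (norm_add_le _ _).trans ?_
        rw [norm_smul, Real.norm_eq_abs, abs_of_pos hh0]
        linarith [mul_le_mul_of_nonneg_left (hdir X hXW) hh0.le]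
      · linarith
      · have h1 : (j : ℝ) * h * (2 * (M' * Λ * ε1)) ≤ 2 * (M' * Λ * ε1) * T := by
          rw [mul_comm]
          exact mul_le_mul_of_nonneg_left (by linarith) (by positivity)
        have h2 : v0 - ε ≤ ⟪V, V⟫ - Λ * ε1 := by linarith
        have h3 := mul_le_mul_of_nonneg_right h2 hh0.le
        linarith
  obtain ⟨Q, hQB, hQn, hQd, -, hQu⟩ := key N le_rfl
  have hNh : (N : ℝ) * h = T := mul_div_cancel₀ _ hN0.ne'
  rw [hNh] at hQB hQn hQd hQu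
  exact ⟨Q, hQB.trans (pow_le_pow_left₀ (by positivity) hbT 2), hQn, hQd, by linarith⟩

omit [FiniteDimensional ℝ E] in
/-- The direction of an almost straight path is close to `e`. -/
theorem unit_close {e w : E} (he : ‖e‖ = 1) {r D : ℝ} (hr : 0 < r) (hD : D < 1)
    (h : ‖w - r • e‖ ≤ r * D) : 0 < ‖w‖ ∧ ‖‖w‖⁻¹ • w - e‖ ≤ 2 * D := by
  have hre : ‖r • e‖ = r := by rw [norm_smul, he, mul_one, Real.norm_eq_abs, abs_of_pos hr]
  have habs := abs_le.1 ((abs_norm_sub_norm_le w (r • e)).trans h)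
  rw [hre] at habs
  have hw : 0 < ‖w‖ := by linarith [mul_lt_mul_of_pos_left hD hr]
  refine ⟨hw, ?_⟩
  have e1 : ‖w‖⁻¹ • w - e = (‖w‖⁻¹ - r⁻¹) • w + r⁻¹ • (w - r • e) := by
    rw [sub_smul, smul_sub, inv_smul_smul₀ hr.ne']
    abel
  rw [e1]
  refine (norm_add_le _ _).trans ?_
  rw [norm_smul, norm_smul, Real.norm_eq_abs, Real.norm_eq_abs, abs_of_pos (inv_pos.2 hr),
    ← abs_of_pos hw, ← abs_mul, abs_of_pos hw, sub_mul, inv_mul_cancel₀ hw.ne', two_mul]
  refine add_le_add ?_ ?_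
  · rw [show 1 - r⁻¹ * ‖w‖ = r⁻¹ * (r - ‖w‖) by field_simp, abs_mul, abs_of_pos (inv_pos.2 hr),
      inv_mul_le_iff₀ hr, abs_le]
    constructor <;> linarith
  · rwa [inv_mul_le_iff₀ hr]

omit [FiniteDimensional ℝ E] in
/-- Squeezing between the cones at the two ends of an almost straight path. -/
theorem cone_squeeze {P A B y e' : E} {Λ T ω : ℝ} (hT : 0 < T) (hΛ : 1 / 2 ≤ Λ) (hΛ2 : Λ ≤ 2)
    (hω0 : 0 ≤ ω) (hω : ω ≤ 1 / 32) (hA : ‖A - P‖ ≤ Λ * T) (hB : ‖P - B‖ ≤ Λ * T)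
    (hAu : (Λ ^ 2 - ω) * T ≤ u A - u P) (hBu : (Λ ^ 2 - ω) * T ≤ u P - u B)
    (hAB : u A - u B ≤ Λ * ‖A - B‖) (hAy : u A - u y ≤ Λ * ‖A - y‖)
    (hyB : u y - u B ≤ Λ * ‖y - B‖) (hw : 0 < ‖A - B‖) (he' : e' = ‖A - B‖⁻¹ • (A - B))
    (hy : |⟪e', y - P⟫| ≤ Λ * T / 4) :
    |u y - u P - Λ * ⟪e', y - P⟫| ≤ 33 * ω * T +
      2 * ⟪(y - P) - ⟪e', y - P⟫ • e', (y - P) - ⟪e', y - P⟫ • e'⟫ / T := by
  have hΛ0 : 0 < Λ := by linarith
  set ℓ := Λ * T with hℓ
  have hℓ0 : 0 < ℓ := mul_pos hΛ0 hT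
  have he : ‖e'‖ = 1 := by
    rw [he', norm_smul, norm_inv, norm_norm, inv_mul_cancel₀ hw.ne']
  set z := y - P with hz
  set a := A - P with ha
  set b := P - B with hb
  have hab : ⟪e', a⟫ + ⟪e', b⟫ = ‖A - B‖ := by
    rw [← inner_add_right, show a + b = A - B by rw [ha, hb]; abel, he', real_inner_smul_left,
      real_inner_self_eq_norm_sq]
    field_simp
  have hle : ∀ x : E, ⟪e', x⟫ ≤ ‖x‖ := fun x =>
    (real_inner_le_norm e' x).trans (by rw [he, one_mul])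
  have hsum : 2 * ℓ - 4 * ω * T ≤ ‖A - B‖ := by
    refine le_of_mul_le_mul_left ?_ hΛ0
    have h1 : 2 * (Λ ^ 2 - ω) * T ≤ Λ * ‖A - B‖ := by linarith
    have h2 := mul_le_mul_of_nonneg_right hΛ (mul_nonneg hω0 hT.le)
    rw [hℓ]; linarith
  have ha1 : ℓ - 4 * ω * T ≤ ⟪e', a⟫ := by linarith [(hle b).trans hB]
  have hb1 : ℓ - 4 * ω * T ≤ ⟪e', b⟫ := by linarith [(hle a).trans hA]
  have h4 : 4 * ω * T ≤ ℓ / 4 := by
    have h1 := mul_le_mul_of_nonneg_right hω hT.le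
    have h2 := mul_le_mul_of_nonneg_right hΛ hT.le
    rw [hℓ]; linarith
  have hperp : ∀ c : E, ‖c‖ ≤ ℓ → ℓ - 4 * ω * T ≤ ⟪e', c⟫ →
      ⟪c - ⟪e', c⟫ • e', c - ⟪e', c⟫ • e'⟫ ≤ 8 * ω * T * ℓ := fun c hc hc' => by
    have e1 : ⟪c - ⟪e', c⟫ • e', c - ⟪e', c⟫ • e'⟫ = ‖c‖ ^ 2 - ⟪e', c⟫ ^ 2 := by
      rw [inner_sub_left, inner_sub_right, inner_sub_right, real_inner_smul_left,
        real_inner_smul_left, real_inner_smul_right, real_inner_smul_right, real_inner_comm e' c,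
        real_inner_self_eq_norm_sq e', he, real_inner_self_eq_norm_sq]
      ring
    rw [e1]
    have h1 := pow_le_pow_left₀ (norm_nonneg c) hc 2
    have h2 := pow_le_pow_left₀ (by linarith) hc' 2
    linarith [sq_nonneg (4 * ω * T)]
  have hside : ∀ c x : E, ‖c‖ ≤ ℓ → ℓ - 4 * ω * T ≤ ⟪e', c⟫ → -(ℓ / 4) ≤ ⟪e', x⟫ →
      Λ * ‖c + x‖ ≤ Λ * (ℓ + ⟪e', x⟫) + 32 * ω * T +
        2 * ⟪x - ⟪e', x⟫ • e', x - ⟪e', x⟫ • e'⟫ / T := fun c x hc hc' hx => by
    have h1 := mul_le_mul_of_nonneg_left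
      (norm_le_long he hℓ0 (w := c + x) (by rw [inner_add_right]; linarith)) hΛ0.le
    refine h1.trans ?_
    rw [inner_add_right]
    set p := c - ⟪e', c⟫ • e' with hp
    set q := x - ⟪e', x⟫ • e' with hq
    rw [show c + x - (⟪e', c⟫ + ⟪e', x⟫) • e' = p + q by rw [hp, hq, add_smul]; abel]
    have h2 : ⟪p + q, p + q⟫ ≤ 2 * ⟪p, p⟫ + 2 * ⟪q, q⟫ := by
      rw [real_inner_self_eq_norm_sq, real_inner_self_eq_norm_sq, real_inner_self_eq_norm_sq]
      linarith [sq_nonneg ‖p - q‖, norm_add_sq_real p q, norm_sub_sq_real p q]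
    have h3 := hperp c hc hc'
    rw [← hp] at h3
    have h4' : Λ * (⟪p + q, p + q⟫ / ℓ) ≤ 32 * ω * T + 2 * ⟪q, q⟫ / T := by
      have e1 : Λ * (⟪p + q, p + q⟫ / ℓ) = ⟪p + q, p + q⟫ / T := by rw [hℓ]; field_simp
      rw [e1, div_le_iff₀ hT, add_mul, div_mul_cancel₀ _ hT.ne']
      have h5 : 2 * (8 * ω * T * ℓ) ≤ 32 * ω * T * T := by
        have := mul_le_mul_of_nonneg_left hΛ2 (mul_nonneg (mul_nonneg hω0 hT.le) hT.le)
        rw [hℓ]; linarith
      linarith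
    have h7 : Λ * ⟪e', c⟫ ≤ Λ * ℓ := mul_le_mul_of_nonneg_left ((hle c).trans hc) hΛ0.le
    linarith
  have eℓ : Λ * ℓ = Λ ^ 2 * T := by rw [hℓ]; ring
  rw [abs_le] at hy ⊢
  constructor
  · have h := hside a (-z) hA ha1 (by rw [inner_neg_right]; linarith)
    rw [inner_neg_right, show a + -z = A - y by rw [ha, hz]; abel] at h
    rw [show -z - -⟪e', z⟫ • e' = -(z - ⟪e', z⟫ • e') by rw [neg_smul]; abel,
      inner_neg_neg] at h
    linarith
  · have h := hside b z hB hb1 (by linarith)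
    rw [show b + z = y - B by rw [hb, hz]; abel] at h
    linarith

omit [FiniteDimensional ℝ E] in
/-- The transversal part with respect to a nearby direction. -/
theorem perp_near {e e' x : E} (he' : ‖e'‖ = 1) {d b D : ℝ} (he : ‖e‖ = 1) (hd : 0 < d)
    (hd1 : d ≤ 1) (hb : 0 ≤ b) (hx : aForm e (d ^ 2) x x ≤ b ^ 2) (hD : ‖e' - e‖ ≤ d * D) :
    ⟪x - ⟪e', x⟫ • e', x - ⟪e', x⟫ • e'⟫ ≤ (d * b * (1 + D)) ^ 2 := by
  set t := ⟪e, x⟫ with ht
  have hδ : 0 < d ^ 2 := by positivity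
  have hδ1 : d ^ 2 ≤ 1 := pow_le_one₀ hd.le hd1
  have h1 : ‖x - t • e‖ ≤ d * b := by
    rw [← pow_le_pow_iff_left₀ (norm_nonneg _) (by positivity) two_ne_zero,
      ← real_inner_self_eq_norm_sq, ht, aForm_perp he hδ, mul_pow]
    exact mul_le_mul_of_nonneg_left (by linarith [sq_nonneg ⟪e, x⟫]) hδ.le
  have h2 : |t| ≤ b := by
    rw [← pow_le_pow_iff_left₀ (abs_nonneg _) hb two_ne_zero, sq_abs]
    exact (inner_le_sq he x).trans ((le_aForm he hδ hδ1 x).trans hx)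
  have h3 : ‖x - t • e'‖ ≤ d * b * (1 + D) := by
    rw [show x - t • e' = (x - t • e) - t • (e' - e) by rw [smul_sub]; abel]
    refine (norm_sub_le _ _).trans ?_
    rw [norm_smul, Real.norm_eq_abs]
    linarith [mul_le_mul h2 hD (norm_nonneg _) hb]
  refine le_trans ?_ (pow_le_pow_left₀ (norm_nonneg _) h3 2)
  rw [← real_inner_self_eq_norm_sq]
  simp only [inner_sub_left, inner_sub_right, real_inner_smul_left, real_inner_smul_right,
    real_inner_comm e' x, real_inner_self_eq_norm_sq e', he']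
  linarith [sq_nonneg (t - ⟪e', x⟫)]

/-- Pigeonhole for a nonincreasing sequence of bounded total drop. -/
theorem small_drop {S : ℕ → ℝ} {N : ℕ} {A η : ℝ} (h : S 0 - S N ≤ A) (hN : A < N * η) :
    ∃ k < N, S k - S (k + 1) ≤ η := by
  by_contra hcon
  push Not at hcon
  have := Finset.card_nsmul_le_sum (Finset.range N) (fun k => S k - S (k + 1)) η
    (fun k hk => (hcon k (Finset.mem_range.1 hk)).le)
  rw [Finset.sum_range_sub', Finset.card_range, nsmul_eq_mul] at this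
  linarith

/-- Flatness `d²` on the window gives flatness `d² / 4` on a smaller window. -/
theorem improve (hu : ContDiffOn ℝ 3 u (ball 0 1))
    (heq : ∀ z ∈ ball (0 : E) 1, fderiv ℝ (fderiv ℝ u) z (gradient u z) (gradient u z) = 0)
    {e : E} (he : ‖e‖ = 1) {d : ℝ} (hd : 0 < d) (hd2 : d ^ 2 ≤ 1 / 10 ^ 9)
    (hflat : ∀ y, aForm e (d ^ 2) y y ≤ 1 / 4 → |u y - ⟪e, y⟫| ≤ d ^ 2)
    (hG2 : ∀ y, aForm e (d ^ 2) y y ≤ 1 / 4 → ‖gradient u y‖ ≤ 2)
    {N : ℕ} {η κ : ℝ} (hη : η = 1 / 10000) (hκ : κ = 1 / 10 ^ 9) (hN : 76800 < N * η) :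
    ∃ ρ Λ e', κ ^ N / 160000 ≤ ρ ∧ ρ ≤ 1 ∧ 99 / 100 ≤ Λ ∧ Λ ≤ 101 / 100 ∧ ‖e'‖ = 1 ∧
      ∀ y, aForm e' (d ^ 2 / 4) y y ≤ ρ ^ 2 / 4 →
        ‖gradient u y‖ ≤ Λ ∧ |u y - u 0 - Λ * ⟪e', y⟫| ≤ ρ * Λ * (d ^ 2 / 4) := by
  have hd1 : d ≤ 1 := by
    rw [← pow_le_pow_iff_left₀ hd.le zero_le_one two_ne_zero]; linarith
  set δ := d ^ 2 with hδdef
  have hδ : 0 < δ := by positivity
  have hδ1 : δ ≤ 1 := by linarith
  have hκ0 : 0 < κ := by rw [hκ]; norm_num
  have hκ1 : κ ≤ 1 := by rw [hκ]; norm_num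
  let ρ : ℕ → ℝ := fun k => κ ^ k / 8
  let W : ℕ → Set E := fun k => {y | aForm e δ y y ≤ ρ k ^ 2}
  have hρ0 : ∀ k, 0 < ρ k := fun k => by positivity
  have hρ8 : ∀ k, ρ k ≤ 1 / 8 := fun k =>
    div_le_div_of_nonneg_right (pow_le_one₀ hκ0.le hκ1) (by norm_num)
  have hρ2 : ∀ k, ρ k ^ 2 ≤ 1 / 64 := fun k => by
    have := pow_le_pow_left₀ (hρ0 k).le (hρ8 k) 2
    linarith
  have hsub4 : ∀ y, aForm e δ y y ≤ 1 / 4 → y ∈ ball (0 : E) 1 := fun y hy => by
    rw [mem_ball_zero_iff, ← pow_lt_pow_iff_left₀ (norm_nonneg y) zero_le_one two_ne_zero,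
      ← real_inner_self_eq_norm_sq]
    linarith [le_aForm he hδ hδ1 y]
  have hW4 : ∀ k, ∀ y ∈ W k, aForm e δ y y ≤ 1 / 4 := fun k y hy => by
    have h : aForm e δ y y ≤ ρ k ^ 2 := hy
    linarith [hρ2 k]
  have hest : ∀ k, ∀ y ∈ W k, |1 - ⟪gradient u y, gradient u y⟫| ≤ 38400 * δ ∧
      ‖gradient u y - e‖ ^ 2 ≤ 5062500 * δ := fun k y hy =>
    window_est isOpen_ball hu heq he hδ hδ1 hsub4 hflat hG2 (le_trans hy (hρ2 k))
  have hdir : ∀ k, ∀ y ∈ W k, ‖gradient u y - e‖ ≤ 2250 * d := fun k y hy => by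
    rw [← pow_le_pow_iff_left₀ (norm_nonneg _) (by positivity) two_ne_zero, mul_pow, ← hδdef]
    linarith [(hest k y hy).2]
  have hvel : ∀ k, ∀ y ∈ W k,
      aForm e δ (gradient u y) (gradient u y) ≤ (2251 : ℝ) ^ 2 := fun k y hy => by
    refine (aForm_vel_le he hδ (hG2 y (hW4 k y hy))).trans ?_
    rw [real_inner_self_eq_norm_sq]
    have h : ‖gradient u y - e‖ ^ 2 / δ ≤ 5062500 := by
      rw [div_le_iff₀ hδ]; exact (hest k y hy).2
    linarith
  -- the maxima of the squared gradient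
  have hmax : ∀ k, ∃ P ∈ W k, ∀ y ∈ W k,
      ⟪gradient u y, gradient u y⟫ ≤ ⟪gradient u P, gradient u P⟫ := fun k => by
    have hc : ContinuousOn (gradient u) (W k) := fun y hy =>
      (hasFDerivAt_gradient isOpen_ball hu (hsub4 y (hW4 k y hy))).continuousAt.continuousWithinAt
    obtain ⟨P, hP, hPm⟩ := (isCompact_window he hδ hδ1 (ρ k ^ 2)).exists_isMaxOn
      ⟨0, by simp [aForm_eq, sq_nonneg]⟩ (show ContinuousOn
        (fun y => ⟪gradient u y, gradient u y⟫) (W k) from hc.inner hc)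
    exact ⟨P, hP, fun y hy => hPm hy⟩
  choose P hPW hPmax using hmax
  let S : ℕ → ℝ := fun k => ⟪gradient u (P k), gradient u (P k)⟫
  obtain ⟨k, hkN, hk⟩ := small_drop (S := S) (A := 76800 * δ) (η := η * δ) (N := N) (by
    have h1 := abs_le.1 (hest 0 (P 0) (hPW 0)).1
    have h2 := abs_le.1 (hest N (P N) (hPW N)).1
    show ⟪gradient u (P 0), gradient u (P 0)⟫ - ⟪gradient u (P N), gradient u (P N)⟫ ≤ _
    linarith) (by rw [← mul_assoc]; exact mul_lt_mul_of_pos_right hN hδ)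
  set Λ := Real.sqrt (S k) with hΛdef
  have hSk := abs_le.1 (hest k (P k) (hPW k)).1
  have hΛ2 : Λ ^ 2 = S k := Real.sq_sqrt real_inner_self_nonneg
  have hΛlo : 99 / 100 ≤ Λ := by
    rw [← pow_le_pow_iff_left₀ (by norm_num) (Real.sqrt_nonneg _) two_ne_zero, hΛ2]
    show _ ≤ ⟪gradient u (P k), gradient u (P k)⟫
    linarith
  have hΛhi : Λ ≤ 101 / 100 := by
    rw [← pow_le_pow_iff_left₀ (Real.sqrt_nonneg _) (by norm_num) two_ne_zero, hΛ2]
    show ⟪gradient u (P k), gradient u (P k)⟫ ≤ _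
    linarith
  have hnorm : ∀ y ∈ W k, ‖gradient u y‖ ≤ Λ := fun y hy => by
    rw [← pow_le_pow_iff_left₀ (norm_nonneg _) (Real.sqrt_nonneg _) two_ne_zero, hΛ2,
      ← real_inner_self_eq_norm_sq]
    exact hPmax k y hy
  set Q := P (k + 1) with hQ
  set b := ρ (k + 1) with hb
  set r := ρ k with hr
  set T := r / 2500 with hT
  have hbT : b = κ * 2500 * T := by
    rw [hb, hT, hr]; simp only [ρ, pow_succ]; ring
  have hr0 : 0 < r := hρ0 k
  have hT0 : 0 < T := by positivity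
  have hb0 : 0 ≤ b := (hρ0 _).le
  have hbT' : b ≤ T / 400000 := by rw [hbT, hκ]; linarith
  have hQB : aForm e δ Q Q ≤ b ^ 2 := hPW (k + 1)
  have hbr : b + 2251 * T ≤ r := by rw [hT] at hbT' ⊢; linarith
  have hηd : 0 < η * δ := mul_pos (by rw [hη]; norm_num) hδ
  obtain ⟨A, hAW, hAn, hAd, hAu⟩ := ascend isOpen_ball hu heq he hδ hδ1 hb0 (K := 2251)
    (by norm_num) hT0 (Λ := Λ) (by linarith) (ε := η * δ) hηd hQB hbr
    (fun y hy => hsub4 y (hW4 k y hy)) hnorm (hvel k) (hdir k)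
  have hng : ∀ y ∈ ball (0 : E) 1, gradient (fun y => -u y) y = -gradient u y := fun y _ => by
    unfold gradient; rw [fderiv_fun_neg, map_neg]
  obtain ⟨B, hBW, hBn, hBd, hBu⟩ := ascend isOpen_ball hu.neg (classical_neg heq) (e := -e)
    (P := Q) (by rw [norm_neg, he]) hδ hδ1 hb0 (K := 2251)
    (by norm_num) hT0 (Λ := Λ) (D := 2250 * d) (by linarith) (ε := η * δ) hηd
    (by simpa [aForm_eq] using hQB) hbr
    (fun y hy => hsub4 y (hW4 k y (by simpa [W, aForm_eq] using hy)))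
    (fun y hy => by
      have hy' : y ∈ W k := by simpa [W, aForm_eq] using hy
      rw [hng y (hsub4 y (hW4 k y hy')), norm_neg]
      exact hnorm y hy')
    (fun y hy => by
      have hy' : y ∈ W k := by simpa [W, aForm_eq] using hy
      rw [hng y (hsub4 y (hW4 k y hy'))]
      simpa [aForm_eq] using hvel k y hy')
    (fun y hy => by
      have hy' : y ∈ W k := by simpa [W, aForm_eq] using hy
      rw [hng y (hsub4 y (hW4 k y hy')), ← neg_sub', norm_neg]
      exact hdir k y hy')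
  have hBW' : B ∈ W k := by simpa [W, aForm_eq] using hBW
  rw [hng Q (hsub4 Q (hW4 (k + 1) Q (hPW (k + 1)))), inner_neg_neg] at hBu
  set ω := 2 * (η * δ) with hω
  have hvQ : Λ ^ 2 - ω ≤ ⟪gradient u Q, gradient u Q⟫ - η * δ := by
    rw [hΛ2, hω, hQ]
    linarith
  have hAu' : (Λ ^ 2 - ω) * T ≤ u A - u Q := (mul_le_mul_of_nonneg_right hvQ hT0.le).trans hAu
  have hBu' : (Λ ^ 2 - ω) * T ≤ u Q - u B := by
    have := (mul_le_mul_of_nonneg_right hvQ hT0.le).trans hBu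
    linarith
  have hBn' : ‖Q - B‖ ≤ Λ * T := by rw [norm_sub_rev]; exact hBn
  have hstraight : ‖(A - B) - (2 * T) • e‖ ≤ 2 * T * (2250 * d) := by
    rw [show (A - B) - (2 * T) • e = (A - Q - T • e) - (B - Q - T • -e) by module]
    refine (norm_sub_le _ _).trans ?_
    linarith
  have hd20 : d ≤ 1 / 20000 := by
    rw [← pow_le_pow_iff_left₀ hd.le (by norm_num) two_ne_zero, ← hδdef]; linarith
  obtain ⟨hw, hclose⟩ := unit_close he (by linarith) (by linarith) hstraight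
  set e' := ‖A - B‖⁻¹ • (A - B) with he'def
  have he' : ‖e'‖ = 1 := by rw [he'def, norm_smul, norm_inv, norm_norm, inv_mul_cancel₀ hw.ne']
  have hclose' : ‖e' - e‖ ≤ d * 4500 := hclose.trans (le_of_eq (by ring))
  refine ⟨T / 8, Λ, e', ?_, ?_, hΛlo, hΛhi, he', fun y hy => ?_⟩
  · have h1 : κ ^ N ≤ κ ^ k := pow_le_pow_of_le_one hκ0.le hκ1 (by omega)
    rw [hT, hr]
    simp only [ρ]
    linarith
  · rw [hT]; linarith [hρ8 k]
  have hδ4 : 0 < δ / 4 := by positivity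
  have hn1 := le_aForm he' hδ4 (by linarith) y
  have hyn : ‖y‖ ≤ T / 16 := by
    rw [← pow_le_pow_iff_left₀ (norm_nonneg y) (by positivity) two_ne_zero,
      ← real_inner_self_eq_norm_sq]
    linarith
  have hperp_y : ⟪y - ⟪e', y⟫ • e', y - ⟪e', y⟫ • e'⟫ ≤ δ / 4 * (T / 16) ^ 2 := by
    rw [aForm_perp he' hδ4]
    exact mul_le_mul_of_nonneg_left (by linarith [sq_nonneg ⟪e', y⟫]) hδ4.le
  have hyin : |⟪e', y⟫| ≤ T / 16 := (abs_real_inner_le_norm e' y).trans (by rwa [he', one_mul])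
  have hyW : y ∈ W k := by
    have h1 : ‖y - ⟪e', y⟫ • e‖ ≤ d * (T / 16) * 4501 := by
      rw [show y - ⟪e', y⟫ • e = (y - ⟪e', y⟫ • e') + ⟪e', y⟫ • (e' - e) by
        rw [smul_sub]; abel]
      refine (norm_add_le _ _).trans ?_
      have h2 : ‖y - ⟪e', y⟫ • e'‖ ≤ d * (T / 16) := by
        rw [← pow_le_pow_iff_left₀ (norm_nonneg _) (by positivity) two_ne_zero,
          ← real_inner_self_eq_norm_sq, mul_pow, ← hδdef]
        linarith [mul_nonneg hδ.le (sq_nonneg (T / 16))]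
      rw [norm_smul, Real.norm_eq_abs]
      linarith [mul_le_mul hyin hclose' (norm_nonneg _) (by positivity)]
    have h3 := pow_le_pow_left₀ (norm_nonneg _) h1 2
    have h4 : ⟪y - ⟪e', y⟫ • e, y - ⟪e', y⟫ • e⟫ / δ ≤ (T / 16) ^ 2 * 4501 ^ 2 := by
      rw [div_le_iff₀ hδ, real_inner_self_eq_norm_sq]
      rw [mul_pow, mul_pow, ← hδdef] at h3
      linarith
    have h5 := inner_le_sq he y
    rw [real_inner_self_eq_norm_sq] at h5
    have h6 := pow_le_pow_left₀ (norm_nonneg y) hyn 2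
    show aForm e δ y y ≤ r ^ 2
    rw [hT] at h4 h6
    linarith [aForm_le_dist he hδ ⟪e', y⟫ y, sq_nonneg r]
  refine ⟨hnorm y hyW, ?_⟩
  have h0W : (0 : E) ∈ W k := by simp [W, aForm_eq, sq_nonneg]
  have hlip : ∀ v ∈ W k, ∀ w ∈ W k, u v - u w ≤ Λ * ‖v - w‖ := fun v hv w hw' =>
    lip_of_grad isOpen_ball hu (convex_window he hδ hδ1 hr0.le)
      (fun y hy => hsub4 y (hW4 k y hy)) hnorm hv hw'
  have hperp_Q := perp_near he' he hd hd1 hb0 hQB hclose'
  have hQn : |⟪e', Q⟫| ≤ b := by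
    rw [← pow_le_pow_iff_left₀ (abs_nonneg _) hb0 two_ne_zero, sq_abs]
    exact (inner_le_sq he' Q).trans ((le_aForm he hδ hδ1 Q).trans hQB)
  have hΛT : 99 / 100 * T ≤ Λ * T := mul_le_mul_of_nonneg_right hΛlo hT0.le
  have hω0 : 0 ≤ ω := by positivity
  have hω32 : ω ≤ 1 / 32 := by rw [hω, hη]; linarith
  have hsq : ∀ z ∈ W k, |⟪e', z⟫| ≤ T / 16 →
      |u z - u Q - Λ * ⟪e', z - Q⟫| ≤ 33 * ω * T +
        2 * ⟪(z - Q) - ⟪e', z - Q⟫ • e', (z - Q) - ⟪e', z - Q⟫ • e'⟫ / T := fun z hz hz' => by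
    refine cone_squeeze hT0 (by linarith) (by linarith) hω0 hω32 hAn hBn' hAu' hBu'
      (hlip A hAW B hBW') (hlip A hAW z hz) (hlip z hz B hBW') hw he'def ?_
    rw [inner_sub_right, abs_le]
    rw [abs_le] at hz' hQn
    constructor <;> linarith
  have hy2 := hsq y hyW hyin
  have h02 := hsq 0 h0W (by rw [inner_zero_right, abs_zero]; positivity)
  set pQ := Q - ⟪e', Q⟫ • e' with hpQ
  set py := y - ⟪e', y⟫ • e' with hpy
  have e0 : ((0 : E) - Q) - ⟪e', (0 : E) - Q⟫ • e' = -pQ := by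
    rw [zero_sub, inner_neg_right, hpQ, neg_smul]; abel
  have e1 : (y - Q) - ⟪e', y - Q⟫ • e' = py - pQ := by
    rw [inner_sub_right, sub_smul, hpQ, hpy]; abel
  have e2 : ⟪py - pQ, py - pQ⟫ ≤ 2 * ⟪py, py⟫ + 2 * ⟪pQ, pQ⟫ := by
    rw [real_inner_self_eq_norm_sq, real_inner_self_eq_norm_sq, real_inner_self_eq_norm_sq]
    linarith [sq_nonneg ‖py + pQ‖, norm_add_sq_real py pQ, norm_sub_sq_real py pQ]
  rw [e0, inner_neg_neg, inner_sub_right, inner_zero_right, zero_sub] at h02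
  rw [e1, inner_sub_right] at hy2
  have e3 : 2 * ⟪py - pQ, py - pQ⟫ / T + 2 * ⟪pQ, pQ⟫ / T ≤
      (4 * (δ / 4 * (T / 16) ^ 2) + 6 * (d * b * (1 + 4500)) ^ 2) / T := by
    rw [← add_div]
    exact div_le_div_of_nonneg_right (by linarith) hT0.le
  have e4 : (4 * (δ / 4 * (T / 16) ^ 2) + 6 * (d * b * (1 + 4500)) ^ 2) / T ≤
      δ * T / 200 := by
    rw [div_le_iff₀ hT0, mul_pow, mul_pow, ← hδdef]
    have h1 := mul_le_mul_of_nonneg_left (pow_le_pow_left₀ hb0 hbT' 2) hδ.le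
    linarith [mul_nonneg hδ.le (sq_nonneg T)]
  have e5 : 33 * ω * T + 33 * ω * T ≤ δ * T * (14 / 1000) := by
    rw [hω, hη]; linarith [mul_pos hδ hT0]
  have e6 : δ * T * (99 / 3200) ≤ T / 8 * Λ * (δ / 4) := by
    linarith [mul_le_mul_of_nonneg_left hΛlo (mul_pos hδ hT0).le]
  rw [abs_le] at hy2 h02 ⊢
  constructor <;> linarith [mul_pos hδ hT0]

end Vale.Agent.P080
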