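import Vale.Agent.P080.Aniso

/-!
Bernstein estimates on anisotropic windows (P080): a classical infinity-harmonic function that is
`δ`-close to `⟪e, ·⟫` on the window of length `1` and width `√δ` has `|Du|² = 1 + O(δ)` and
`|Du - e|² = O(δ)` on a smaller window.
-/

namespace Vale.Agent.P080

open Metric Set Filter Topology
open scoped RealInnerProductSpace

theorem upper_scalar {n R φ σ B p G : ℝ} (hn : 0 < n) (hn4 : n ≤ 1 / 4) (hR : 0 ≤ R) (hφ : 0 ≤ φ)
    (hσ : 2 * σ = φ + R) (hB0 : 0 ≤ B) (hB : B ≤ 4 + φ) (hp : p ^ 2 ≤ B / 4)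
    (hG : n ^ 2 * G ≤ 8 + n ^ 2 * φ / 32)
    (h : n ^ 2 * σ ^ 2 / 8 ≤ 8 * p ^ 2 + 4 * n * B + R * (n ^ 2 * G) / 2) : n ^ 2 * R ≤ 150 := by
  set S := φ + R with hS
  have h1 := mul_le_mul_of_nonneg_left hG hR
  have h2 : σ ^ 2 = S ^ 2 / 4 := by rw [← hσ]; ring
  have h3 := mul_le_mul_of_nonneg_right hn4 hB0
  have h4 : R * φ ≤ S ^ 2 / 4 := by rw [hS]; linarith [sq_nonneg (φ - R)]
  have h5 := mul_le_mul_of_nonneg_left h4 (sq_nonneg n)
  rw [h2] at h
  have h6 : 7 / 256 * (n ^ 2 * S ^ 2) ≤ 12 + 4 * S := by linarith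
  have h7 := mul_le_mul_of_nonneg_left h6 (sq_nonneg n)
  have hn2 := pow_le_pow_left₀ hn.le hn4 2
  have h8 : n ^ 2 * R ≤ n ^ 2 * S := mul_le_mul_of_nonneg_left (by linarith) (sq_nonneg n)
  refine h8.trans (not_lt.1 fun hlt => ?_)
  have h9 := mul_le_mul_of_nonneg_right hlt.le
    (mul_nonneg (sq_nonneg n) (show 0 ≤ S by linarith))
  linarith

theorem lower_scalar {n Q φ σ B p G : ℝ} (hn : 0 < n) (hn4 : n ≤ 1 / 4) (hQ : 0 ≤ Q)
    (hφ : φ = 2 * σ + 2 * Q) (hσp : n * σ = 4 * p) (hB0 : 0 ≤ B) (hB : B ≤ 4 + φ)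
    (hp : p ^ 2 ≤ B / 4) (hG : n ^ 2 * φ / 2 - 4 ≤ n ^ 2 * G)
    (h : Q * (n ^ 2 * G) ≤ 8 * p ^ 2 + 4 * n * B) : n ^ 2 * Q ≤ 50 := by
  have e : (n ^ 2 * σ) ^ 2 = 16 * (n ^ 2 * p ^ 2) := by
    rw [show n ^ 2 * σ = n * (n * σ) by ring, hσp]; ring
  have h1 := mul_le_mul_of_nonneg_left hp (sq_nonneg n)
  have hσ1 : |2 * (n ^ 2 * σ)| ≤ n ^ 2 * B / 8 + 32 := by
    rw [abs_le]
    constructor <;> linarith [sq_nonneg (n ^ 2 * σ - 32), sq_nonneg (n ^ 2 * σ + 32)]
  rw [abs_le] at hσ1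
  subst hφ
  have hn2 := pow_le_pow_left₀ hn.le hn4 2
  have h2 := mul_le_mul_of_nonneg_left hB (sq_nonneg n)
  set T := n ^ 2 * Q with hT
  have hB2 : n ^ 2 * B ≤ 38 + 3 * T := by linarith [mul_nonneg (sq_nonneg n) hQ]
  have h3 := mul_le_mul_of_nonneg_left hG hQ
  have h4 := mul_le_mul_of_nonneg_right hn4 hB0
  have h5 : Q * (n ^ 2 * (2 * σ + 2 * Q) / 2 - 4) ≤ 3 * B := by linarith
  have h6 := mul_le_mul_of_nonneg_left h5 (sq_nonneg n)
  have hT0 : 0 ≤ T := mul_nonneg (sq_nonneg n) hQ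
  have h7 : T * (13 / 16 * T - 45 / 2) ≤ 3 * (n ^ 2 * B) := by
    have h8 := mul_le_mul_of_nonneg_left (show 13 / 16 * T - 45 / 2 ≤
        n ^ 2 * (2 * σ + 2 * Q) / 2 - 4 by linarith) hT0
    have e2 : n ^ 2 * (Q * (n ^ 2 * (2 * σ + 2 * Q) / 2 - 4)) =
        T * (n ^ 2 * (2 * σ + 2 * Q) / 2 - 4) := by rw [hT]; ring
    linarith
  refine not_lt.1 fun hlt => ?_
  have h8 := mul_le_mul_of_nonneg_right hlt.le hT0
  linarith

theorem aDir_scalar {n φ σ q B p c AA az fd : ℝ} (hn : 0 < n) (hn16 : n ≤ 1 / 16) (hφ : 0 < φ)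
    (hφq : φ = 2 * σ + q) (hq : |q| ≤ 38400) (hc : |c| ≤ 1 / 8) (hB0 : 0 ≤ B) (hB : B ≤ 4 + φ)
    (hp : p ^ 2 ≤ B / 16) (haz : az ^ 2 ≤ AA / 16) (hfd : n * fd = φ * (4 * p - n * c * σ))
    (h : (8 * p ^ 2 - 4 * n * B - 8 * n * p * c * σ + n ^ 2 * (σ ^ 2 / 8 + c ^ 2 * σ ^ 2)) * φ +
      (-8 * n * p + 2 * n ^ 2 * c * σ) * fd +
      n ^ 2 * (2 * AA + 2 * φ * (-4 * az / n + c * (fd / 2))) ≤ 0) : n ^ 2 * φ ≤ 1000 := by
  set t := n * σ with ht
  have hX : (-8 * n * p + 2 * n ^ 2 * c * σ) * fd = φ * (-2 * (4 * p - c * t) ^ 2) := by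
    linear_combination (-8 * p + 2 * n * c * σ) * hfd
  have hY : n ^ 2 * (2 * φ * (c * (fd / 2))) = φ * (c * (2 * t + n * q) * (4 * p - c * t)) := by
    have : n ^ 2 * (2 * φ * (c * (fd / 2))) = n * φ * c * (n * fd) := by ring
    rw [this, hfd, hφq, ht]
    ring
  have hZ : -(φ * (φ / 2)) ≤ n ^ 2 * (2 * AA) + n ^ 2 * (2 * φ * (-4 * az / n)) := by
    have e : n ^ 2 * (2 * φ * (-4 * az / n)) = -8 * φ * (n * az) := by field_simp; ring
    rw [e]
    have h1 := mul_le_mul_of_nonneg_left haz (sq_nonneg n)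
    linarith [sq_nonneg (φ - 8 * (n * az))]
  have hkey : φ * (8 * p ^ 2 - 4 * n * B - 8 * p * c * t + t ^ 2 / 8 + c ^ 2 * t ^ 2
      - 2 * (4 * p - c * t) ^ 2 + c * (2 * t + n * q) * (4 * p - c * t) - φ / 2) ≤ 0 := by
    rw [hX] at h
    linarith [hY, hZ]
  have hI := nonpos_of_mul_nonpos_right hkey hφ
  have hc2 : c ^ 2 ≤ 1 / 64 := by
    linarith [sq_le_sq' (abs_le.1 hc).1 (abs_le.1 hc).2]
  have hw : (n * q * c) ^ 2 ≤ 90000 := by
    have h1 : |n * q * c| ≤ 300 := by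
      rw [abs_mul, abs_mul, abs_of_pos hn]
      exact (mul_le_mul (mul_le_mul hn16 hq (abs_nonneg _) (by norm_num)) hc (abs_nonneg _)
        (by norm_num)).trans (by norm_num)
    linarith [sq_le_sq' (abs_le.1 h1).1 (abs_le.1 h1).2]
  have hct : (c * t) ^ 2 ≤ t ^ 2 / 64 := by
    rw [mul_pow]
    linarith [mul_le_mul_of_nonneg_right hc2 (sq_nonneg t)]
  have b1 : -(t ^ 2 / 64 + 64 * p ^ 2) ≤ 16 * p * (c * t) := by
    linarith [sq_nonneg (8 * p + c * t)]
  have b2 : -(90000 + 4 * p ^ 2) ≤ n * q * c * (4 * p) := by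
    linarith [sq_nonneg (n * q * c + 2 * p)]
  have b3 : n * q * c * (c * t) ≤ 90000 + t ^ 2 / 64 := by
    linarith [sq_nonneg (n * q * c - c * t), sq_nonneg (n * q * c), sq_nonneg (c * t)]
  have hnB := mul_le_mul_of_nonneg_right hn16 hB0
  have hquad : 3 / 64 * t ^ 2 ≤ 7 * φ + 180100 := by linarith
  subst hφq
  have hn2 := pow_le_pow_left₀ hn.le hn16 2
  have h4 := mul_le_mul_of_nonneg_left hquad (sq_nonneg n)
  have h5 : n ^ 2 * q ≤ 150 := by
    have h1 := mul_le_mul_of_nonneg_left (abs_le.1 hq).2 (sq_nonneg n)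
    linarith
  have h6 : 3 / 64 * (n * t) ^ 2 ≤ 14 * (n * t) + 1760 := by
    have e1 : n ^ 2 * σ = n * t := by rw [ht]; ring
    linarith
  have h7 : n * t ≤ 400 := by
    refine not_lt.1 fun hlt => ?_
    have := mul_le_mul_of_nonneg_right hlt.le ((by norm_num : (0 : ℝ) ≤ 400).trans hlt.le)
    linarith
  rw [ht] at h7
  linarith

variable {E : Type*} [NormedAddCommGroup E] [InnerProductSpace ℝ E] [FiniteDimensional ℝ E]
variable {u : E → ℝ} {s : Set E}

omit [FiniteDimensional ℝ E] in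
theorem aForm_nonneg {e : E} (he : ‖e‖ = 1) {δ : ℝ} (hδ : 0 < δ) (hδ1 : δ ≤ 1) (x : E) :
    0 ≤ aForm e δ x x :=
  real_inner_self_nonneg.trans (le_aForm he hδ hδ1 x)

omit [FiniteDimensional ℝ E] in
theorem continuous_aForm (e : E) (δ : ℝ) : Continuous fun y => aForm e δ y y := by
  simp only [aForm_eq]; fun_prop

theorem isCompact_window {e : E} (he : ‖e‖ = 1) {δ : ℝ} (hδ : 0 < δ) (hδ1 : δ ≤ 1) (r : ℝ) :
    IsCompact {y : E | aForm e δ y y ≤ r} := by
  refine Metric.isCompact_of_isClosed_isBounded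
    (isClosed_le (continuous_aForm e δ) continuous_const) ?_
  refine (Metric.isBounded_closedBall (x := (0 : E)) (r := 1 + |r|)).subset fun y hy => ?_
  rw [mem_closedBall_zero_iff]
  have h : ‖y‖ ^ 2 ≤ r := by
    rw [← real_inner_self_eq_norm_sq]
    exact (le_aForm he hδ hδ1 y).trans hy
  have : 2 * ‖y‖ ≤ ‖y‖ ^ 2 + 1 := by linarith [sq_nonneg (‖y‖ - 1)]
  linarith [le_abs_self r, norm_nonneg y]

/-- If a weighted function is bounded at its interior maxima it is bounded on the window. -/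
theorem window_bound {e : E} (he : ‖e‖ = 1) {δ r k μ M : ℝ} (hδ : 0 < δ) (hδ1 : δ ≤ 1)
    (hkμ : |k| + |μ| ≤ 1) (hM : 0 ≤ M) (hu : ContinuousOn u {y | aForm e δ y y ≤ r})
    (hflat : ∀ y, aForm e δ y y ≤ r → |u y - ⟪e, y⟫| ≤ δ) {F : E → ℝ}
    (hF : ContinuousOn F {y | aForm e δ y y ≤ r})
    (hkey : ∀ z, 0 < r - aForm e δ z z → 0 < F z →
      IsLocalMax (fun y => (r - aForm e δ y y) ^ 2 *
        Real.exp (k * ((u y - ⟪e, y⟫) / δ) + μ * ((u y - ⟪e, y⟫) / δ) ^ 2) * F y) z →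
      (r - aForm e δ z z) ^ 2 * F z ≤ M)
    {x : E} (hx : aForm e δ x x ≤ r) : (r - aForm e δ x x) ^ 2 * F x ≤ 9 * M := by
  set K : E → ℝ := fun y => k * ((u y - ⟪e, y⟫) / δ) + μ * ((u y - ⟪e, y⟫) / δ) ^ 2 with hK
  set W : E → ℝ := fun y => (r - aForm e δ y y) ^ 2 * Real.exp (K y) * F y with hW
  have hK1 : ∀ y, aForm e δ y y ≤ r → |K y| ≤ 1 := fun y hy => by
    have hU : |(u y - ⟪e, y⟫) / δ| ≤ 1 := by
      rw [abs_div, abs_of_pos hδ, div_le_one hδ]; exact hflat y hy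
    refine (abs_add_le _ _).trans ?_
    rw [abs_mul, abs_mul, abs_pow]
    exact (add_le_add (mul_le_of_le_one_right (abs_nonneg _) hU)
      (mul_le_of_le_one_right (abs_nonneg _) (pow_le_one₀ (abs_nonneg _) hU))).trans hkμ
  have hWc : ContinuousOn W {y | aForm e δ y y ≤ r} := by
    have := (continuous_aForm e δ).continuousOn (s := {y | aForm e δ y y ≤ r})
    simp only [hW, hK]
    fun_prop
  obtain ⟨z, hzS, hzmax⟩ := (isCompact_window he hδ hδ1 r).exists_isMaxOn ⟨x, hx⟩ hWc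
  have hWz : W z ≤ 3 * M := by
    rcases le_or_gt (W z) 0 with h0 | h0
    · linarith
    have hne : r - aForm e δ z z ≠ 0 := fun h => by
      simp only [hW] at h0; rw [h] at h0; simp at h0
    have hnpos : 0 < r - aForm e δ z z := lt_of_le_of_ne (sub_nonneg.2 hzS) hne.symm
    have hFpos : 0 < F z := (pos_iff_pos_of_mul_pos h0).1 (by positivity)
    have hnh : {y | aForm e δ y y ≤ r} ∈ 𝓝 z :=
      mem_of_superset ((isOpen_lt (continuous_aForm e δ) continuous_const).mem_nhds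
        (show aForm e δ z z < r by linarith)) fun y (hy : aForm e δ y y < r) => hy.le
    have h1 := hkey z hnpos hFpos (hzmax.isLocalMax hnh)
    calc W z = (r - aForm e δ z z) ^ 2 * F z * Real.exp (K z) := by simp only [hW]; ring
      _ ≤ M * 3 := mul_le_mul h1 (exp_bounds_one (hK1 z hzS)).2 (Real.exp_pos _).le hM
      _ = 3 * M := mul_comm _ _
  have h := (hzmax hx).trans hWz
  rcases le_or_gt (F x) 0 with hF0 | hF0
  · have := mul_nonpos_of_nonneg_of_nonpos (sq_nonneg (r - aForm e δ x x)) hF0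
    linarith
  · have h2 := mul_le_mul_of_nonneg_left (exp_bounds_one (hK1 x hx)).1
      (mul_nonneg (sq_nonneg (r - aForm e δ x x)) hF0.le)
    have e1 : (r - aForm e δ x x) ^ 2 * F x * Real.exp (K x) = W x := by simp only [hW]; ring
    rw [e1] at h2
    have h3 : W x ≤ 3 * M := h
    linarith

omit [FiniteDimensional ℝ E] in
/-- Size of `(-4/n) M z + (c/δ) (V - e)`, from above. -/
theorem g_sq_le {e z w : E} (he : ‖e‖ = 1) {δ n c : ℝ} (hδ : 0 < δ) (hδ1 : δ ≤ 1) (hn : 0 < n)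
    (hz : aForm e δ z z ≤ 1 / 4) (hc : |c| ≤ 1 / 8) :
    n ^ 2 * (δ * ⟪(-4 / n) • aMap e δ z + (c / δ) • w, (-4 / n) • aMap e δ z + (c / δ) • w⟫) ≤
      8 + n ^ 2 * (⟪w, w⟫ / δ) / 32 := by
  set x := (-4 / n) • aMap e δ z with hx
  set y := (c / δ) • w with hy
  have h1 : ⟪x + y, x + y⟫ ≤ 2 * ⟪x, x⟫ + 2 * ⟪y, y⟫ := by
    have h := real_inner_self_nonneg (x := x - y)
    rw [inner_sub_left, inner_sub_right, inner_sub_right, real_inner_comm x y] at h
    rw [inner_add_left, inner_add_right, inner_add_right, real_inner_comm x y]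
    linarith
  refine (mul_le_mul_of_nonneg_left (mul_le_mul_of_nonneg_left h1 hδ.le) (sq_nonneg n)).trans ?_
  have ex : n ^ 2 * (δ * ⟪x, x⟫) = 16 * (δ * ⟪aMap e δ z, aMap e δ z⟫) := by
    simp only [hx, real_inner_smul_left, real_inner_smul_right]; field_simp; ring
  have ey : n ^ 2 * (δ * ⟪y, y⟫) = c ^ 2 * (n ^ 2 * (⟪w, w⟫ / δ)) := by
    simp only [hy, real_inner_smul_left, real_inner_smul_right]; field_simp
  have h2 := aMap_sq_le he hδ hδ1 z
  have hc2 : c ^ 2 ≤ 1 / 64 := by linarith [sq_le_sq' (abs_le.1 hc).1 (abs_le.1 hc).2]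
  have h3 := mul_le_mul_of_nonneg_right hc2
    (mul_nonneg (sq_nonneg n) (div_nonneg (real_inner_self_nonneg (x := w)) hδ.le))
  linarith

omit [FiniteDimensional ℝ E] in
/-- Size of `(-4/n) M z + (1/δ) (V - e)`, from below. -/
theorem g_sq_ge {e z w : E} (he : ‖e‖ = 1) {δ n : ℝ} (hδ : 0 < δ) (hδ1 : δ ≤ 1) (hn : 0 < n)
    (hz : aForm e δ z z ≤ 1 / 4) :
    n ^ 2 * (⟪w, w⟫ / δ) / 2 - 4 ≤
      n ^ 2 * (δ * ⟪(-4 / n) • aMap e δ z + (1 / δ) • w, (-4 / n) • aMap e δ z + (1 / δ) • w⟫) := by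
  set x := (-4 / n) • aMap e δ z with hx
  set y := (1 / δ) • w with hy
  have h1 : ⟪y, y⟫ / 2 - ⟪x, x⟫ ≤ ⟪x + y, x + y⟫ := by
    have h := real_inner_self_nonneg (x := (2 : ℝ) • x + y)
    simp only [inner_add_left, inner_add_right, real_inner_smul_left, real_inner_smul_right,
      real_inner_comm x y] at h ⊢
    linarith
  refine le_trans ?_ (mul_le_mul_of_nonneg_left (mul_le_mul_of_nonneg_left h1 hδ.le) (sq_nonneg n))
  have ex : n ^ 2 * (δ * ⟪x, x⟫) = 16 * (δ * ⟪aMap e δ z, aMap e δ z⟫) := by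
    simp only [hx, real_inner_smul_left, real_inner_smul_right]; field_simp; ring
  have ey : n ^ 2 * (δ * ⟪y, y⟫) = n ^ 2 * (⟪w, w⟫ / δ) := by
    simp only [hy, real_inner_smul_left, real_inner_smul_right]; field_simp
  have h2 := aMap_sq_le he hδ hδ1 z
  linarith

theorem inner_hess_gradient (hs : IsOpen s) (hu : ContDiffOn ℝ 3 u s) {z : E} (hz : z ∈ s) (ξ : E) :
    ⟪gradient u z, fderiv ℝ (gradient u) z ξ⟫ = ⟪fderiv ℝ (gradient u) z (gradient u z), ξ⟫ := by
  rw [real_inner_comm, hess_symm hs hu hz]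

theorem differentiableAt_hess (hs : IsOpen s) (hu : ContDiffOn ℝ 3 u s) {z : E} (hz : z ∈ s)
    (ξ : E) : DifferentiableAt ℝ (fun y => fderiv ℝ (gradient u) y ξ) z :=
  (((contDiffAt_gradient hs hu hz).fderiv_right (m := 1) (by norm_num)).differentiableAt
    (by norm_num)).clm_apply (differentiableAt_const ξ)

section Max

variable {e z : E} {δ : ℝ}

/-- The squared gradient from above, at an interior maximum. -/
theorem upper_at_max (hs : IsOpen s) (hu : ContDiffOn ℝ 3 u s)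
    (heq : ∀ z ∈ s, fderiv ℝ (fderiv ℝ u) z (gradient u z) (gradient u z) = 0)
    (he : ‖e‖ = 1) (hδ : 0 < δ) (hδ1 : δ ≤ 1) (hzs : z ∈ s) (hV : ‖gradient u z‖ ≤ 2)
    (hU : |(u z - ⟪e, z⟫) / δ| ≤ 1) (hn : 0 < 1 / 4 - aForm e δ z z)
    (hR : 0 < (⟪gradient u z, gradient u z⟫ - 1) / δ)
    (hmax : IsLocalMax (fun y => (1 / 4 - aForm e δ y y) ^ 2 *
      Real.exp ((0 : ℝ) * ((u y - ⟪e, y⟫) / δ) + 1 / 16 * ((u y - ⟪e, y⟫) / δ) ^ 2) *
      ((⟪gradient u y, gradient u y⟫ - 1) / δ)) z) :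
    (1 / 4 - aForm e δ z z) ^ 2 * ((⟪gradient u z, gradient u z⟫ - 1) / δ) ≤ 150 := by
  obtain ⟨hzero, hacc⟩ := grad_along hs hu heq hzs
  set V := gradient u z with hVdef
  set H := fderiv ℝ (gradient u) z with hH
  set a := H V with ha
  set f2 := -2 * ⟪a, a⟫ / δ with hf2
  obtain ⟨h1, h2⟩ := window_max hs hu heq hzs
    (F := fun y => (⟪gradient u y, gradient u y⟫ - 1) / δ)
    (F1 := fun y ξ => 2 * ⟪gradient u y, fderiv ℝ (gradient u) y ξ⟫ / δ) (f2 := f2)
    (fun ξ t ht => by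
      have hG := (line_derivs hs hu z ξ ht).2.2
      refine (((hG.inner ℝ hG).sub_const 1).div_const δ).congr_deriv ?_
      rw [real_inner_comm (gradient u (z + t • ξ)) (fderiv ℝ (gradient u) (z + t • ξ) ξ)]
      ring)
    (fun ξ => by
      have hG := (hasFDerivAt_gradient hs hu hzs).differentiableAt
      have hH := differentiableAt_hess hs hu hzs ξ
      exact (((hG.inner ℝ hH).const_mul 2).mul_const δ⁻¹))
    (by
      have hG : HasDerivAt (fun t : ℝ => gradient u (z + t • V)) a 0 := by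
        simpa [ha, hH] using (line_derivs hs hu z V (t := 0) (by simpa using hzs)).2.2
      refine (((hG.inner ℝ hacc).const_mul 2).div_const δ).congr_deriv ?_
      simp only [zero_smul, add_zero, real_inner_smul_right, ← hVdef, ← hH, ← ha, hf2]
      rw [inner_hess_gradient hs hu hzs, ← hVdef, ← hH, ← ha]
      ring) hn hmax
  simp only [zero_add, ← hVdef, ← hH] at h1 h2
  set n := 1 / 4 - aForm e δ z z with hn'
  set R := (⟪V, V⟫ - 1) / δ with hRdef
  set c := 2 * (1 / 16) * ((u z - ⟪e, z⟫) / δ) with hc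
  have hfirst : ∀ ξ, ⟪V, H ξ⟫ = ⟪a, ξ⟫ := fun ξ => inner_hess_gradient hs hu hzs ξ
  set g := (-4 / n) • aMap e δ z + (c / δ) • (V - e) with hg
  have hag : a = (-(δ * R) / 2) • g := by
    refine ext_inner_right ℝ fun ξ => ?_
    have h := h1 ξ
    rw [hfirst] at h
    rw [hg, real_inner_smul_left, inner_add_left, real_inner_smul_left, real_inner_smul_left,
      show ⟪aMap e δ z, ξ⟫ = aForm e δ z ξ from rfl]
    field_simp at h ⊢
    linear_combination h
  have hcσ : n * c * ((⟪V, V⟫ - ⟪e, V⟫) / δ) = 4 * aForm e δ z V := by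
    have hgV : ⟪g, V⟫ = 0 := by
      have := hzero
      rw [hag, real_inner_smul_left] at this
      exact (mul_eq_zero.1 this).resolve_left
        (div_ne_zero (neg_ne_zero.2 (mul_pos hδ hR).ne') two_ne_zero)
    rw [hg, inner_add_left, real_inner_smul_left, real_inner_smul_left, inner_sub_left,
      show ⟪aMap e δ z, V⟫ = aForm e δ z V from rfl] at hgV
    field_simp at hgV ⊢
    linarith
  set p := aForm e δ z V with hp
  set σ := (⟪V, V⟫ - ⟪e, V⟫) / δ with hσ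
  set B := aForm e δ V V with hB
  have hA : n ^ 2 * (⟪a, a⟫ / δ) = R * (R * (n ^ 2 * (δ * ⟪g, g⟫)) / 4) := by
    rw [hag, real_inner_smul_left, real_inner_smul_right]; field_simp; ring
  have hsec : n ^ 2 * σ ^ 2 / 8 ≤ 8 * p ^ 2 + 4 * n * B + R * (n ^ 2 * (δ * ⟪g, g⟫)) / 2 := by
    rw [hfirst, hzero, hf2] at h2
    have e1 : n * p * c * σ = 4 * p ^ 2 := by linear_combination p * hcσ
    have e2 : n ^ 2 * c ^ 2 * σ ^ 2 = 16 * p ^ 2 := by linear_combination (n * c * σ + 4 * p) * hcσ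
    rw [← sub_nonpos]
    refine nonpos_of_mul_nonpos_right (?_ : R * _ ≤ 0) hR
    linear_combination h2 + 8 * R * e1 - R * e2 + 2 * hA
  have hBz : aForm e δ z z ≤ 1 / 4 := by linarith
  have hc8 : |c| ≤ 1 / 8 := by
    rw [hc, abs_mul, show |(2 : ℝ) * (1 / 16)| = 1 / 8 by norm_num]; linarith
  refine upper_scalar hn (by rw [hn']; linarith [aForm_nonneg he hδ hδ1 z]) hR.le
    (φ := ⟪V - e, V - e⟫ / δ) (div_nonneg real_inner_self_nonneg hδ.le) ?_
    (aForm_nonneg he hδ hδ1 V) (aForm_vel_le he hδ hV) ?_ (g_sq_le he hδ hδ1 hn hBz hc8) hsec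
  · rw [hσ, hRdef, inner_sub_left, inner_sub_right, inner_sub_right, real_inner_comm e V,
      real_inner_self_eq_norm_sq e, he]
    field_simp
    ring
  · refine (aForm_sq_le he hδ hδ1 z V).trans ?_
    linarith [mul_le_mul_of_nonneg_right hBz (aForm_nonneg he hδ hδ1 V)]

/-- The squared gradient from below, at an interior maximum. -/
theorem lower_at_max (hs : IsOpen s) (hu : ContDiffOn ℝ 3 u s)
    (heq : ∀ z ∈ s, fderiv ℝ (fderiv ℝ u) z (gradient u z) (gradient u z) = 0)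
    (he : ‖e‖ = 1) (hδ : 0 < δ) (hδ1 : δ ≤ 1) (hzs : z ∈ s) (hV : ‖gradient u z‖ ≤ 2)
    (hn : 0 < 1 / 4 - aForm e δ z z)
    (hQ : 0 < (1 - ⟪gradient u z, gradient u z⟫) / (2 * δ))
    (hmax : IsLocalMax (fun y => (1 / 4 - aForm e δ y y) ^ 2 *
      Real.exp ((1 : ℝ) * ((u y - ⟪e, y⟫) / δ) + 0 * ((u y - ⟪e, y⟫) / δ) ^ 2) *
      ((1 - ⟪gradient u y, gradient u y⟫) / (2 * δ))) z) :
    (1 / 4 - aForm e δ z z) ^ 2 * ((1 - ⟪gradient u z, gradient u z⟫) / (2 * δ)) ≤ 50 := by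
  obtain ⟨hzero, hacc⟩ := grad_along hs hu heq hzs
  set V := gradient u z with hVdef
  set H := fderiv ℝ (gradient u) z with hH
  set a := H V with ha
  set f2 := ⟪a, a⟫ / δ with hf2
  obtain ⟨h1, h2⟩ := window_max hs hu heq hzs
    (F := fun y => (1 - ⟪gradient u y, gradient u y⟫) / (2 * δ))
    (F1 := fun y ξ => -⟪gradient u y, fderiv ℝ (gradient u) y ξ⟫ / δ) (f2 := f2)
    (fun ξ t ht => by
      have hG := (line_derivs hs hu z ξ ht).2.2
      refine (((hG.inner ℝ hG).const_sub (1 : ℝ)).div_const (2 * δ)).congr_deriv ?_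
      rw [real_inner_comm (gradient u (z + t • ξ)) (fderiv ℝ (gradient u) (z + t • ξ) ξ)]
      ring)
    (fun ξ => by
      have hG := (hasFDerivAt_gradient hs hu hzs).differentiableAt
      have hH := differentiableAt_hess hs hu hzs ξ
      exact ((hG.inner ℝ hH).neg.mul_const δ⁻¹))
    (by
      have hG : HasDerivAt (fun t : ℝ => gradient u (z + t • V)) a 0 := by
        simpa [ha, hH] using (line_derivs hs hu z V (t := 0) (by simpa using hzs)).2.2
      refine ((hG.inner ℝ hacc).neg.div_const δ).congr_deriv ?_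
      simp only [zero_smul, add_zero, real_inner_smul_right, ← hVdef, ← hH, ← ha, hf2]
      rw [inner_hess_gradient hs hu hzs, ← hVdef, ← hH, ← ha]
      ring) hn hmax
  simp only [zero_add, add_zero, mul_zero, zero_mul, one_pow, one_mul, ← hVdef, ← hH] at h1 h2
  set n := 1 / 4 - aForm e δ z z with hn'
  set Q := (1 - ⟪V, V⟫) / (2 * δ) with hQdef
  have hfirst : ∀ ξ, ⟪V, H ξ⟫ = ⟪a, ξ⟫ := fun ξ => inner_hess_gradient hs hu hzs ξ
  set g := (-4 / n) • aMap e δ z + (1 / δ) • (V - e) with hg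
  have hag : a = (δ * Q) • g := by
    refine ext_inner_right ℝ fun ξ => ?_
    have h := h1 ξ
    rw [hfirst] at h
    rw [hg, real_inner_smul_left, inner_add_left, real_inner_smul_left, real_inner_smul_left,
      show ⟪aMap e δ z, ξ⟫ = aForm e δ z ξ from rfl]
    field_simp at h ⊢
    linear_combination (-1 : ℝ) * h
  have hσp : n * ((⟪V, V⟫ - ⟪e, V⟫) / δ) = 4 * aForm e δ z V := by
    have hgV : ⟪g, V⟫ = 0 := by
      have := hzero
      rw [hag, real_inner_smul_left] at this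
      exact (mul_eq_zero.1 this).resolve_left (by positivity)
    rw [hg, inner_add_left, real_inner_smul_left, real_inner_smul_left, inner_sub_left,
      show ⟪aMap e δ z, V⟫ = aForm e δ z V from rfl] at hgV
    field_simp at hgV ⊢
    linarith
  set p := aForm e δ z V with hp
  set σ := (⟪V, V⟫ - ⟪e, V⟫) / δ with hσ
  set B := aForm e δ V V with hB
  have hA : n ^ 2 * (⟪a, a⟫ / δ) = Q * (Q * (n ^ 2 * (δ * ⟪g, g⟫))) := by
    rw [hag, real_inner_smul_left, real_inner_smul_right]; field_simp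
  have hsec : Q * (n ^ 2 * (δ * ⟪g, g⟫)) ≤ 8 * p ^ 2 + 4 * n * B := by
    rw [hfirst, hzero, hf2] at h2
    have e1 : n * p * σ = 4 * p ^ 2 := by linear_combination p * hσp
    have e2 : n ^ 2 * σ ^ 2 = 16 * p ^ 2 := by linear_combination (n * σ + 4 * p) * hσp
    rw [← sub_nonpos]
    refine nonpos_of_mul_nonpos_right (?_ : Q * _ ≤ 0) hQ
    linear_combination h2 + 8 * Q * e1 - Q * e2 - hA
  have hBz : aForm e δ z z ≤ 1 / 4 := by linarith
  refine lower_scalar hn (by rw [hn']; linarith [aForm_nonneg he hδ hδ1 z]) hQ.le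
    (φ := ⟪V - e, V - e⟫ / δ) ?_ hσp (aForm_nonneg he hδ hδ1 V) (aForm_vel_le he hδ hV) ?_
    (g_sq_ge he hδ hδ1 hn hBz) hsec
  · rw [hσ, hQdef, inner_sub_left, inner_sub_right, inner_sub_right, real_inner_comm e V,
      real_inner_self_eq_norm_sq e, he]
    field_simp
    ring
  · refine (aForm_sq_le he hδ hδ1 z V).trans ?_
    linarith [mul_le_mul_of_nonneg_right hBz (aForm_nonneg he hδ hδ1 V)]

/-- The direction, at an interior maximum. -/
theorem aDir_at_max (hs : IsOpen s) (hu : ContDiffOn ℝ 3 u s)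
    (heq : ∀ z ∈ s, fderiv ℝ (fderiv ℝ u) z (gradient u z) (gradient u z) = 0)
    (he : ‖e‖ = 1) (hδ : 0 < δ) (hδ1 : δ ≤ 1) (hzs : z ∈ s) (hV : ‖gradient u z‖ ≤ 2)
    (hU : |(u z - ⟪e, z⟫) / δ| ≤ 1)
    (hq : |(1 - ⟪gradient u z, gradient u z⟫) / δ| ≤ 38400)
    (hn : 0 < 1 / 16 - aForm e δ z z)
    (hf : 0 < ⟪gradient u z - e, gradient u z - e⟫ / δ)
    (hmax : IsLocalMax (fun y => (1 / 16 - aForm e δ y y) ^ 2 *
      Real.exp ((0 : ℝ) * ((u y - ⟪e, y⟫) / δ) + 1 / 16 * ((u y - ⟪e, y⟫) / δ) ^ 2) *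
      (⟪gradient u y - e, gradient u y - e⟫ / δ)) z) :
    (1 / 16 - aForm e δ z z) ^ 2 * (⟪gradient u z - e, gradient u z - e⟫ / δ) ≤ 1000 := by
  obtain ⟨hzero, hacc⟩ := grad_along hs hu heq hzs
  set V := gradient u z with hVdef
  set H := fderiv ℝ (gradient u) z with hH
  set a := H V with ha
  set f2 := 2 * (⟪V - e, (-2 : ℝ) • H a⟫ + ⟪a, a⟫) / δ with hf2
  obtain ⟨h1, h2⟩ := window_max hs hu heq hzs
    (F := fun y => ⟪gradient u y - e, gradient u y - e⟫ / δ)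
    (F1 := fun y ξ => 2 * ⟪gradient u y - e, fderiv ℝ (gradient u) y ξ⟫ / δ) (f2 := f2)
    (fun ξ t ht => by
      have hG := (line_derivs hs hu z ξ ht).2.2.sub_const e
      refine ((hG.inner ℝ hG).div_const δ).congr_deriv ?_
      rw [real_inner_comm (gradient u (z + t • ξ) - e) (fderiv ℝ (gradient u) (z + t • ξ) ξ)]
      ring)
    (fun ξ => by
      have hG := (hasFDerivAt_gradient hs hu hzs).differentiableAt
      have hH := differentiableAt_hess hs hu hzs ξ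
      exact ((((hG.sub_const e).inner ℝ hH).const_mul 2).mul_const δ⁻¹))
    (by
      have hG : HasDerivAt (fun t : ℝ => gradient u (z + t • V)) a 0 := by
        simpa [ha, hH] using (line_derivs hs hu z V (t := 0) (by simpa using hzs)).2.2
      refine ((((hG.sub_const e).inner ℝ hacc).const_mul 2).div_const δ).congr_deriv ?_
      simp only [zero_smul, add_zero, ← hVdef, ← hH, ← ha, hf2]) hn hmax
  simp only [zero_add, ← hVdef, ← hH] at h1 h2
  set n := 1 / 16 - aForm e δ z z with hn'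
  set φ := ⟪V - e, V - e⟫ / δ with hφ
  set c := 2 * (1 / 16) * ((u z - ⟪e, z⟫) / δ) with hc
  have hsym : ∀ ξ, ⟪V - e, H ξ⟫ = ⟪H (V - e), ξ⟫ := fun ξ => by
    rw [real_inner_comm, hH, hess_symm hs hu hzs]
  set g := (-4 / n) • aMap e δ z + (c / δ) • (V - e) with hg
  have hHg : H (V - e) = (-(δ * φ) / 2) • g := by
    refine ext_inner_right ℝ fun ξ => ?_
    have h := h1 ξ
    rw [hsym] at h
    rw [hg, real_inner_smul_left, inner_add_left, real_inner_smul_left, real_inner_smul_left,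
      show ⟪aMap e δ z, ξ⟫ = aForm e δ z ξ from rfl]
    field_simp at h ⊢
    linear_combination h
  set p := aForm e δ z V with hp
  set σ := (⟪V, V⟫ - ⟪e, V⟫) / δ with hσ
  set B := aForm e δ V V with hB
  set fd := 2 * ⟪V - e, a⟫ / δ with hfd
  have hfdv : n * fd = φ * (4 * p - n * c * σ) := by
    have h := h1 V
    rw [← hp, ← ha, inner_sub_left, ← hfd] at h
    rw [hσ]
    linear_combination h
  have hHa : 2 * (⟪V - e, (-2 : ℝ) • H a⟫ + ⟪a, a⟫) / δ =
      2 * (⟪a, a⟫ / δ) + 2 * φ * (-4 * ⟪aMap e δ z, a⟫ / n + c * (fd / 2)) := by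
    rw [real_inner_smul_right, hsym, hHg, real_inner_smul_left, hg, inner_add_left,
      real_inner_smul_left, real_inner_smul_left, hfd]
    field_simp
    ring
  have hBz : aForm e δ z z ≤ 1 / 16 := by linarith
  refine aDir_scalar (σ := σ) (q := (1 - ⟪V, V⟫) / δ) (c := c) (AA := ⟪a, a⟫ / δ)
    (az := ⟪aMap e δ z, a⟫) (fd := fd) hn (by rw [hn']; linarith [aForm_nonneg he hδ hδ1 z]) hf ?_
    hq ?_ (aForm_nonneg he hδ hδ1 V) (aForm_vel_le he hδ hV) ?_ ?_ hfdv ?_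
  · rw [hφ, hσ, inner_sub_left, inner_sub_right, inner_sub_right, real_inner_comm e V,
      real_inner_self_eq_norm_sq e, he]
    field_simp
    ring
  · rw [hc, abs_mul, show |(2 : ℝ) * (1 / 16)| = 1 / 8 by norm_num]; linarith
  · refine (aForm_sq_le he hδ hδ1 z V).trans ?_
    linarith [mul_le_mul_of_nonneg_right hBz (aForm_nonneg he hδ hδ1 V)]
  · have h3 := real_inner_mul_inner_self_le (aMap e δ z) a
    have h4 := aMap_sq_le he hδ hδ1 z
    have h5 := mul_le_mul_of_nonneg_right (h4.trans hBz) (real_inner_self_nonneg (x := a))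
    rw [div_div, le_div_iff₀ (by positivity)]
    have h6 := mul_le_mul_of_nonneg_left h3 hδ.le
    linarith
  · rw [← hf2] at hHa
    rw [hHa] at h2
    refine le_of_eq_of_le ?_ h2
    ring

end Max

/-- On the smaller window the squared gradient is `1 + O(δ)` and the gradient `e + O(√δ)`. -/
theorem window_est (hs : IsOpen s) (hu : ContDiffOn ℝ 3 u s)
    (heq : ∀ z ∈ s, fderiv ℝ (fderiv ℝ u) z (gradient u z) (gradient u z) = 0)
    {e : E} (he : ‖e‖ = 1) {δ : ℝ} (hδ : 0 < δ) (hδ1 : δ ≤ 1)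
    (hsub : ∀ y, aForm e δ y y ≤ 1 / 4 → y ∈ s)
    (hflat : ∀ y, aForm e δ y y ≤ 1 / 4 → |u y - ⟪e, y⟫| ≤ δ)
    (hG2 : ∀ y, aForm e δ y y ≤ 1 / 4 → ‖gradient u y‖ ≤ 2)
    {x : E} (hx : aForm e δ x x ≤ 1 / 64) :
    |1 - ⟪gradient u x, gradient u x⟫| ≤ 38400 * δ ∧
      ‖gradient u x - e‖ ^ 2 ≤ 5062500 * δ := by
  have hGc : ∀ r ≤ (1 / 4 : ℝ), ContinuousOn (gradient u) {y | aForm e δ y y ≤ r} := fun r hr y hy =>
    (hasFDerivAt_gradient hs hu (hsub y (le_trans hy hr))).continuousAt.continuousWithinAt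
  have huc : ∀ r ≤ (1 / 4 : ℝ), ContinuousOn u {y | aForm e δ y y ≤ r} := fun r hr =>
    hu.continuousOn.mono fun y hy => hsub y (le_trans hy hr)
  have hU : ∀ y, aForm e δ y y ≤ 1 / 4 → |(u y - ⟪e, y⟫) / δ| ≤ 1 := fun y hy => by
    rw [abs_div, abs_of_pos hδ, div_le_one hδ]; exact hflat y hy
  have hlev : ∀ y, aForm e δ y y ≤ 1 / 16 → |1 - ⟪gradient u y, gradient u y⟫| ≤ 38400 * δ := by
    intro y hy
    have hy4 : aForm e δ y y ≤ 1 / 4 := by linarith
    have hn : (9 : ℝ) / 256 ≤ (1 / 4 - aForm e δ y y) ^ 2 :=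
      le_trans (by norm_num) (pow_le_pow_left₀ (by norm_num)
        (show (3 : ℝ) / 16 ≤ 1 / 4 - aForm e δ y y by linarith) 2)
    have hc := hGc _ le_rfl
    have hup := window_bound he hδ hδ1 (k := 0) (μ := 1 / 16) (M := 150) (by norm_num)
      (by norm_num) (huc _ le_rfl) hflat (F := fun w => (⟪gradient u w, gradient u w⟫ - 1) / δ)
      (by fun_prop) (fun z hn hF hm => upper_at_max hs hu heq he hδ hδ1
        (hsub z (by linarith)) (hG2 z (by linarith)) (hU z (by linarith)) hn hF hm) hy4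
    have hlo := window_bound he hδ hδ1 (k := 1) (μ := 0) (M := 50) (by norm_num)
      (by norm_num) (huc _ le_rfl) hflat
      (F := fun w => (1 - ⟪gradient u w, gradient u w⟫) / (2 * δ))
      (by fun_prop) (fun z hn hF hm => lower_at_max hs hu heq he hδ hδ1
        (hsub z (by linarith)) (hG2 z (by linarith)) hn hF hm) hy4
    rw [abs_le]
    constructor
    · rcases le_or_gt ((⟪gradient u y, gradient u y⟫ - 1) / δ) 0 with h | h
      · rw [div_le_iff₀ hδ] at h; linarith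
      · have h1 := (mul_le_mul_of_nonneg_right hn h.le).trans hup
        have h2 : (⟪gradient u y, gradient u y⟫ - 1) / δ ≤ 38400 := by linarith
        rw [div_le_iff₀ hδ] at h2
        linarith
    · rcases le_or_gt ((1 - ⟪gradient u y, gradient u y⟫) / (2 * δ)) 0 with h | h
      · rw [div_le_iff₀ (by positivity)] at h; linarith
      · have h1 := (mul_le_mul_of_nonneg_right hn h.le).trans hlo
        have h2 : (1 - ⟪gradient u y, gradient u y⟫) / (2 * δ) ≤ 12800 := by linarith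
        rw [div_le_iff₀ (by positivity)] at h2
        linarith
  refine ⟨hlev x (by linarith), ?_⟩
  have hq : ∀ y, aForm e δ y y ≤ 1 / 16 →
      |(1 - ⟪gradient u y, gradient u y⟫) / δ| ≤ 38400 := fun y hy => by
    rw [abs_div, abs_of_pos hδ, div_le_iff₀ hδ]; exact hlev y hy
  have hc := hGc (1 / 16) (by norm_num)
  have hdir := window_bound he hδ hδ1 (k := 0) (μ := 1 / 16) (M := 1000) (by norm_num)
    (by norm_num) (huc (1 / 16) (by norm_num)) (fun y hy => hflat y (by linarith))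
    (F := fun w => ⟪gradient u w - e, gradient u w - e⟫ / δ) (by fun_prop)
    (fun z hn hF hm => aDir_at_max hs hu heq he hδ hδ1 (hsub z (by linarith))
      (hG2 z (by linarith)) (hU z (by linarith)) (hq z (by linarith)) hn hF hm)
    (x := x) (by linarith)
  have hn : (9 : ℝ) / 4096 ≤ (1 / 16 - aForm e δ x x) ^ 2 :=
    le_trans (by norm_num) (pow_le_pow_left₀ (by norm_num)
      (show (3 : ℝ) / 64 ≤ 1 / 16 - aForm e δ x x by linarith) 2)
  have h1 := (mul_le_mul_of_nonneg_right hn (div_nonneg real_inner_self_nonneg hδ.le)).trans hdir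
  rw [← real_inner_self_eq_norm_sq]
  have h2 : ⟪gradient u x - e, gradient u x - e⟫ / δ ≤ 5062500 := by linarith
  rwa [div_le_iff₀ hδ] at h2

end Vale.Agent.P080
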